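import Vale.Agent.P014Y.C.Al.Axm0

/-!
# P014 Y, block AL: row AXM
-/

set_option linter.all false

noncomputable section

namespace Vale.Agent.P014Y.C.Al

open NumberField Module Ideal Matrix IsDedekindDomain
open scoped Classical

open Kn Cl Am in
/-- **the minus system** -/
theorem axm (hP : PRC) (hN : LINS) (hL : LGM) (hU : UNM) (hS : SYS) (hT : SPL) : AXM := by
  intro K _ _ ι J Ω hB A M N _ _ _ _ _ _ _ _ _ _ _ τ j h2 τ1 hy
  obtain ⟨ℓ, l1, l2, l3, l4⟩ := hL K ι J Ω hB M N τ h2 τ1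
  obtain ⟨ε, e1, e2⟩ := hU K ι J Ω hB M N τ h2 τ1
  obtain ⟨t1, t2, t3⟩ := hT M N τ h2 τ1
  have tt := fun x => (t1 x).2
  obtain ⟨h, h0, hπ⟩ := Gx.ex_pow (𝓞 M)
  obtain ⟨h', h0', hπ'⟩ := Gx.ex_pow (𝓞 N)
  obtain ⟨n₀, N0, v1⟩ := Gx.pow_v1 (ι := ι) (J := J) (M := N) 2
  replace v1 : ∀ x : 𝓞 N, IsCoprime x 3 → V1 ι J 2 ((x : N) ^ n₀) := fun x k =>
    v1 x ((sup_eq_top_iff_isCoprime _ _).2 k)
  obtain ⟨co, co1, co2, co3⟩ := Am.ex_co tt (fun u => v1 u ⟨u⁻¹.1, 0, by simp⟩) e1 e2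
  have en : ∀ k : Fin (finrank K M) → ℕ, V1 ι J 2 (((∏ i, ε i ^ k i : (𝓞 N)ˣ) : 𝓞 N) : N) ∧
      (((∏ i, ε i ^ k i : (𝓞 N)ˣ) : 𝓞 N) : N) * τ ((∏ i, ε i ^ k i : (𝓞 N)ˣ) : 𝓞 N) = 1 :=
    fun k => (e1 _).2 ⟨fun i => k i, by simp⟩
  have ev : ∀ i, V1 ι J 2 ((ε i : 𝓞 N) : N) := fun i =>
    ((e1 _).2 ⟨Pi.single i 1, by simp [Pi.single_apply, apply_ite (ε _ ^ ·)]⟩).1
  obtain ⟨r, c₀, k, μ, l, u, n1, n2, n3, n4, n5⟩ := hN _ (Matrix.of fun s => ℓ (ε s : 𝓞 N))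
  obtain ⟨E, E', c₁, E0, E1, hc⟩ := hP K ι J Ω hB N A j hy
  obtain ⟨x₀, hx₀⟩ := ex_mv τ1
  have e0 : h' * (n₀ * (3 ^ c₀ * E')) ≠ 0 := by positivity
  have q0 : h * 3 ^ c₁ * (4 * n₀) ≠ 0 := by positivity
  refine ⟨r, v3 E + v3 (h' * (n₀ * (3 ^ c₀ * E'))) + v3 (h * 3 ^ c₁ * (4 * n₀)),
    fun t t0 m B m2 mB => ?_⟩
  generalize hc' : v3 E + v3 (h' * (n₀ * (3 ^ c₀ * E'))) + v3 (h * 3 ^ c₁ * (4 * n₀)) = c
  let ρ : ℤ_[3] →+* ZMod (3 ^ B) := PadicInt.toZModPow B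
  have ρ0 : ∀ x, ρ x = 0 ↔ 3 ^ B ∣ x := fun x => by
    rw [← RingHom.mem_ker, PadicInt.ker_toZModPow, mem_span_singleton, Nat.cast_ofNat]
  have ρs : Function.Surjective ρ := ZMod.ringHom_surjective ρ
  have g0 : ∀ x, V1 ι J 2 x → (V1 ι J (B + 2) (x / τ x) ↔ ρ ∘ ℓ x = 0) := fun x a => by
    simp only [l3 x B a, funext_iff, Function.comp, Pi.zero_apply, ρ0]
  have g1 : ∀ x y, V1 ι J 2 x → V1 ι J 2 y → ρ ∘ ℓ (x * y) = ρ ∘ ℓ x + ρ ∘ ℓ y :=
    fun x y a b => funext fun i => by simp [l1 x y a b]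
  obtain ⟨g2, g3⟩ := pa (f := fun x => ρ ∘ ℓ x) Gx.v1_one (fun _ _ => Gx.v1_mul) g1
  have gu : ∀ y : Fin (finrank K M) → ZMod (3 ^ B),
      ρ ∘ ℓ ((∏ s, ε s ^ (y s).val : (𝓞 N)ˣ) : 𝓞 N) = ∑ s, y s • ρ ∘ ℓ (ε s : 𝓞 N) := fun y => by
    have := (g3 _ _ (fun s => (y s).val) ev).2
    simp only [vs] at this
    rw [← this]
    simp only [Units.coe_prod, Units.val_pow_eq_pow_val, RingOfIntegers.coe_eq_algebraMap,
      map_prod, map_pow]
  let lam : Fin r → (𝓞 N)ˣ →* Multiplicative (ZMod (3 ^ B)) := fun i =>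
    MonoidHom.mk' (fun w => .ofAdd (ρ ∘ μ i ⬝ᵥ fun s => (co w s : ZMod (3 ^ B)))) fun a b =>
      congrArg Multiplicative.ofAdd ((congrArg (ρ ∘ μ i ⬝ᵥ ·) (funext fun s => by
        simp [co1])).trans (dotProduct_add _ _ _))
  choose z z1 z2 z3 z4 using fun i => l4 (u i) (B + 2)
  replace z4 : ∀ i, ρ ∘ ℓ (z i) = ρ ∘ u i := fun i => funext fun s => by
    rw [← sub_eq_zero, Function.comp, Function.comp, ← map_sub, ρ0]
    exact (pow_dvd_pow 3 (Nat.le_add_right B 2)).trans (z4 i s)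
  obtain ⟨G, hG⟩ := (inferInstance : Monoid.FG (𝓞 N)ˣ).fg_top
  have z0 : ∀ a : ZMod (3 ^ B), 3 ^ B • a = 0 := fun a => by
    rw [nsmul_eq_mul, ZMod.natCast_self, zero_mul]
  have T0 : algebraMap (𝓞 M) (𝓞 N) t * (ti τ x₀ - x₀) ≠ 0 :=
    mul_ne_zero ((map_ne_zero_iff _ (FaithfulSMul.algebraMap_injective _ _)).2 t0) hx₀
  obtain ⟨nr, inj, hW⟩ := pick (fun i (q : ℕ) => ∃ W : Ideal (𝓞 N), absNorm W = q ∧ q.Prime ∧
      (W.IsMaximal ∧ algebraMap (𝓞 M) (𝓞 N) t * (ti τ x₀ - x₀) ∉ W) ∧ Ine A W ∧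
      (∃ g : 𝓞 N, W ^ E = span {g} ∧ V1 ι J (B + 2) ((g : N) / (z i : N) ^ E')) ∧
      ∃ δ : Nˣ →* Multiplicative (ZMod (3 ^ B)), Tm W δ ∧
        ∀ v, (δ (um N v)).toAdd = 3 ^ c₁ • (lam i v).toAdd)
    fun i S => by
      obtain ⟨W, a1, a2, a3, a4, δ, a5, a6⟩ := hc B (z i) (z1 i) (z2 i) G (fun v => um N v.1)
        (fun v => (lam i v.1).toAdd) (fun n ⟨r, hr⟩ => by
          simp only [← map_pow, ← map_prod] at hr
          obtain ⟨v, hv⟩ := unit_root (NeZero.ne (3 ^ B)) hr.symm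
          have := congrArg (fun u => (lam i u).toAdd) hv
          simp only [map_pow, map_prod, toAdd_pow, toAdd_prod, z0] at this
          exact this.symm) (fun _ v => ⟨v.1, rfl⟩)
        (S ∪ (absNorm (span {algebraMap (𝓞 M) (𝓞 N) t * (ti τ x₀ - x₀)})).primeFactors)
      rw [Finset.mem_union, not_or] at a2
      refine ⟨_, a2.1, W, rfl, a1, of_norm a1 T0 a2.2, a3, a4, δ, a5, fun v => ?_⟩
      refine congrArg Multiplicative.toAdd (DFunLike.congr_fun (MonoidHom.eq_of_eqOn_denseM hG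
        (f := δ.comp (um N)) (g := lam i ^ 3 ^ c₁) fun v hv => ?_) v)
      exact Multiplicative.toAdd.injective (a6 ⟨v, hv⟩)
  choose w w0 wp w1 w3 w4 δ w6 w7 using hW
  choose γ γ1 γ2 using w4
  have ne : ∀ i, cj τ (w i) ≠ w i := fun i =>
    cj_ne (w0 i ▸ wp i) fun m => (w1 i).2 ((w i).mul_mem_left _ m)
  have sp := fun i => (t3 _ (w1 i).1).2 (ne i)
  have mx : ∀ i, ((w i).under (𝓞 M)).IsMaximal := fun i =>
    haveI := (w1 i).1
    IsMaximal.under (𝓞 M) (w i)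
  obtain ⟨s1, -, -, -⟩ := hS M B t
  obtain ⟨-, -, -, ho⟩ := hS N B 1
  have uk : ∀ i (v : (𝓞 M)ˣ), δ i (Units.map (algebraMap M N : M →* N) (um M v)) = 1 :=
    fun i v => Multiplicative.toAdd.injective (by
      have := w7 i (Units.map (algebraMap (𝓞 M) (𝓞 N) : 𝓞 M →* 𝓞 N) v)
      have k0 := co2 (Units.map (algebraMap (𝓞 M) (𝓞 N) : 𝓞 M →* 𝓞 N) v)
        (uc_inj (τ.commutes ((v : 𝓞 M) : M)))
      rw [show (lam i (Units.map (algebraMap (𝓞 M) (𝓞 N) : 𝓞 M →* 𝓞 N) v)).toAdd = 0 by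
        show (ρ ∘ μ i ⬝ᵥ fun s => (co _ s : ZMod (3 ^ B))) = 0
        rw [k0]
        simp [dotProduct], smul_zero] at this
      exact this)
  obtain ⟨Φ, φ, Y, hφ⟩ := s1 _ (fun i => (w i).under (𝓞 M)) h
    (fun i => (δ i).comp (Units.map (algebraMap M N : M →* N))) mx
    (fun i i' e => inj ((Nat.prime_dvd_prime_iff_eq (wp i) (wp i')).1 (nat_dvd (w1 i).1.isPrime
      (wp i) (w0 i ▸ absNorm_mem _) (by
        have : (nr i' : 𝓞 M) ∈ (w i').under (𝓞 M) :=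
          mem_comap.2 (by rw [map_natCast, ← w0]; exact absNorm_mem _)
        simpa using mem_comap.1 (e.ge this)))))
    (fun i m => (w1 i).2 ((w i).mul_mem_right _ m)) hπ
    (fun i b x e m => w6 i _ (algebraMap (𝓞 M) (𝓞 N) x) (congrArg (algebraMap M N) e)
      (by simpa using mem_comap.1 m))
    fun v => Finset.prod_eq_one fun i _ => uk i v
  let f : Fin r → N → ZMod (3 ^ B) := fun i x => if hx : x = 0 then φ i 0 else
    h • (δ i (Units.mk0 x hx)).toAdd + oi (w i) x • Φ ((w i).under (𝓞 M))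
  have f1 : ∀ i (b : Nˣ), f i b = h • (δ i b).toAdd + oi (w i) (b : N) • Φ ((w i).under (𝓞 M)) :=
    fun i b => by simp only [f, dif_neg b.ne_zero, Units.mk0_val]
  have f2 : (fun i x => f i (algebraMap M N x)) = φ := funext₂ fun i x => by
    by_cases hx : x = 0
    · simp only [hx, map_zero, f, dif_pos]
    · exact (f1 i (Units.map (algebraMap M N : M →* N) (Units.mk0 x hx))).trans
        ((congrArg (fun n : ℤ => _ + n • _) ((sp i).2.2.2 x)).trans (hφ i (Units.mk0 x hx)).symm)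
  have f3 : ∀ i (v : (𝓞 N)ˣ), f i (v : 𝓞 N) = h • (δ i (um N v)).toAdd := fun i v =>
    (f1 i (um N v)).trans (by
      haveI := (w1 i).1.isPrime
      rw [show oi (w i) (um N v : N) = 0 from
        (ho _ (w1 i).1).2.1 _ (notMem_of_isUnit _ v.isUnit), zero_smul, add_zero])
  have mB' : m ≤ B + 2 := mB.trans (Nat.le_add_right B 2)
  have γ3 : ∀ i, V1 ι J 2 (γ i : N) ∧ ρ ∘ ℓ (γ i) = E' • ρ ∘ u i ∧
      V1 ι J m ((γ i : N) * τ (γ i)) := fun i => by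
    obtain ⟨b1, b2⟩ := g2 _ E' (z1 i)
    have b3 := Gx.v1_mono (Nat.le_add_left 2 B) (γ2 i)
    have e := div_mul_cancel₀ (γ i : N) (Gx.v1_unit one_le_two b1).1
    rw [← e]
    refine ⟨Gx.v1_mul b3 b1, by rw [g1 _ _ b3 b1, (g0 _ b3).1 (v1_div (by omega) (γ2 i)), b2, z4,
      zero_add], Gx.v1_mono mB' ?_⟩
    rw [map_mul, mul_mul_mul_comm, map_pow, ← mul_pow]
    exact Gx.v1_mul (Gx.v1_mul (γ2 i) (v1_tau (γ2 i))) (Gx.v1_pow (z3 i) _)
  refine ⟨w, Φ, f, ⟨f2 ▸ Y, fun i => (w1 i).1, ne, fun i x y a b => ?_, fun i x a => ?_,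
    fun i v => ?_, E, E0, by omega, fun i => ⟨Algebra.intNorm (𝓞 M) (𝓞 N) (γ i), v1_down (N := N) ?_,
      ?_⟩⟩, w3, ⟨_, e0, by omega, fun I I0 I2 => ?_⟩, fun y => ?_⟩
  · have := f1 i (Units.mk0 x a * Units.mk0 y b)
    rw [map_mul, toAdd_mul, Units.val_mul, Units.val_mk0, Units.val_mk0,
      (ho _ (w1 i).1).1 x y a b] at this
    rw [this, show f i x = _ from f1 i (Units.mk0 x a), show f i y = _ from f1 i (Units.mk0 y b),
      smul_add, add_smul]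
    exact add_add_add_comm _ _ _ _
  · have n : x ∉ w i := fun m => (w1 i).1.isPrime.one_notMem (by simpa using (w i).sub_mem m a)
    have := f1 i (Units.mk0 (x : N) (RingOfIntegers.coe_ne_zero_iff.2 fun e => n (e ▸ zero_mem _)))
    rw [w6 i _ x rfl a, Units.val_mk0, (ho _ (w1 i).1).2.1 x n] at this
    simpa using this
  · exact (f3 i (Units.map (algebraMap (𝓞 M) (𝓞 N) : 𝓞 M →* 𝓞 N) v)).trans
      ((congrArg (fun z : Multiplicative (ZMod (3 ^ B)) => h • z.toAdd) (uk i v)).trans (by simp))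
  · rw [show ((Algebra.intNorm (𝓞 M) (𝓞 N) (γ i) : 𝓞 M) : M) = Algebra.norm M (γ i : N) from
      Algebra.algebraMap_intNorm (A := 𝓞 M) (K := M) (L := N) _, (t1 _).1]
    exact (γ3 i).2.2
  · rw [← relNorm_singleton, ← γ1, map_pow, (sp i).2.1]
  · obtain ⟨p, hp⟩ := hπ' I I0
    have p3 : IsCoprime p 3 := by
      rw [← sup_eq_top_iff_isCoprime, ← hp, ← isCoprime_iff_sup_eq]
      exact (isCoprime_iff_sup_eq.2 I2).pow_left
    generalize hy : ρ ∘ ℓ ((p : N) ^ n₀) = y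
    obtain ⟨ζ, hζ⟩ := Am.lin_mod n4 n5 ρ ρs (E' • y - ∑ i, (ρ ∘ l i ⬝ᵥ y) • E' • ρ ∘ u i)
      fun i => by
        simp only [dotProduct_sub, dotProduct_sum, dotProduct_smul, ← ρ.map_dotProduct, n4,
          apply_ite ρ, map_one, map_zero, smul_ite, smul_zero, Finset.sum_ite_eq, Finset.mem_univ,
          if_true]
        rw [smul_comm, smul_eq_mul, mul_one, sub_self]
    obtain ⟨a1, a2⟩ := g2 _ (3 ^ c₀ * E') (v1 p p3)
    obtain ⟨e, he⟩ : ∃ e : Fin r → ℕ, ∀ i, e i = 3 ^ c₀ * (ρ ∘ l i ⬝ᵥ y).val := ⟨_, fun _ => rfl⟩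
    obtain ⟨b1, b2⟩ := g3 _ _ e fun i => (γ3 i).1
    have b3 := (en fun s => (ζ s).val).1
    have b4 := Gx.v1_mul b1 b3
    have b5 := g1 _ _ b1 b3
    rw [b2, gu, show ∑ s, ζ s • ρ ∘ ℓ _ = _ from hζ, show ∑ i, e i • ρ ∘ ℓ (γ i) =
      3 ^ c₀ • ∑ i, (ρ ∘ l i ⬝ᵥ y) • E' • ρ ∘ u i by
        simp only [(γ3 _).2.1, he, mul_smul (3 ^ c₀), vs, ← Finset.smul_sum],
      ← smul_add, add_sub_cancel] at b5
    let X : 𝓞 N := (∏ i, γ i ^ e i) * (∏ s, ε s ^ (ζ s).val : (𝓞 N)ˣ)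
    let P : 𝓞 N := p ^ (n₀ * (3 ^ c₀ * E'))
    have X1 : (X : N) = (∏ i, (γ i : N) ^ e i) * ((∏ s, ε s ^ (ζ s).val : (𝓞 N)ˣ) : 𝓞 N) := by
      simp only [X, RingOfIntegers.coe_eq_algebraMap, map_pow, map_mul, map_prod]
    have P1 : (P : N) = ((p : N) ^ n₀) ^ (3 ^ c₀ * E') := by
      simp only [P, RingOfIntegers.coe_eq_algebraMap, map_pow, pow_mul _ n₀]
    rw [← X1] at b4 b5
    rw [← P1] at a1 a2
    have X0 := (Gx.v1_unit one_le_two b4).1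
    have P0 := (Gx.v1_unit one_le_two a1).1
    have c1 : V1 ι J 2 ((P : N) / X) :=
      div_eq_mul_inv (P : N) X ▸ Gx.v1_mul a1 (Gx.v1_inv one_le_two b4)
    have c2 := g1 _ _ c1 b4
    rw [div_mul_cancel₀ _ X0, a2, b5, hy, mul_smul, right_eq_add] at c2
    have X2 : span {X} = ∏ i, w i ^ (E * e i) := by
      rw [span_singleton_mul_right_unit (Units.isUnit _), ← prod_span_singleton]
      simp only [← span_singleton_pow, ← γ1, ← pow_mul]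
    have P2 : span {P} = I ^ (h' * (n₀ * (3 ^ c₀ * E'))) := by
      rw [pow_mul, hp, span_singleton_pow]
    let cm : Ideal (𝓞 N) →* Ideal (𝓞 N) := ⟨⟨cj τ, by simp [cj]⟩, fun a b => (t2 a b).2.1⟩
    have tX : (τ X : N) ≠ 0 := (map_ne_zero τ).2 X0
    have tP : (τ P : N) ≠ 0 := (map_ne_zero τ).2 P0
    refine ⟨_, ev_of (y := P * ti τ X) (z := ti τ P * X) (P := ∏ i, cj τ (w i) ^ (E * e i))
      (P' := ∏ i, w i ^ (E * e i)) (Gx.v1_mono mB' ((g0 _ c1).2 c2))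
      (RingOfIntegers.coe_ne_zero_iff.1 (mul_ne_zero P0 tX))
      (RingOfIntegers.coe_ne_zero_iff.1 (mul_ne_zero tP X0)) ?_
      (Submonoid.prod_mem _ fun i _ => Submonoid.pow_mem _
        (Submonoid.subset_closure (Set.mem_range.2 ⟨(Fin.natAdd r i).succ, by
          rw [cons_val_succ, Fin.append_right]⟩)) _)
      (Submonoid.prod_mem _ fun i _ => Submonoid.pow_mem _
        (Submonoid.subset_closure (Set.mem_range.2 ⟨(Fin.castAdd r i).succ, by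
          rw [cons_val_succ, Fin.append_left]⟩)) _)
      ?_⟩
    · show _ * (τ P * X : N) = P * τ X
      rw [map_div₀]
      field_simp
    · rw [← span_singleton_mul_span_singleton P, ← span_singleton_mul_span_singleton _ X,
        ← cj_span tt, ← cj_span tt, X2, P2, show cj τ (I ^ _) = cj τ I ^ _ from map_pow cm _ _,
        show cj τ (∏ i, w i ^ (E * e i)) = ∏ i, cj τ (w i) ^ (E * e i) from
          (map_prod cm _ _).trans (Finset.prod_congr rfl fun i _ => map_pow cm _ _)]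
      ring
  · obtain ⟨α, hα⟩ := dv3 B (c := c) q0 (by omega)
    let ζ : Fin (finrank K M) → ZMod (3 ^ B) := ∑ i, (α * y i) • ρ ∘ k i
    let v : (𝓞 N)ˣ := ∏ s, ε s ^ (ζ s).val
    obtain ⟨b1, b2⟩ : V1 ι J 2 ((v : 𝓞 N) : N) ∧ ((v : 𝓞 N) : N) * τ (v : 𝓞 N) = 1 := en _
    have a1 : ρ ∘ ℓ (v : 𝓞 N) = 0 := by
      rw [gu]
      funext i
      have : ∀ j, ∑ s, ρ (k j s) * ρ (ℓ (ε s : 𝓞 N) i) = 0 := fun j => by
        simpa [vecMul, dotProduct] using congrArg ρ (congrFun (n1 j) i)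
      simp only [ζ, Finset.sum_apply, Pi.smul_apply, smul_eq_mul, Function.comp, Finset.sum_mul,
        mul_assoc]
      rw [Finset.sum_comm]
      simp only [← Finset.mul_sum, this, mul_zero, Finset.sum_const_zero, Pi.zero_apply]
    have a3 : ∀ i, (lam i v).toAdd = (2 * n₀) • (α * y i) := fun i => by
      show (ρ ∘ μ i ⬝ᵥ fun s => (co v s : ZMod (3 ^ B))) = _
      rw [show (fun s => (co v s : ZMod (3 ^ B))) = (2 * n₀) • ζ from funext fun s => by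
        rw [co3, Int.cast_natCast, Nat.cast_mul, ZMod.natCast_zmod_val, Pi.smul_apply,
          nsmul_eq_mul], dotProduct_smul]
      simp [ζ, dotProduct_sum, ← ρ.map_dotProduct, n2, apply_ite ρ]
    have c0 : (((v * v : (𝓞 N)ˣ) : 𝓞 N) : N) = (v : 𝓞 N) * (v : 𝓞 N) := rfl
    refine ⟨v * v, Gx.v1_mono mB' ?_, by rw [c0, map_mul, mul_mul_mul_comm, b2, mul_one],
      fun i => ?_⟩
    · have := (g0 _ b1).2 a1
      rwa [← inv_eq_of_mul_eq_one_right b2, div_inv_eq_mul] at this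
    · rw [f3, w7, map_mul, toAdd_mul, a3, ← hα]
      simp only [nsmul_eq_mul]
      push_cast
      ring

end Vale.Agent.P014Y.C.Al
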