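import Vale.Agent.P014Y.C.Al.Ups

/-!
# P014 Y, block AL: the minus system goes up a cubic step (row BUP)
-/

set_option linter.all false

open NumberField Module Ideal
open scoped Classical

noncomputable section

namespace Vale.Agent.P014Y.C.Al

namespace Up

open P004C.Cm

variable {M : Type} [Field M] [NumberField M] {N : Type} [Field N] [NumberField N] [Algebra M N]

/-- passage to an extension where the primes are inert -/
theorem sy_norm [IsGalois M N] {κ : Type} [Fintype κ] {t : 𝓞 M} {B : ℕ} {W : κ → Ideal (𝓞 M)}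
    {Φ : Ideal (𝓞 M) → ZMod (3 ^ B)} {φ : κ → M → ZMod (3 ^ B)} (X : Sy t B W Φ φ)
    (mx : ∀ i, Ine N (W i)) :
    Sy (algebraMap (𝓞 M) (𝓞 N) t) B (fun i => (W i).map (algebraMap (𝓞 M) (𝓞 N)))
      (fun I => Φ (relNorm (𝓞 M) I)) fun i x => φ i (Algebra.norm M x) := by
  haveI : Module.Finite M N := Module.Finite.of_restrictScalars_finite ℚ M N
  have u := fun i => cm (X.max i) (mx i)
  refine ⟨mx, fun i i' e => X.inj (by rw [← u, ← u i']; exact congrArg _ e),
    fun i m => X.cop i ((u i).le m), fun I I' a b c d => ?_, fun i x y a b => ?_,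
    fun i x k => ?_, fun x I e a b c => ?_⟩
  · rw [map_mul]
    exact X.add _ _ (relNorm_eq_bot_iff.not.2 a) (relNorm_eq_bot_iff.not.2 b)
      (fun i => (cop_rn (X.max i) I).2 (c i)) fun i => (cop_rn (X.max i) I').2 (d i)
  · rw [map_mul]
    exact X.loc i _ _ (Algebra.norm_ne_zero_iff.2 a) (Algebra.norm_ne_zero_iff.2 b)
  · rw [nmi]
    exact X.tam i _ (n1 (X.max i) (mx i) k)
  · simp only [nmi]
    refine X.prd _ _ (fun i => finrank (𝓞 M) (𝓞 N) * e i) (n0 a)
      (fun i => (cop_rn (X.max i) I).2 (b i)) ?_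
    rw [← relNorm_singleton, c, map_mul, map_prod]
    simp only [map_pow, relNorm_algebraMap, pow_mul]

variable {M' N' : Type} [Field M'] [NumberField M'] [Field N'] [NumberField N'] [Algebra M M']
  [Algebra M N'] [Algebra N N'] [Algebra M' N'] [IsScalarTower M N N'] [IsScalarTower M M' N']

/-- norms in a square of coprime degrees -/
theorem norm_sq [IsGalois M M'] [IsGalois N N'] (h1 : finrank M N = 2) (h2 : finrank M' N' = 2)
    (h3 : finrank M M' = 3) (x : M') :
    Algebra.norm N (algebraMap M' N' x) = algebraMap M N (Algebra.norm M x) := by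
  haveI : Module.Finite M M' := Module.Finite.of_restrictScalars_finite ℚ M M'
  haveI : Module.Finite N N' := Module.Finite.of_restrictScalars_finite ℚ N N'
  haveI : Module.Finite M' N' := Module.Finite.of_restrictScalars_finite ℚ M' N'
  haveI := gal2 h2
  have h4 : finrank N N' = 3 := by
    have a := finrank_mul_finrank M N N'
    have b := finrank_mul_finrank M M' N'
    rw [h1] at a
    rw [h2, h3] at b
    omega
  let ρ : (N' ≃ₐ[N] N') → (M' ≃ₐ[M] M') := fun σ => (σ.restrictScalars M).restrictNormal M'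
  have r : ∀ σ y, algebraMap M' N' (ρ σ y) = σ (algebraMap M' N' y) := fun σ y =>
    AlgEquiv.restrictNormal_commutes _ _ _
  have inj : Function.Injective ρ := fun σ σ' e => by
    have f : ∀ y, (σ'⁻¹ * σ) (algebraMap M' N' y) = algebraMap M' N' y := fun y => by
      rw [AlgEquiv.mul_apply, ← r, e, r, ← AlgEquiv.mul_apply, inv_mul_cancel, AlgEquiv.one_apply]
    rw [eq_comm, ← inv_mul_eq_one]
    generalize σ'⁻¹ * σ = s at f
    let s' : N' ≃ₐ[M'] N' := { s.toRingEquiv with commutes' := f }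
    have a : s ^ 3 = 1 := by rw [← h4, ← IsGalois.card_aut_eq_finrank, pow_card_eq_one']
    have b : s' ^ 2 = 1 := by rw [← h2, ← IsGalois.card_aut_eq_finrank, pow_card_eq_one']
    have c : s ^ 2 = 1 := AlgEquiv.ext fun y => by
      rw [pow_two] at b ⊢
      exact AlgEquiv.congr_fun b y
    rwa [pow_succ, c, one_mul] at a
  have bij : Function.Bijective ρ := inj.bijective_of_nat_card_le (by
    rw [IsGalois.card_aut_eq_finrank, IsGalois.card_aut_eq_finrank, h3, h4])
  apply (algebraMap N N').injective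
  rw [Algebra.norm_eq_prod_automorphisms, ← IsScalarTower.algebraMap_apply,
    IsScalarTower.algebraMap_apply M M' N', Algebra.norm_eq_prod_automorphisms, map_prod]
  exact bij.prod_comp (fun σ => algebraMap M' N' (σ x)) ▸ Finset.prod_congr rfl fun σ _ => (r σ x).symm

theorem cj_le {τ : N ≃ₐ[M] N} {τ' : N' ≃ₐ[M'] N'}
    (h : ∀ x, algebraMap N N' (τ x) = τ' (algebraMap N N' x)) (w : Ideal (𝓞 N)) :
    (cj τ w).map (algebraMap (𝓞 N) (𝓞 N')) ≤ cj τ' (w.map (algebraMap (𝓞 N) (𝓞 N'))) :=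
  map_le_iff_le_comap.2 fun y hy => by
    have : RingOfIntegers.mapAlgEquiv τ' (algebraMap (𝓞 N) (𝓞 N') y) =
        algebraMap (𝓞 N) (𝓞 N') (RingOfIntegers.mapAlgEquiv τ y) := RingOfIntegers.ext (h y).symm
    rw [mem_comap, cj, mem_comap, this]
    exact mem_map_of_mem _ hy

end Up

open Up in
theorem bup (spl : SPL) : BUP := by
  intro K _ _ ι J M N M' N' _ _ _ _ _ _ _ _ _ _ _ _ _ _ _ _ _ _ _ _ τ τ' h1 h2 h3 τ1 hτ s B m c t w
    Φ f X ine
  have τ1' : τ' ≠ 1 := fun e => τ1 (AlgEquiv.ext fun x => (algebraMap N N').injective (by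
    rw [hτ, e]
    rfl))
  obtain ⟨-, s2, s3⟩ := spl M N τ h1 τ1
  obtain ⟨-, s2', s3'⟩ := spl M' N' τ' h2 τ1'
  have e1 : ∀ w : Ideal (𝓞 N), (cj τ w).map (algebraMap (𝓞 N) (𝓞 N')) =
      cj τ' (w.map (algebraMap (𝓞 N) (𝓞 N'))) := fun w => (cj_le hτ w).antisymm (by
    have := cj_le hτ (cj τ w)
    rw [(s2 w ⊤).1] at this
    exact (comap_mono this).trans (s2' _ ⊤).1.le)
  have ij : Function.Injective (map (algebraMap (𝓞 N) (𝓞 N')) : Ideal (𝓞 N) → _) :=
    fun I I' e => by rw [← comap_map_eq_self_of_faithfullyFlat (B := 𝓞 N') I, e,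
      comap_map_eq_self_of_faithfullyFlat]
  have ij' : Function.Injective (map (algebraMap (𝓞 M') (𝓞 N')) : Ideal (𝓞 M') → _) :=
    fun I I' e => by rw [← comap_map_eq_self_of_faithfullyFlat (B := 𝓞 N') I, e,
      comap_map_eq_self_of_faithfullyFlat]
  have ne : ∀ i, cj τ' ((w i).map (algebraMap (𝓞 N) (𝓞 N'))) ≠ (w i).map (algebraMap (𝓞 N) (𝓞 N')) :=
    fun i e => X.ne i (ij (by rw [e1, e]))
  have e2 : ∀ i, ((w i).map (algebraMap (𝓞 N) (𝓞 N'))).under (𝓞 M') =
      ((w i).under (𝓞 M)).map (algebraMap (𝓞 M) (𝓞 M')) := fun i => ij' (by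
    rw [((s3' _ (ine i)).2 (ne i)).1, ← e1, ← Ideal.map_mul, ← ((s3 _ (X.max i)).2 (X.ne i)).1,
      map_map, map_map, ← IsScalarTower.algebraMap_eq, ← IsScalarTower.algebraMap_eq])
  have e3 : ∀ i, Ine M' ((w i).under (𝓞 M)) := fun i => by
    have : ((w i).map (algebraMap (𝓞 N) (𝓞 N'))).IsMaximal := ine i
    rw [Ine, ← e2]
    infer_instance
  haveI : Module.Finite N N' := Module.Finite.of_restrictScalars_finite ℚ N N'
  refine ⟨⟨?_, ine, ne, fun i x y a b => ?_, fun i x k => ?_, fun i u => ?_, ?_⟩,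
    fun i => ⟨e3 i, e2 i⟩⟩
  · simp only [e2, norm_sq h1 h2 h3]
    exact sy_norm X.sy e3
  · rw [map_mul]
    exact X.loc i _ _ (Algebra.norm_ne_zero_iff.2 a) (Algebra.norm_ne_zero_iff.2 b)
  · rw [nmi]
    exact X.tam i _ (n1 (X.max i) (ine i) k)
  · rw [norm_sq h1 h2 h3, nmi]
    exact X.un i (Units.map (Algebra.intNorm (𝓞 M) (𝓞 M')) u)
  · obtain ⟨E, E0, E1, k⟩ := X.gen
    refine ⟨E, E0, E1, fun i => ?_⟩
    obtain ⟨x, ⟨r, r1, r2⟩, x2⟩ := k i
    refine ⟨algebraMap (𝓞 M) (𝓞 M') x, ⟨r, r1, ?_⟩, ?_⟩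
    · have := map_isIntegral_int (algebraMap M M') r2
      rwa [map_mul, ← IsScalarTower.algebraMap_apply, map_div₀, map_sub, map_one, map_pow,
        map_ofNat] at this
    · rw [e2, ← Ideal.map_pow, ← x2, map_span, Set.image_singleton]

end Vale.Agent.P014Y.C.Al
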