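import Vale.Agent.P014Y.C.Defs
import Vale.Agent.P004C.Al.Eul

/-!
# P014 Y, C: the size of a Hecke character
-/

set_option linter.unusedSectionVars false

open NumberField Ideal Module
open scoped Classical

noncomputable section

namespace Vale.Agent.P014Y.C

open P004C.Al

variable {K : Type} [Field K] [NumberField K] {J : K →+* ℂ} {M : Type} [Field M] [NumberField M]

theorem norm_J (two : finrank ℚ K = 2) (im : IsEmpty (K →+* ℝ)) (J : K →+* ℂ) (x : K) :
    ‖J x‖ ^ 2 = |(Algebra.norm ℚ x : ℝ)| := by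
  have c : ∀ w : InfinitePlace K, w.IsComplex := fun w => InfinitePlace.not_isReal_iff_isComplex.1
    fun h => im.false (InfinitePlace.embedding_of_isReal h)
  have m : ∀ w : InfinitePlace K, w.mult = 2 := fun w => InfinitePlace.mult_isComplex ⟨w, c w⟩
  have s := InfinitePlace.sum_mult_eq (K := K)
  simp only [m, two, Finset.sum_const, smul_eq_mul, Finset.card_univ] at s
  have : Subsingleton (InfinitePlace K) := Fintype.card_le_one_iff_subsingleton.1 (by omega)
  have e := InfinitePlace.prod_eq_abs_norm x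
  rw [Fintype.prod_subsingleton _ (InfinitePlace.mk J), m, InfinitePlace.apply] at e
  exact_mod_cast e

/-- a power of an ideal prime to `f` has a generator which is `1` modulo `f` -/
theorem ex_gen {f I : Ideal (𝓞 M)} (hf : f ≠ ⊥) (h0 : I ≠ ⊥) (h : I ⊔ f = ⊤) :
    ∃ n, 0 < n ∧ ∃ x : 𝓞 M, x ≠ 0 ∧ x - 1 ∈ f ∧ span {x} = I ^ n := by
  have z : I ∈ nonZeroDivisors (Ideal (𝓞 M)) := mem_nonZeroDivisors_of_ne_zero h0
  have w : ClassGroup.mk0 (⟨I, z⟩ ^ Fintype.card (ClassGroup (𝓞 M))) = 1 := by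
    rw [map_pow, pow_card_eq_one]
  obtain ⟨y, hy⟩ := (ClassGroup.mk0_eq_one_iff (pow_mem z (Fintype.card (ClassGroup (𝓞 M))))).1 w
  have := finiteQuotientOfFreeOfNeBot f hf
  obtain ⟨a, ha, b, hb, e⟩ := isCoprime_iff_exists.1
    ((isCoprime_iff_sup_eq.2 h).pow_left (m := Fintype.card (ClassGroup (𝓞 M))))
  obtain ⟨c, rfl⟩ := mem_span_singleton'.1 (hy ▸ ha :)
  have u : IsUnit (Ideal.Quotient.mk f y) := IsUnit.of_mul_eq_one_right (Ideal.Quotient.mk f c) (by
    rw [← map_mul, ← map_one (Ideal.Quotient.mk f), ← e, map_add, Ideal.Quotient.eq_zero_iff_mem.2 hb, add_zero])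
  obtain ⟨m, m0, hm⟩ := (isOfFinOrder_of_finite u.unit).exists_pow_eq_one
  have k : span {y ^ m} = I ^ (Fintype.card (ClassGroup (𝓞 M)) * m) := by
    rw [pow_mul, hy, ← span_singleton_pow]
  refine ⟨_, Nat.mul_pos Fintype.card_pos m0, y ^ m, fun z => pow_ne_zero _ h0
    (k.symm.trans (span_singleton_eq_bot.2 z)), Ideal.Quotient.eq.1 ?_, k⟩
  simpa using congrArg Units.val hm

variable [Algebra K M] {k : ℕ} {f : Ideal (𝓞 M)} {a : Ideal (𝓞 M) → ℂ}

theorem HC.cm (h : HC J k f a) : Cm a := ⟨h.one, h.mul⟩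

theorem HC.bot (h : HC J k f a) : a ⊥ = 0 := (h.zero _).2 (.inl rfl)

/-- `|a I| = N(I) ^ (-k / 2)` -/
theorem HC.norm (two : finrank ℚ K = 2) (im : IsEmpty (K →+* ℝ)) (h : HC J k f a)
    {I : Ideal (𝓞 M)} (n : a I ≠ 0) : ‖a I‖ = (absNorm I : ℝ) ^ (-(k / 2 : ℝ)) := by
  have ⟨h0, hc⟩ := not_or.1 ((h.zero I).not.1 n)
  rw [not_not] at hc
  by_cases hf : f = ⊥
  · rw [hf, sup_bot_eq] at hc
    rw [hc, ← one_eq_top, h.one]
    simp
  obtain ⟨m, m0, x, x0, hx, e⟩ := ex_gen hf h0 hc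
  have e1 : ‖J (Algebra.norm K (x : M))‖ ^ 2 = (absNorm I : ℝ) ^ m := by
    rw [norm_J two im, Algebra.norm_norm, ← Nat.cast_pow, ← map_pow, ← e, absNorm_span_singleton,
      ← Algebra.coe_norm_int, Nat.cast_natAbs]
    simp
  have e2 := congrArg (fun z => ‖z‖ ^ 2) (h.prn x x0 hx)
  simp only [e, h.cm.pow, norm_pow, norm_inv] at e2
  rw [← pow_mul _ k, mul_comm k, pow_mul, inv_pow, e1, ← pow_mul] at e2
  refine (pow_left_inj₀ (norm_nonneg _) (by positivity) (n := m * 2) (by omega)).1 (e2.trans ?_)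
  rw [← Real.rpow_natCast, ← Real.rpow_natCast, ← Real.rpow_natCast, ← Real.rpow_neg_one,
    ← Real.rpow_mul (by positivity), ← Real.rpow_mul (by positivity),
    ← Real.rpow_mul (by positivity)]
  congr 1
  push_cast
  ring

theorem HC.le (two : finrank ℚ K = 2) (im : IsEmpty (K →+* ℝ)) (h : HC J k f a)
    (I : Ideal (𝓞 M)) : ‖a I‖ ≤ (absNorm I : ℝ) ^ (-(k / 2 : ℝ)) := by
  by_cases n : a I = 0
  · rw [n, norm_zero]; positivity
  · exact (h.norm two im n).le

theorem HC.sum (two : finrank ℚ K = 2) (im : IsEmpty (K →+* ℝ)) (h : HC J k f a) (hk : 3 ≤ k) :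
    Summable fun I => ‖a I‖ :=
  .of_nonneg_of_le (fun _ => norm_nonneg _) (h.le two im) (sum_norm M (by
    have : (3 : ℝ) ≤ k := by exact_mod_cast hk
    linarith))

end Vale.Agent.P014Y.C
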