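import Vale.Agent.P014Y.C.Defs
import Mathlib.RingTheory.Valuation.Integral
import Mathlib.RingTheory.Ideal.GoingUp
import Mathlib.Topology.Algebra.Valued.NormedValued

/-!
# P014 Y, C, block AL: the elements which are integral above `v`
-/

set_option linter.unusedSectionVars false

open NumberField Module
open scoped Classical

noncomputable section

namespace Vale.Agent.P014Y.C.Al.Gx

variable {K : Type} [Field K] [NumberField K] {ι : ℂ →+* ℂ_[3]} {J : K →+* ℂ}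
  {M : Type} [Field M] [NumberField M] [Algebra K M] {x y : M} {m : ℕ}

theorem nm_int {R : Type} [CommRing R] (f : R →+* ℂ_[3]) {x : R} (h : IsIntegral ℤ x) :
    ‖f x‖ ≤ 1 :=
  (Valuation.integer.integers (NormedField.valuation (K := ℂ_[3]))).mem_of_integral
    (h.map_of_comp_eq (Int.castRingHom _) f (RingHom.ext_int _ _))

theorem nm_le (s : 𝓞 K) : ‖ι (J s)‖ ≤ 1 := nm_int (ι.comp J) s.isIntegral_coe

theorem nm_two : ‖(3 : ℂ_[3])‖ = 1 / 3 := by
  have := (PadicComplex.norm_extends' 3 ((3 : ℕ) : ℚ_[3])).trans Padic.norm_p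
  rw [map_natCast, PadicComplex.coe_natCast] at this
  simpa using this

theorem nm_two' : ‖ι (J 3)‖ < 1 := by
  rw [map_ofNat, map_ofNat, nm_two]; norm_num

variable (ι J) in
/-- the prime `v` -/
def vv : Ideal (𝓞 K) where
  carrier := {s | ‖ι (J s)‖ < 1}
  add_mem' {a b} ha hb := by
    simpa using (IsUltrametricDist.norm_add_le_max (ι (J a)) (ι (J b))).trans_lt (max_lt ha hb)
  zero_mem' := by simp
  smul_mem' a b hb := by
    simpa using mul_lt_one_of_nonneg_of_lt_one_right (nm_le a) (norm_nonneg _) hb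

theorem mem_vv {s : 𝓞 K} : s ∈ vv ι J ↔ ‖ι (J s)‖ < 1 := Iff.rfl

theorem not_vv {s : 𝓞 K} : s ∉ vv ι J ↔ ‖ι (J s)‖ = 1 :=
  not_lt.trans ⟨(nm_le s).antisymm, Eq.ge⟩

theorem two_vv : (3 : 𝓞 K) ∈ vv ι J := nm_two'

theorem vv_prime : (vv ι J).IsPrime :=
  ⟨(Ideal.ne_top_iff_one _).2 (not_vv.2 (by simp)), fun {a b} h => by_contra fun k => by
    rw [not_or, not_vv, not_vv] at k
    exact not_vv.2 (by simp [k.1, k.2]) h⟩

theorem ne_of {s : 𝓞 K} (h : ‖ι (J s)‖ = 1) : algebraMap K M s ≠ 0 := by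
  rw [map_ne_zero]
  rintro k
  simp [k] at h

theorem int_s (s : 𝓞 K) : IsIntegral ℤ (algebraMap K M s) :=
  map_isIntegral_int _ s.isIntegral_coe

theorem coe_s (s : 𝓞 K) : ((algebraMap (𝓞 K) (𝓞 M) s : 𝓞 M) : M) = algebraMap K M s := rfl

variable (ι J M) in
/-- the ring of the elements which are integral above `v` -/
def Ov : Subring M where
  carrier := {x | Vi ι J x}
  mul_mem' := fun {x y} ⟨s, a, b⟩ ⟨t, c, d⟩ => ⟨s * t, by simp [a, c], by
    simpa only [map_mul, mul_mul_mul_comm] using b.mul d⟩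
  one_mem' := ⟨1, by simp, by simpa using isIntegral_one⟩
  add_mem' := fun {x y} ⟨s, a, b⟩ ⟨t, c, d⟩ => ⟨s * t, by simp [a, c], by
    have := ((int_s t).mul b).add ((int_s s).mul d)
    rw [mul_left_comm] at this
    simpa only [map_mul, mul_add, mul_assoc] using this⟩
  zero_mem' := ⟨1, by simp, by simpa using isIntegral_zero⟩
  neg_mem' := fun {x} ⟨s, a, b⟩ => ⟨s, a, by simpa using b.neg⟩

theorem mem_Ov : x ∈ Ov ι J M ↔ Vi ι J x := Iff.rfl

theorem int_Ov (a : 𝓞 M) : (a : M) ∈ Ov ι J M := ⟨1, by simp, by simpa using a.isIntegral_coe⟩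

/-- an ideal which is in no prime above `v` is prime to `v` -/
theorem pv_of {f : Ideal (𝓞 M)} (h : ∀ Q : Ideal (𝓞 M), Q.IsPrime → f ≤ Q →
    Q.comap (algebraMap (𝓞 K) (𝓞 M)) ≠ vv ι J) : Pv ι J f := by
  by_contra k
  have := vv_prime (ι := ι) (J := J)
  obtain ⟨Q, a, b, c⟩ := Ideal.exists_ideal_over_prime_of_isIntegral (vv ι J) f
    fun s hs => by_contra fun n => k ⟨s, not_vv.1 n, hs⟩
  exact h Q b a c

theorem pv_two {f : Ideal (𝓞 M)} (h : f ⊔ Ideal.span {3} = ⊤) : Pv ι J f :=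
  pv_of fun _ a b c => a.ne_top (top_unique (h ▸ sup_le b ((Ideal.span_singleton_le_iff_mem _).2
    (map_ofNat (algebraMap (𝓞 K) (𝓞 M)) 3 ▸ c.ge two_vv))))

theorem inv_Ov {a : 𝓞 M} (h : Pv ι J (Ideal.span {a})) : a ≠ 0 ∧ (a : M)⁻¹ ∈ Ov ι J M := by
  obtain ⟨s, h1, h2⟩ := h
  obtain ⟨b, hb⟩ := Ideal.mem_span_singleton'.1 h2
  have e : (b : M) * a = algebraMap K M s := congrArg (fun z : 𝓞 M => (z : M)) hb
  have n : (a : M) ≠ 0 := right_ne_zero_of_mul (e ▸ ne_of h1)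
  exact ⟨fun k => n (by simp [k]), s, h1, by
    rw [← e, mul_inv_cancel_right₀ n]; exact b.isIntegral_coe⟩

theorem half : (3 : M)⁻¹ ∉ Ov ι J M := fun ⟨s, a, b⟩ => by
  have e : algebraMap K M s * 3⁻¹ = algebraMap K M (s * 3⁻¹) := by simp [map_ofNat]
  rw [e, isIntegral_algebraMap_iff (algebraMap K M).injective] at b
  have := nm_int (ι.comp J) b
  simp only [RingHom.comp_apply, map_mul, map_inv₀, map_ofNat, norm_mul, norm_inv, a,
    nm_two] at this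
  norm_num at this

theorem v1_iff : V1 ι J m x ↔ ∃ a ∈ Ov ι J M, x = 1 + 3 ^ m * a :=
  ⟨fun h => ⟨_, h, by field_simp; ring⟩, fun ⟨a, h, e⟩ => by
    rwa [V1, e, add_sub_cancel_left, mul_div_cancel_left₀ _ (pow_ne_zero m three_ne_zero)]⟩

theorem v1_one : V1 ι J m (1 : M) := v1_iff.2 ⟨0, zero_mem _, by simp⟩

theorem v1_mem (h : V1 ι J m x) : x ∈ Ov ι J M := by
  obtain ⟨a, k, rfl⟩ := v1_iff.1 h
  exact add_mem (one_mem _) (mul_mem (pow_mem (ofNat_mem _ 3) m) k)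

theorem v1_mul (h : V1 ι J m x) (k : V1 ι J m y) : V1 ι J m (x * y) := by
  have hx := v1_mem h
  obtain ⟨a, ha, e⟩ := v1_iff.1 h
  obtain ⟨b, hb, rfl⟩ := v1_iff.1 k
  exact v1_iff.2 ⟨a + x * b, add_mem ha (mul_mem hx hb), by linear_combination e⟩

theorem v1_pow (h : V1 ι J m x) (n : ℕ) : V1 ι J m (x ^ n) := by
  induction n with
  | zero => simpa using v1_one
  | succ n k => exact pow_succ x n ▸ v1_mul k h

theorem v1_mono {m' : ℕ} (e : m ≤ m') (h : V1 ι J m' x) : V1 ι J m x := by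
  obtain ⟨a, ha, rfl⟩ := v1_iff.1 h
  obtain ⟨k, rfl⟩ := Nat.exists_eq_add_of_le e
  exact v1_iff.2 ⟨3 ^ k * a, mul_mem (pow_mem (ofNat_mem _ 3) k) ha, by ring⟩

/-- the elements which are `1` modulo `v` are units -/
theorem v1_unit (hm : 1 ≤ m) (h : V1 ι J m x) : x ≠ 0 ∧ x⁻¹ ∈ Ov ι J M := by
  obtain ⟨a, ⟨s, h1, h2⟩, rfl⟩ := v1_iff.1 (v1_mono hm h)
  obtain ⟨n, k⟩ := inv_Ov (ι := ι) (J := J) (M := M) (a := algebraMap (𝓞 K) (𝓞 M) s + 3 * ⟨_, h2⟩)
    (pv_of fun Q p b c => not_vv.2 h1 (c.le ((Q.add_mem_iff_left (Q.mul_mem_right _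
      (map_ofNat (algebraMap (𝓞 K) (𝓞 M)) 3 ▸ c.ge two_vv))).1
        (b (Ideal.mem_span_singleton_self _)))))
  have e : ((algebraMap (𝓞 K) (𝓞 M) s + 3 * ⟨_, h2⟩ : 𝓞 M) : M) =
      algebraMap K M s * (1 + 3 ^ 1 * a) := by
    show algebraMap K M s + 3 * (algebraMap K M s * a) = _
    ring
  refine ⟨right_ne_zero_of_mul (e.symm.trans_ne (RingOfIntegers.coe_ne_zero_iff.2 n)), ?_⟩
  have := mul_mem k (int_Ov (algebraMap (𝓞 K) (𝓞 M) s))
  rwa [e, coe_s, mul_inv_rev, inv_mul_cancel_right₀ (ne_of h1)] at this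

theorem v1_inv (hm : 1 ≤ m) (h : V1 ι J m x) : V1 ι J m x⁻¹ := by
  obtain ⟨n, k⟩ := v1_unit hm h
  obtain ⟨a, ha, e⟩ := v1_iff.1 h
  exact v1_iff.2 ⟨-(x⁻¹ * a), neg_mem (mul_mem k ha), by field_simp; linear_combination -e⟩

/-- no torsion -/
theorem v1_tf (hm : 2 ≤ m) {k : ℕ} (k0 : k ≠ 0) (h : V1 ι J m x) (e : x ^ k = 1) : x = 1 := by
  replace h := v1_mono hm h
  induction k using Nat.strong_induction_on generalizing x with
  | _ k ih =>
  obtain ⟨a, ha, ex⟩ := v1_iff.1 h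
  by_contra n
  refine half (ι := ι) (J := J) (M := M) ?_
  have s : ∀ l : ℕ, ∃ c ∈ Ov ι J M, ∑ i ∈ Finset.range l, x ^ i = l + 3 * c := fun l => by
    induction l with
    | zero => exact ⟨0, zero_mem _, by simp⟩
    | succ l k =>
      obtain ⟨c, hc, k⟩ := k
      obtain ⟨d, hd, k'⟩ := v1_iff.1 (v1_pow h l)
      exact ⟨c + 3 * d, add_mem hc (mul_mem (ofNat_mem _ 3) hd), by
        rw [Finset.sum_range_succ, k, k']; push_cast; ring⟩
  obtain ⟨c, hc, s⟩ := s k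
  have z := geom_sum_mul x k
  rw [e, sub_self, mul_eq_zero, s, or_iff_left (sub_ne_zero.2 n)] at z
  obtain ⟨j, rfl | rfl | rfl⟩ : ∃ j, k = 3 * j ∨ k = 3 * j + 1 ∨ k = 3 * j + 2 :=
    ⟨k / 3, by omega⟩
  · have := ih j (by omega) (by omega) (by rw [← pow_mul, e]) (v1_pow h 3)
    have q : x ^ 2 + x + 1 = 0 := mul_left_cancel₀ (sub_ne_zero.2 n) (by linear_combination this)
    rw [ex] at q
    convert neg_mem (add_mem (mul_mem (ofNat_mem _ 3) ha)
      (mul_mem (ofNat_mem _ 9) (mul_mem ha ha))) using 1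
    linear_combination q / 9
  · convert neg_mem (add_mem hc (natCast_mem _ j)) using 1
    push_cast at z
    linear_combination z / 3
  · convert add_mem (add_mem hc (natCast_mem _ j)) (one_mem _) using 1
    push_cast at z
    linear_combination -z / 3

/-! ### equivalence of ideals -/

variable {r : ℕ} {W : Fin (r + 1) → Ideal (𝓞 M)} {I I' I'' L L' : Ideal (𝓞 M)}

theorem ev_refl (I : Ideal (𝓞 M)) : Ev ι J W m I I 1 :=
  ⟨v1_one, 1, 1, 0, 0, one_ne_zero, one_ne_zero, one_mul _, rfl⟩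

theorem ev_symm (hm : 1 ≤ m) (h : Ev ι J W m I I' x) : Ev ι J W m I' I x⁻¹ :=
  let ⟨h1, y, z, e, e', a, b, c, d⟩ := h
  ⟨v1_inv hm h1, z, y, e', e, b, a, by rw [← c, inv_mul_cancel_left₀ (v1_unit hm h1).1], d.symm⟩

theorem ev_mul (h : Ev ι J W m I I' x) (k : Ev ι J W m L L' y) :
    Ev ι J W m (I * L) (I' * L') (x * y) := by
  obtain ⟨h1, y1, z1, e1, e1', a1, b1, c1, d1⟩ := h
  obtain ⟨h2, y2, z2, e2, e2', a2, b2, c2, d2⟩ := k
  refine ⟨v1_mul h1 h2, y1 * y2, z1 * z2, e1 + e2, e1' + e2', mul_ne_zero a1 a2, mul_ne_zero b1 b2,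
    show _ * ((z1 : M) * z2) = (y1 : M) * y2 by rw [← c1, ← c2, mul_mul_mul_comm], ?_⟩
  simp only [Pi.add_apply, pow_add, Finset.prod_mul_distrib,
    ← Ideal.span_singleton_mul_span_singleton]
  convert congrArg₂ (· * ·) d1 d2 using 1 <;> ring

theorem ev_cancel (n : L ≠ ⊥) (h : Ev ι J W m (I * L) (I' * L) x) : Ev ι J W m I I' x :=
  let ⟨h1, y, z, e, e', a, b, c, d⟩ := h
  ⟨h1, y, z, e, e', a, b, c, mul_right_cancel₀ n (by convert d using 1 <;> ring)⟩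

theorem ev_trans (n : I' ≠ ⊥) (h : Ev ι J W m I I' x) (k : Ev ι J W m I' I'' y) :
    Ev ι J W m I I'' (x * y) :=
  ev_cancel n (mul_comm I' I'' ▸ ev_mul h k)

end Vale.Agent.P014Y.C.Al.Gx
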