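import Vale.Agent.P014Y.C.Al.Aux3
import Vale.Agent.P014Y.C.Al.Dvf
import Vale.Agent.P014Y.C.Al.Dj2
import Vale.Agent.P014Y.C.Al.Log
import Vale.Agent.P014Y.C.Al.Umf

/-!
# P014 Y, block AL: the minus class group (row CLM)
-/

set_option linter.all false

open NumberField Module IsDedekindDomain Ideal
open scoped Classical

noncomputable section

namespace Vale.Agent.P014Y.C.Al

namespace Cl

open Gx Dj Multiplicative
open Vale.Agent.P027M.S (Pr)
open Df (so cm ta_apply pj_apply)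

theorem mem_mi {X : Type} [CommGroup X] {s : X →* X} {U : Subgroup X} {x : X} :
    x ∈ mi s U ↔ x ∈ U ∧ x * s x = 1 := Iff.rfl

/-- an index is bounded by generators and exponent -/
theorem idx_dvd {G : Type} [CommGroup G] {H I : Subgroup G} (F : Finset G) {E : ℕ}
    (h : I ≤ Subgroup.closure (F : Set G) ⊔ H) (hE : ∀ x ∈ F, x ^ E ∈ H) :
    H.relIndex I ∣ E ^ F.card := by
  let π := QuotientGroup.mk' H
  let D := Subgroup.closure (F.image π : Set (G ⧸ H))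
  have D1 : ∀ g ∈ D, g ^ E = 1 := (Subgroup.closure_le
      (powMonoidHom E : (G ⧸ H) →* _).ker).2 fun g hg => by
    obtain ⟨a, k, rfl⟩ := Finset.mem_image.1 (show g ∈ F.image π from hg)
    exact (map_pow π a E).symm.trans ((QuotientGroup.eq_one_iff _).2 (hE a k))
  rw [← QuotientGroup.ker_mk' H, Subgroup.relIndex_ker]
  refine (Subgroup.card_dvd_of_le (show I.map π ≤ D from (Subgroup.map_mono h).trans ?_)).trans
    ((card_dvd_exponent_pow_rank' D fun g => Subtype.ext (D1 g g.2)).trans (pow_dvd_pow _ ?_))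
  · rw [Subgroup.map_sup, MonoidHom.map_closure, ← Finset.coe_image, QuotientGroup.map_mk'_self,
      sup_bot_eq]
  · exact (Subgroup.rank_closure_finset_le_card _).trans Finset.card_image_le

theorem reps {G : Type} [CommGroup G] {H I : Subgroup G} (h : H.relIndex I ≠ 0) :
    ∃ F : Finset G, (∀ x ∈ F, x ∈ I) ∧ I ≤ Subgroup.closure (F : Set G) ⊔ H := by
  have := (Subgroup.index_ne_zero_iff_finite.1 h)
  have := Fintype.ofFinite (I ⧸ H.subgroupOf I)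
  refine ⟨Finset.univ.image fun c : I ⧸ H.subgroupOf I => (c.out : G), fun x hx => ?_,
    fun x hx => ?_⟩
  · obtain ⟨c, -, rfl⟩ := Finset.mem_image.1 hx
    exact c.out.2
  · obtain ⟨y, e⟩ := QuotientGroup.mk_out_eq_mul (H.subgroupOf I) ⟨x, hx⟩
    refine Subgroup.mem_sup.2 ⟨_, Subgroup.subset_closure (Finset.mem_coe.2
      (Finset.mem_image.2 ⟨QuotientGroup.mk ⟨x, hx⟩, Finset.mem_univ _, rfl⟩)), (y.1 : G)⁻¹,
      inv_mem y.2, ?_⟩
    rw [e]
    simp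

variable {K : Type} [Field K] [NumberField K] {ι : ℂ →+* ℂ_[3]} {J : K →+* ℂ} {Ω : ℝ}
  {A M N : Type} [Field A] [NumberField A] [Field M] [NumberField M] [Field N] [NumberField N]
  [Algebra K A] [Algebra K N] [Algebra M N] [Algebra N A] [IsScalarTower K N A]
  {τ : N ≃ₐ[M] N} {σ : A ≃ₐ[K] A} {I : Ideal (𝓞 N)} {m : ℕ}

theorem tt (h2 : finrank M N = 2) (h1 : τ ≠ 1) (x : N) : τ (τ x) = x := by
  have : FiniteDimensional M N := Module.Finite.of_restrictScalars_finite ℚ M N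
  have a := (AlgEquiv.card_le (F := M) (K := N)).trans h2.le
  have b := pow_card_eq_one (x := τ)
  have c : 0 < Fintype.card (N ≃ₐ[M] N) := Fintype.card_pos
  generalize Fintype.card (N ≃ₐ[M] N) = n at a b c
  interval_cases n
  · exact absurd (by simpa using b) h1
  · exact DFunLike.congr_fun ((pow_two τ).symm.trans b) x

theorem mem_cj {x : 𝓞 N} : x ∈ cj τ I ↔ so τ x ∈ I := Iff.rfl

theorem cj_map (h : ∀ x, τ (τ x) = x) : cj τ I = I.map (so τ) := by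
  have k : ∀ x : 𝓞 N, so τ (so τ x) = x := fun x => RingOfIntegers.ext (h x)
  refine le_antisymm (fun x hx => k x ▸ mem_map_of_mem _ (mem_cj.1 hx))
    (map_le_iff_le_comap.2 fun x hx => (mem_cj (x := so τ x)).2 ?_)
  rwa [k]

theorem cj_cj (h : ∀ x, τ (τ x) = x) : cj τ (cj τ I) = I := Ideal.ext fun x => by
  rw [mem_cj, mem_cj, show so τ (so τ x) = x from RingOfIntegers.ext (h x)]

theorem cj_ne (h : ∀ x, τ (τ x) = x) (hI : I ≠ ⊥) : cj τ I ≠ ⊥ := fun e => hI (by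
  rw [← cj_cj (I := I) h, e, cj_map h, Ideal.map_bot])

theorem ta_dI (h : ∀ x, τ (τ x) = x) (e : ∀ x, algebraMap N A (τ x) = σ (algebraMap N A x))
    (I : Ideal (𝓞 N)) : ta σ (dI A I) = dI A (cj τ I) := by
  refine (Df.ta_dI σ (Df.xt N I)).trans (congrArg Df.dI ?_)
  rw [cj_map h, Df.xt, Ideal.map_map, Ideal.map_map]
  exact congrArg (Ideal.map · I) (RingHom.ext fun x => RingOfIntegers.ext (e x).symm)

theorem s1 {P : Pr A} : P ∈ Ss ι J A 1 ↔ Av ι J P.asIdeal :=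
  or_iff_left (by rw [map_one]; exact P.isPrime.one_notMem)

theorem pj_s1 (σ : A ≃ₐ[K] A) (p : Dv A) : pj (Ss ι J A 1) (ta σ p) = ta σ (pj (Ss ι J A 1) p) :=
  Df.pj_ta (fun P => or_congr (Df.av_cm σ P) (Df.s_cm σ 1 P)) p

theorem pj_pj {S : Set (Pr A)} (hS : ∀ P : Pr A, Av ι J P.asIdeal → P ∈ S) (p : Dv A) :
    pj S (pj (Ss ι J A 1) p) = pj S p := pj_eq.2 fun P h => by
  rw [pj_apply, if_neg fun k => h (hS P (s1.1 k))]

theorem IL_le {S : Set (Pr A)} {X : Subgroup (Dv A)}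
    (h : ∀ I : Ideal (𝓞 N), I ≠ ⊥ → pj S (dI A I) ∈ X) : IL N S ≤ X := by
  rw [Df.IL_eq, ← Df.IL_empty, Subgroup.map_le_iff_le_comap]
  exact Df.IL_le h

theorem dI_top : dI A (⊤ : Ideal (𝓞 N)) = 1 := funext fun P =>
  dI_one.2 fun k => P.isPrime.ne_top (by simpa [Ideal.map_top] using k)

theorem ex_cop {S : Set (Pr A)} {p : Dv A} (hp : p ∈ IL N S) : ∃ I I' : Ideal (𝓞 N),
    I ≠ ⊥ ∧ I' ≠ ⊥ ∧ I ⊔ I' = ⊤ ∧ p = pj S (dI A I / dI A I') := by
  let X : Subgroup (Dv A) :=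
    { carrier := {p | ∃ I I' : Ideal (𝓞 N), I ≠ ⊥ ∧ I' ≠ ⊥ ∧ p = pj S (dI A I / dI A I')}
      one_mem' := ⟨⊤, ⊤, top_ne_bot, top_ne_bot, by simp⟩
      mul_mem' := by
        rintro _ _ ⟨a, b, h1, h2, rfl⟩ ⟨c, d, h3, h4, rfl⟩
        exact ⟨a * c, b * d, mul_ne_zero h1 h3, mul_ne_zero h2 h4, by
          rw [dI_mul h1 h3, dI_mul h2 h4, ← map_mul, div_mul_div_comm]⟩
      inv_mem' := by
        rintro _ ⟨a, b, h1, h2, rfl⟩
        exact ⟨b, a, h2, h1, by rw [← map_inv, inv_div]⟩ }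
  obtain ⟨a, b, h1, h2, rfl⟩ := IL_le (X := X)
    (fun I h => ⟨I, ⊤, h, top_ne_bot, by rw [dI_top, div_one]⟩) hp
  obtain ⟨c, hc⟩ := dvd_iff_le.2 (le_sup_left : a ≤ a ⊔ b)
  obtain ⟨d, hd⟩ := dvd_iff_le.2 (le_sup_right : b ≤ a ⊔ b)
  have g0 : a ⊔ b ≠ ⊥ := fun e => h1 (le_bot_iff.1 (e ▸ le_sup_left))
  have e : (a ⊔ b) * (c ⊔ d) = (a ⊔ b) * ⊤ := by rw [Ideal.mul_sup, ← hc, ← hd, Ideal.mul_top]
  generalize a ⊔ b = g at hc hd g0 e
  subst hc hd
  have c0 := right_ne_zero_of_mul h1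
  have d0 := right_ne_zero_of_mul h2
  exact ⟨c, d, c0, d0, mul_left_cancel₀ g0 e, by
    rw [dI_mul g0 c0, dI_mul g0 d0, mul_div_mul_left_eq_div]⟩

theorem one_sub {p : Dv A} (hp : p ∈ mi (ta σ) (IL N (Ss ι J A 1))) :
    ∃ q ∈ IL N (Ss ι J A 1), p = q / ta σ q := by
  obtain ⟨a, b, h1, h2, h3, rfl⟩ := ex_cop hp.1
  have h4 : pj (Ss ι J A 1) (dI A a / dI A b) * ta σ (pj (Ss ι J A 1) (dI A a / dI A b)) = 1 := hp.2
  refine ⟨_, dI_mem h1, ?_⟩
  rw [← pj_s1, ← map_mul, ← map_one (pj (Ss ι J A 1)), pj_eq] at h4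
  rw [← pj_s1, ← map_div, pj_eq]
  intro P hP
  have k : ∀ P : Pr A, multiplicity P.asIdeal (Df.xt N a) = 0 ∨
      multiplicity P.asIdeal (Df.xt N b) = 0 := fun P => by
    by_cases e : Df.xt N b ≤ P.asIdeal
    · exact .inl (by simpa [dI] using dI_cop h3 e)
    · exact .inr (by simpa [dI] using dI_one.2 e)
  have k1 := k P
  have k2 := k (cm σ P)
  have k3 := congrArg toAdd (h4 P hP)
  refine toAdd.injective ?_
  simp only [Pi.mul_apply, Pi.div_apply, ta_apply, dI, toAdd_mul, toAdd_div, toAdd_ofAdd,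
    Pi.one_apply, toAdd_one, Df.xt] at k1 k2 k3 ⊢
  omega

/-- the map `1 - σ` -/
def ph (σ : A ≃ₐ[K] A) : Dv A →* Dv A := MonoidHom.id _ / ta σ

theorem ph_ap (p : Dv A) : ph σ p = p / ta σ p := rfl

theorem d1_ua (x : Aˣ) : dd (Ss ι J A 1) (ua σ x) = ta σ (dd (Ss ι J A 1) x) := by
  rw [Df.dd_eq, Df.dd_ua, pj_s1, ← Df.dd_eq]

variable (h : ∀ x, τ (τ x) = x) (e : ∀ x, algebraMap N A (τ x) = σ (algebraMap N A x))
include h e

theorem map_ph : (IL N (Ss ι J A 1)).map (ph σ) = mi (ta σ) (IL N (Ss ι J A 1)) := by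
  refine le_antisymm (Subgroup.map_le_iff_le_comap.2 (IL_le fun I hI => ?_)) fun p hp => ?_
  · have k : ∀ I : Ideal (𝓞 N), ta σ (pj (Ss ι J A 1) (dI A I)) = pj (Ss ι J A 1) (dI A (cj τ I)) :=
      fun I => by rw [← pj_s1, ta_dI h e]
    rw [Subgroup.mem_comap, ph_ap, k]
    refine mem_mi.2 ⟨div_mem (dI_mem hI) (dI_mem (cj_ne h hI)), ?_⟩
    rw [map_div, k, k, cj_cj h, div_mul_div_cancel, div_self']
  · obtain ⟨q, a, b⟩ := one_sub hp
    exact ⟨q, a, b.symm⟩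

theorem mi_mem (hm : 1 ≤ m) {x : Aˣ} (hx : x ∈ UL ι J N m) :
    x / ua σ x ∈ mi (ua σ) (UL ι J N m) := by
  obtain ⟨y, rfl⟩ := hx.2
  have k : ∀ y : Nˣ, ua σ (iu A y) = iu A (ua τ y) := fun y => Units.ext (e y).symm
  refine mem_mi.2 ⟨div_mem hx
    ⟨(Uf.um_iff hm).2 (Uf.v1_act σ ((Uf.um_iff hm).1 hx.1)), _, (k y).symm⟩, ?_⟩
  rw [map_div, k, k, show ua τ (ua τ y) = y from Units.ext (h y), div_mul_div_cancel, div_self']

theorem le_cm (hm : 1 ≤ m) {π : Dv A →* Dv A} {d : Aˣ →* Dv A}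
    (hd : ∀ x, π (dd (Ss ι J A 1) x) = d x) : (UL ι J N m).map (dd (Ss ι J A 1)) ≤
      ((mi (ua σ) (UL ι J N m)).map d).comap (π.comp (ph σ)) := by
  rintro _ ⟨x, hx, rfl⟩
  exact ⟨_, mi_mem h e hm hx, by rw [MonoidHom.comp_apply, ph_ap, ← d1_ua, ← map_div, hd]⟩

omit h e in
theorem gens (B : Base ι J Ω) (m : ℕ) : ∃ x : Fin (finrank K N) → Aˣ, (∀ s, x s ∈ UL ι J N 2) ∧
    UL ι J N 2 ≤ Subgroup.closure (Set.range x) ⊔ UL ι J N (m + 2) := by
  obtain ⟨ℓ, l1, l2, l3⟩ := log_row kv K ι J Ω B N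
  let ρ : ℤ_[3] →+* ZMod (3 ^ m) := PadicInt.toZModPow m
  have ρ0 : ∀ x, ρ x = 0 ↔ 3 ^ m ∣ x := fun x => by
    rw [← RingHom.mem_ker, PadicInt.ker_toZModPow, mem_span_singleton, Nat.cast_ofNat]
  have lg : Kn.Lg ι J fun x => ρ ∘ ℓ x := ⟨fun x y a b => funext fun i => by simp [l1 x y a b],
    fun x a => by simp only [l2 x m a, funext_iff, Function.comp, Pi.zero_apply, ρ0], fun y => by
      choose y' hy using fun i => ZMod.ringHom_surjective ρ (y i)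
      obtain ⟨x, a, b, c⟩ := l3 y' m 3 (by simp)
      exact ⟨x, a, (sup_eq_top_iff_isCoprime _ _).1 b, funext fun i => by
        rw [← hy, ← sub_eq_zero, Function.comp, ← map_sub, ρ0]
        exact c i⟩⟩
  generalize (fun x => ρ ∘ ℓ x) = G at lg
  choose x x1 x2 x3 using fun s => lg.onto (Pi.single s 1)
  let u : Fin (finrank K N) → Nˣ := fun s => .mk0 (x s) (v1_unit one_le_two (x1 s)).1
  refine ⟨fun s => iu A (u s), fun s => (mem_UL one_le_two).2 (x1 s), fun y hy => ?_⟩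
  obtain ⟨y, rfl⟩ := hy.2
  have w1 := (mem_UL one_le_two).1 hy
  obtain ⟨k3, k4⟩ := (Kn.pa v1_one (fun _ _ => v1_mul) lg.add).2 _ (fun s => (x s : N))
    (fun s => (G y s).val) x1
  refine Subgroup.mem_sup.2 ⟨iu A (∏ s, u s ^ (G y s).val), ?_, iu A (y / ∏ s, u s ^ (G y s).val),
    (mem_UL (by omega)).2 ?_, by rw [← map_mul, mul_div_cancel]⟩
  · rw [map_prod]
    refine Subgroup.prod_mem _ fun s _ => ?_
    rw [map_pow]
    exact pow_mem (Subgroup.subset_closure (Set.mem_range_self s)) _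
  · have := lg.cg w1 k3 (by
      simp only [k4, Kn.vs, x3, ← Pi.single_smul, smul_eq_mul, mul_one, Finset.univ_sum_single])
    simpa [u] using this

variable [Algebra M A] [IsScalarTower M N A] {s : ℕ} {w : Fin s → Ideal (𝓞 N)}

omit h in
theorem pj_w (p : Dv A) : pj (Sw ι J A fun i => (w i).under (𝓞 M)) (ta σ p) =
    ta σ (pj (Sw ι J A fun i => (w i).under (𝓞 M)) p) :=
  Df.pj_ta (fun P => or_congr (Df.av_cm σ P) (exists_congr fun i =>
    Ideal.map_le_iff_le_comap.symm.trans (Df.xt_fix (L := M) (fun x => by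
      rw [IsScalarTower.algebraMap_apply M N A, ← e, AlgEquiv.commutes]) _ ▸ Iff.rfl))) p

omit h e in
theorem ev_dd {I I' : Ideal (𝓞 N)} (hI : I ≠ ⊥) (hI' : I' ≠ ⊥) {x : Nˣ}
    (hx : Ev ι J (Matrix.vecCons ⊤ (Fin.append w fun i => cj τ (w i))) m I I' (x : N)) :
    dd (Sw ι J A fun i => (w i).under (𝓞 M)) (iu A x) =
      pj (Sw ι J A fun i => (w i).under (𝓞 M)) (dI A I / dI A I') := by
  obtain ⟨-, y, z, a, a', y0, z0, k, b⟩ := hx
  rw [dd, MonoidHom.comp_apply, pj_eq]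
  intro P n
  have s0 : ∀ {z : 𝓞 N}, z ≠ 0 → span {z} ≠ ⊥ := span_singleton_eq_bot.not.2
  have c1 : ∀ i (Q : Ideal (𝓞 N)), (w i).under (𝓞 M) ≤ Q.under (𝓞 M) →
      ¬ Q.map (algebraMap (𝓞 N) (𝓞 A)) ≤ P.asIdeal := fun i Q h1 h2 => n (.inr ⟨i,
    (Df.xt_xt N _).ge.trans ((Ideal.map_mono (map_le_iff_le_comap.2 h1)).trans h2)⟩)
  have c2 : ∀ i, ¬ (Matrix.vecCons ⊤ (Fin.append w fun i => cj τ (w i)) i).map
      (algebraMap (𝓞 N) (𝓞 A)) ≤ P.asIdeal := Fin.cases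
    (fun k => P.isPrime.ne_top (by simpa [Ideal.map_top] using k)) (Fin.addCases
      (fun i => by simpa using c1 i _ le_rfl) fun i => by
        rw [Matrix.cons_val_succ, Fin.append_right]
        exact c1 i (cj τ (w i)) fun x hx => mem_cj.2 (by
          rwa [show so τ (algebraMap (𝓞 M) (𝓞 N) x) = algebraMap (𝓞 M) (𝓞 N) x from
            RingOfIntegers.ext (τ.commutes (x : M))]))
  generalize Matrix.vecCons ⊤ (Fin.append w fun i => cj τ (w i)) = W at b c2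
  have c3 : ∀ a : Fin (s + s + 1) → ℕ, ¬ (∏ i, W i ^ a i).map (algebraMap (𝓞 N) (𝓞 A)) ≤
      P.asIdeal := fun a k => by
    rw [map_le_iff_le_comap] at k
    obtain ⟨i, -, k⟩ := (P.isPrime.comap _).prod_le.1 k
    exact c2 i (map_le_iff_le_comap.2 ((P.isPrime.comap _).le_of_pow_le k))
  have c4 : ∀ a : Fin (s + s + 1) → ℕ, ∏ i, W i ^ a i ≠ ⊥ := fun a k => c3 a (by simp [k])
  have := congrArg (dI A · P) b
  simp only [dI_mul (mul_ne_zero (s0 z0) hI) (c4 a), dI_mul (mul_ne_zero (s0 y0) hI') (c4 a'),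
    dI_mul (s0 z0) hI, dI_mul (s0 y0) hI', Pi.mul_apply, dI_one.2 (c3 _), mul_one,
    ← od_div z0 k P] at this
  rw [mul_comm (Vale.Agent.P022K.Exi.od P _), mul_assoc, mul_right_inj] at this
  rw [Pi.div_apply, this, mul_div_cancel_right]
  rfl

theorem expo (B : Base ι J Ω) (hm : 1 ≤ m) {E : ℕ} (hE : ∀ I : Ideal (𝓞 N), I ≠ ⊥ →
    I ⊔ span {3} = ⊤ → ∃ x, Ev ι J (Matrix.vecCons ⊤ (Fin.append w fun i => cj τ (w i))) m
      (I ^ E) (cj τ I ^ E) x) {p : Dv A} (hp : p ∈ IL N (Ss ι J A 1)) :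
    p ^ (2 * E) ∈ ((mi (ua σ) (UL ι J N m)).map (dd (Sw ι J A fun i => (w i).under (𝓞 M)))).comap
      ((pj (Sw ι J A fun i => (w i).under (𝓞 M))).comp (ph σ)) := by
  have hS : ∀ p, pj (Sw ι J A fun i => (w i).under (𝓞 M)) (pj (Ss ι J A 1) p) = pj _ p :=
    pj_pj fun _ => .inl
  refine Subgroup.mem_comap.1 (IL_le (X := Subgroup.comap (powMonoidHom (2 * E)) _)
    (fun I hI => ?_) hp)
  obtain ⟨C, x, c1, c2, c3, c4⟩ := inv_cl (A := A) (W := fun _ : Fin 1 => (⊤ : Ideal (𝓞 N)))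
    (m := m) B (T := span {3}) (by simp) hI
  rw [show Sw ι J A (fun _ : Fin 1 => (⊤ : Ideal (𝓞 N))) = Ss ι J A 1 from Set.ext fun P =>
    (or_iff_left fun ⟨_, k⟩ => P.isPrime.ne_top (by simpa [Ideal.map_top] using k)).trans
      s1.symm] at c4
  rw [eq_div_of_mul_eq' c4]
  refine div_mem (pow_mem (le_cm h e hm (fun x => hS _) ⟨_, (mem_UL hm).2 c3, rfl⟩) _) ?_
  obtain ⟨y, hy⟩ := hE C c1 c2
  lift y to Nˣ using (v1_unit hm hy.1).1.isUnit
  have k := ev_dd (A := A) (M := M) (pow_ne_zero E c1) (pow_ne_zero E (cj_ne h c1)) hy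
  have pw : ∀ I : Ideal (𝓞 N), I ≠ ⊥ → dI A (I ^ E) = dI A I ^ E := fun I hI =>
    (congrArg Df.dI (Ideal.map_pow _ I E)).trans (Df.dI_pow (Df.xt_ne N hI) E)
  refine ⟨_, mi_mem h e hm ((mem_UL hm).2 hy.1), ?_⟩
  rw [map_div, Df.dd_eq _ (ua σ _), Df.dd_ua, pj_w e, ← Df.dd_eq, k, pw _ c1, pw _ (cj_ne h c1),
    ← pj_w e, ← map_div, powMonoidHom_apply, map_pow, MonoidHom.comp_apply, ph_ap, ← pj_s1,
    ← map_div, hS, ← map_pow, ← div_pow, map_pow (ta σ), map_div (ta σ), ta_dI h e, ta_dI h e,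
    cj_cj h, ← div_pow, pow_mul, pow_two, div_div_eq_mul_div (_ / _), mul_div_assoc]

end Cl

open Cl

/-- **row CLM** -/
theorem clm : CLM := by
  intro K _ _ ι J Ω B A M N _ _ _ _ _ _ _ _ _ _ _ _ _ _ _ _ τ σ h2 h1 e
  have h := tt h2 h1
  obtain ⟨F, F1, F2⟩ := reps (Df.ray_fin (ι := ι) (J := J) (L := N) (S := Ss ι J A 1)
    (fun _ => .inl) 2)
  refine ⟨fun p => one_sub, F.card + finrank K N, fun m hm => ⟨?_, fun s E w _ hE => ?_⟩⟩
  · rw [← map_ph h e, ← Subgroup.relIndex_comap]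
    exact fun k => Df.ray_fin (fun _ => .inl) m (Subgroup.relIndex_eq_zero_of_le_left
      (le_cm h e (π := MonoidHom.id _) (by omega) fun _ => rfl) k)
  · obtain ⟨m, rfl⟩ := Nat.exists_eq_add_of_le' hm
    obtain ⟨x, x1, x2⟩ := gens (A := A) (N := N) B m
    rw [← map_ph h e, Subgroup.map_map, ← Subgroup.relIndex_comap]
    refine (idx_dvd (F ∪ Finset.univ.image fun s => dd (Ss ι J A 1) (x s)) (F2.trans (sup_le
      ((Subgroup.closure_mono (by simp)).trans le_sup_left) ((Subgroup.map_mono x2).trans ?_)))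
      fun p hp => expo h e B (by omega) hE ?_).trans (pow_dvd_pow _ ((Finset.card_union_le _ _).trans
        (Nat.add_le_add_left (Finset.card_image_le.trans (by simp)) _)))
    · rw [Subgroup.map_sup, MonoidHom.map_closure]
      refine sup_le_sup (Subgroup.closure_mono ?_)
        (le_cm h e (by omega) fun x => pj_pj (fun _ => .inl) _)
      rintro _ ⟨_, ⟨s, rfl⟩, rfl⟩
      simp
    · rcases Finset.mem_union.1 hp with k | k
      · exact F1 p k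
      · obtain ⟨s, -, rfl⟩ := Finset.mem_image.1 k
        exact Dj.dd_le ⟨_, x1 s, rfl⟩

end Vale.Agent.P014Y.C.Al
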