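import Vale.Agent.P014Y.C.Al.Amb

/-!
# P014 Y, block AL: the row LIN
-/

open Module Finset Matrix
open scoped Classical

noncomputable section

namespace Vale.Agent.P014Y.C.Al

namespace Li

variable {R : Type} [CommRing R] {m : ℕ}

/-- the vector of a linear form -/
def vc (f : (Fin m → R) →ₗ[R] R) : Fin m → R := fun i => f (Pi.single i 1)

theorem vc_dot (f : (Fin m → R) →ₗ[R] R) (x : Fin m → R) : vc f ⬝ᵥ x = f x := by
  conv_rhs => rw [← univ_sum_single x, map_sum]
  refine sum_congr rfl fun i _ => ?_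
  rw [vc, mul_comm, ← smul_eq_mul, ← map_smul, ← Pi.single_smul, smul_eq_mul, mul_one]

variable [IsDomain R] [IsPrincipalIdealRing R]

theorem ker {N : Type} [AddCommGroup N] [Module R N] (f : (Fin m → R) →ₗ[R] N) {n : ℕ}
    (b : Basis (Fin n) R (LinearMap.range f)) : ∃ (r : ℕ) (k μ : Fin r → Fin m → R), n + r = m ∧
    (∀ i, f (k i) = 0) ∧ ∀ i i', μ i ⬝ᵥ k i' = if i = i' then 1 else 0 := by
  obtain ⟨r, c⟩ := (LinearMap.ker f).basisOfPid (Pi.basisFun R (Fin m))
  choose g hg using fun i => (b i).2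
  have hs : ∀ y, f (b.constr R g y) = y := fun y => by
    have : f ∘ₗ b.constr R g = (LinearMap.range f).subtype := b.ext fun i => by simp [hg]
    exact LinearMap.congr_fun this y
  let p : (Fin m → R) →ₗ[R] LinearMap.ker f :=
    (LinearMap.id - b.constr R g ∘ₗ f.rangeRestrict).codRestrict _ fun x =>
      (map_sub f _ _).trans (sub_eq_zero.2 (hs (f.rangeRestrict x)).symm)
  refine ⟨r, fun i => c i, fun i => vc (c.coord i ∘ₗ p), ?_, fun i => (c i).2, fun i i' => ?_⟩
  · have := (LinearMap.ker f).finrank_quotient_add_finrank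
    rwa [f.quotKerEquivRange.finrank_eq, finrank_eq_card_basis b, finrank_eq_card_basis c,
      finrank_fin_fun, Fintype.card_fin, Fintype.card_fin] at this
  · have e : f.rangeRestrict (c i') = 0 := Subtype.ext (c i').2
    have : p (c i') = c i' := Subtype.ext (by
      show (c i' : Fin m → R) - b.constr R g (f.rangeRestrict (c i')) = _
      rw [e, map_zero, sub_zero])
    rw [vc_dot, LinearMap.comp_apply, this, Basis.coord_apply, c.repr_self, Finsupp.single_apply]
    simp only [eq_comm]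

end Li

theorem lin : LIN := by
  intro a B
  obtain ⟨n, S⟩ := (LinearMap.range B.vecMulLinear).smithNormalForm (Pi.basisFun _ (Fin (a + 1)))
  obtain ⟨r, k, μ, h0, h1, h2⟩ := Li.ker B.vecMulLinear S.bN
  have e : {j // j ∉ Set.range S.f} ≃ Fin (r + 1) := Fintype.equivFinOfCardEq (by
    rw [Fintype.card_subtype_compl, Fintype.card_fin, Fintype.card_range, Fintype.card_fin]
    omega)
  have d0 : ∏ i, S.a i ≠ 0 := prod_ne_zero_iff.2 fun i _ k =>
    S.bN.ne_zero i (Subtype.ext (by rw [S.snf, k, zero_smul]; rfl))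
  obtain ⟨c, hc⟩ := IsDiscreteValuationRing.associated_pow_irreducible d0 PadicInt.irreducible_p
  refine ⟨r, c, k, μ, fun i => Li.vc (S.bM.coord (e.symm i)), fun i => S.bM (e.symm i), h1, h2,
    fun i => funext fun j => ?_, fun i i' => ?_, fun y hy => ?_⟩
  · show B j ⬝ᵥ _ = 0
    rw [dotProduct_comm, Li.vc_dot]
    exact S.le_ker_coord_of_notMem_range (e.symm i).2 ⟨Pi.single j 1, by ext; simp⟩
  · rw [Li.vc_dot, Basis.coord_apply, S.bM.repr_self, Finsupp.single_apply]
    simp only [Subtype.coe_inj, e.symm.injective.eq_iff, eq_comm]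
  · show 3 ^ c • y ∈ LinearMap.range B.vecMulLinear
    rw [← S.bM.sum_repr y, smul_sum]
    refine Submodule.sum_mem _ fun j _ => ?_
    by_cases hj : j ∈ Set.range S.f
    · obtain ⟨i, rfl⟩ := hj
      obtain ⟨t, ht⟩ := (dvd_prod_of_mem S.a (mem_univ i)).trans hc.dvd
      rw [← Nat.cast_smul_eq_nsmul ℤ_[3], Nat.cast_pow, ht, smul_comm, mul_comm, mul_smul, ← S.snf]
      exact Submodule.smul_mem _ _ (Submodule.smul_mem _ _ (S.bN i).2)
    · have := hy (e ⟨j, hj⟩)
      rw [Li.vc_dot, e.symm_apply_apply, Basis.coord_apply] at this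
      rw [this, zero_smul, smul_zero]
      exact zero_mem _

end Vale.Agent.P014Y.C.Al
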