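import Vale.Agent.P014Y.C.Al.AxSt
import Vale.Agent.P014Y.C.Al.Lin

/-!
# P014 Y, block AL: the rows DG and LINS
-/

open Module Finset Matrix
open scoped Classical

noncomputable section

namespace Vale.Agent.P014Y.C.Al

theorem Li.dvd_sum {R κ : Type} [CommRing R] [Inhabited κ] (h : ∀ a b : R, a ∣ b ∨ b ∣ a)
    (d : κ → R) (S : Finset κ) : ∃ i, d i ∣ ∑ j ∈ S, d j := by
  induction S using Finset.induction_on with
  | empty => exact ⟨default, by simp⟩
  | insert a S ha ih =>
    obtain ⟨i, k⟩ := ih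
    rw [sum_insert ha]
    exact (h (d i) (d a)).elim (fun e => ⟨i, dvd_add e k⟩) fun e => ⟨a, dvd_add dvd_rfl (e.trans k)⟩

theorem dg : DG := fun B s X q => by
  have hs := ZMod.ringHom_surjective (PadicInt.toZModPow (p := 3) B)
  let U : Fin s → Fin s → ZMod (3 ^ B) := fun i j => X i j + if i = j then q else 0
  let V : Fin s → Fin s → ZMod (3 ^ B) := fun i j => -X i j
  obtain ⟨S, hS⟩ := Li.dvd_sum (fun a b => by
      obtain ⟨a, rfl⟩ := hs a
      obtain ⟨b, rfl⟩ := hs b
      exact (ValuationRing.dvd_total a b).imp (map_dvd _) (map_dvd _))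
    (fun S : Finset (Fin s) => detRowAlternating (S.piecewise U V)) univ
  rw [← detRowAlternating.map_add_univ] at hS
  refine ⟨fun i => if i ∈ S then 1 else 0, fun z => ?_⟩
  generalize hM : (X + diagonal fun i => q * if i ∈ S then 1 else 0) = M
  have e : S.piecewise U V = fun i => (if i ∈ S then 1 else -1 : ZMod (3 ^ B)) • M i := by
    funext i j
    by_cases hi : i ∈ S <;> simp [← hM, hi, U, V, diagonal_apply]
  obtain ⟨k, hk⟩ : M.det ∣ q ^ s := by
    have := (Dvd.intro_left _ (detRowAlternating.map_smul_univ _ M).symm).trans (e ▸ hS)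
    rwa [show detRowAlternating (U + V) = det (diagonal fun _ : Fin s => q) from
      congrArg _ (funext fun i => funext fun j => by simp [U, V, diagonal_apply]),
      det_diagonal, prod_const, card_univ, Fintype.card_fin] at this
  exact ⟨vecMul (k • z) M.adjugate, by
    rw [vecMul_vecMul, adjugate_mul, vecMul_smul, vecMul_one, hk, mul_smul]⟩

theorem lins : LINS := by
  intro a B
  obtain ⟨n, S⟩ := (LinearMap.range B.vecMulLinear).smithNormalForm (Pi.basisFun _ (Fin a))
  obtain ⟨r, k, μ, h0, h1, h2⟩ := Li.ker B.vecMulLinear S.bN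
  have e : {j // j ∉ Set.range S.f} ≃ Fin r := Fintype.equivFinOfCardEq (by
    rw [Fintype.card_subtype_compl, Fintype.card_fin, Fintype.card_range, Fintype.card_fin]
    omega)
  have d0 : ∏ i, S.a i ≠ 0 := prod_ne_zero_iff.2 fun i _ k =>
    S.bN.ne_zero i (Subtype.ext (by rw [S.snf, k, zero_smul]; rfl))
  obtain ⟨c, hc⟩ := IsDiscreteValuationRing.associated_pow_irreducible d0 PadicInt.irreducible_p
  refine ⟨r, c, k, μ, fun i => Li.vc (S.bM.coord (e.symm i)), fun i => S.bM (e.symm i), h1, h2,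
    fun i => funext fun j => ?_, fun i i' => ?_, fun y hy => ?_⟩
  · show B j ⬝ᵥ _ = 0
    rw [dotProduct_comm, Li.vc_dot]
    exact S.le_ker_coord_of_notMem_range (e.symm i).2 ⟨Pi.single j 1, by ext; simp⟩
  · rw [Li.vc_dot, Basis.coord_apply, S.bM.repr_self, Finsupp.single_apply]
    simp only [Subtype.coe_inj, e.symm.injective.eq_iff, eq_comm]
  · show 3 ^ c • y ∈ LinearMap.range B.vecMulLinear
    rw [← S.bM.sum_repr y, smul_sum]
    refine Submodule.sum_mem _ fun j _ => ?_
    by_cases hj : j ∈ Set.range S.f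
    · obtain ⟨i, rfl⟩ := hj
      obtain ⟨t, ht⟩ := (dvd_prod_of_mem S.a (mem_univ i)).trans hc.dvd
      rw [← Nat.cast_smul_eq_nsmul ℤ_[3], Nat.cast_pow, ht, smul_comm, mul_comm, mul_smul, ← S.snf]
      exact Submodule.smul_mem _ _ (Submodule.smul_mem _ _ (S.bN i).2)
    · have := hy (e ⟨j, hj⟩)
      rw [Li.vc_dot, e.symm_apply_apply, Basis.coord_apply] at this
      rw [this, zero_smul, smul_zero]
      exact zero_mem _

end Vale.Agent.P014Y.C.Al
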