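import Vale.Agent.P014Y.C.Al.AxSt
import Vale.Agent.P014Y.C.Al.Log
import Vale.Agent.P014Y.C.Al.Umf

/-!
# P014 Y, block AL: the minus logarithm (row LGM)
-/

set_option linter.unusedSectionVars false

open NumberField Module IsDedekindDomain
open scoped Classical

noncomputable section

namespace Vale.Agent.P014Y.C.Al.Lm

open Gx Lg

variable {K : Type} [Field K] [NumberField K] {ι : ℂ →+* ℂ_[3]} {J : K →+* ℂ}
  {M N : Type} [Field M] [NumberField M] [Field N] [NumberField N] [Algebra K M] [Algebra K N]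
  {n : ℕ}

/-- a basis of the elements whose image is integral above `v` -/
theorem lat (f : M →ₗ[K] N) (hf : Function.Injective f) : ∃ e : Basis (Fin (finrank K M)) K M,
    ∀ x, f x ∈ Ov ι J N ↔ ∀ i, ‖ι (J (e.repr x i))‖ ≤ 1 := by
  let v : HeightOneSpectrum (𝓞 K) := ⟨vv ι J, vv_prime, fun h =>
    (by norm_num : (3 : 𝓞 K) ≠ 0) (Ideal.mem_bot.1 (h.le two_vv))⟩
  let O := v.valuationSubringAtPrime K
  have hO : ∀ c : K, c ∈ O ↔ ‖ι (J c)‖ ≤ 1 := fun c => ⟨fun ⟨a, s, hs, e⟩ => by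
      simpa [e, not_vv.1 hs] using nm_le a, fun h => (O.mem_or_inv_mem c).elim id
    fun ⟨a, s, hs, e⟩ => by
      have e' : c = s * (a : K)⁻¹ := by rw [← inv_inv c, e]; simp
      rcases eq_or_ne c 0 with rfl | n
      · exact zero_mem _
      refine ⟨s, a, not_vv.2 ((nm_le a).antisymm ?_), e'⟩
      have a0 : (a : K) ≠ 0 := fun k => n (by simp [e', k])
      simpa [e', not_vv.1 hs, inv_le_one₀ (norm_pos_iff.2 ((map_ne_zero ι).2
        ((map_ne_zero J).2 a0)))] using h⟩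
  obtain ⟨b₀, hb⟩ := vb_ex (ι := ι) (J := J) (M := N) rfl
  let L₀ := Submodule.span O (Set.range b₀)
  have h0 : ∀ x : N, x ∈ L₀ ↔ x ∈ Ov ι J N := fun x => by
    rw [mem_Ov, hb, Basis.mem_span_iff_repr_mem]
    exact forall_congr' fun i =>
      ⟨fun ⟨c, h⟩ => (hO _).1 (h ▸ c.2), fun h => ⟨⟨_, (hO _).2 h⟩, rfl⟩⟩
  let L := L₀.comap (f.restrictScalars O)
  have : L.IsLattice K := ⟨Submodule.fg_of_fg_map_injective (f.restrictScalars O) hf
    ((Submodule.fg_span (Set.finite_range _)).of_le (Submodule.map_comap_le _ _)),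
    top_unique fun x _ => by
      obtain ⟨s, s0, hs⟩ := ((IsFractionRing.isAlgebraic_iff ℤ ℚ N).2
        (Algebra.IsAlgebraic.isAlgebraic (f x))).exists_integral_multiple
      have k : (s : K) • x ∈ L := (h0 _).2 (by
        show f _ ∈ _
        rw [map_smul, Int.cast_smul_eq_zsmul]
        exact int_Ov ⟨_, hs⟩)
      have := (Submodule.span K (L : Set M)).smul_mem (s : K)⁻¹ (Submodule.subset_span k)
      rwa [inv_smul_smul₀ (Int.cast_ne_zero.2 s0)] at this⟩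
  let b := finBasisOfFinrankEq O L (n := finrank K M)
    (congrArg Cardinal.toNat (Submodule.IsLattice.rank' K L))
  refine ⟨b.extendOfIsLattice K, fun x => ?_⟩
  have e : Submodule.span O (Set.range (b.extendOfIsLattice K)) = L := by
    rw [show ⇑(b.extendOfIsLattice K) = L.subtype ∘ b from funext (b.extendOfIsLattice_apply K),
      Set.range_comp, ← Submodule.map_span, b.span_eq, Submodule.map_subtype_top]
  refine (h0 _).symm.trans ((SetLike.ext_iff.1 e x).symm.trans ?_)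
  rw [Basis.mem_span_iff_repr_mem]
  exact forall_congr' fun i => ⟨fun ⟨c, h⟩ => (hO _).1 (h ▸ c.2), fun h => ⟨⟨_, (hO _).2 h⟩, rfl⟩⟩

theorem ex_co {L : Type} [Field L] [NumberField L] [Algebra K L] (ρ : K →+* ℚ_[3])
    (hρ : ∀ x, ι (J x) = algebraMap ℚ_[3] ℂ_[3] (ρ x)) (b : Basis (Fin n) K L) (hb : Vb ι J b) :
    ∃ c : L → Fin n → ℤ_[3], Co ι J c ∧
      ∀ x ∈ Ov ι J L, ∀ i, (c x i : ℚ_[3]) = ρ (b.repr x i) := by
  have e : ∀ x, ‖ι (J x)‖ = ‖ρ x‖ := fun x => by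
    rw [hρ]; exact PadicComplex.norm_extends' 3 _
  have h : ∀ x : L, x ∈ Ov ι J L ↔ ∀ i, ‖ρ (b.repr x i)‖ ≤ 1 := fun x => by
    simpa only [e, mem_Ov] using hb x
  let c : L → Fin n → ℤ_[3] := fun x i => if k : ‖ρ (b.repr x i)‖ ≤ 1 then ⟨_, k⟩ else 0
  have hc : ∀ x ∈ Ov ι J L, ∀ i, (c x i : ℚ_[3]) = ρ (b.repr x i) := fun x k i =>
    congrArg Subtype.val (dif_pos ((h x).1 k i))
  have p2 : ∀ (m : ℕ) (x : L) i, ρ (b.repr (3 ^ m * x) i) = 3 ^ m * ρ (b.repr x i) := fun m x i => by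
    have : (3 : L) ^ m * x = ((3 : K) ^ m) • x := by simp [Algebra.smul_def, map_ofNat]
    simp [this, map_ofNat]
  have t2 : ∀ (m : ℕ), ∀ x ∈ Ov ι J L, 3 ^ m * x ∈ Ov ι J L := fun m x k =>
    mul_mem (pow_mem (ofNat_mem _ 3) m) k
  refine ⟨c, ⟨fun x hx y hy => funext fun i => Subtype.ext ?_,
    fun x hx m => funext fun i => Subtype.ext ?_, fun x hx m k => ?_, fun y => ?_⟩, hc⟩
  · simp [hc _ (add_mem hx hy), hc _ hx, hc _ hy]
  · show (c (3 ^ m * x) i : ℚ_[3]) = ((3 ^ m * c x i : ℤ_[3]) : ℚ_[3])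
    rw [hc _ (t2 m x hx), p2, PadicInt.coe_mul, PadicInt.coe_pow, hc _ hx]
    rfl
  · have ex : x = 3 ^ m * (x / 3 ^ m) := by field_simp
    refine ⟨x / 3 ^ m, (h _).2 fun i => ?_, ex⟩
    obtain ⟨w, hw⟩ := k i
    have := congrArg (fun z : ℤ_[3] => (z : ℚ_[3])) hw
    simp only [hc _ hx, PadicInt.coe_mul, PadicInt.coe_pow] at this
    rw [ex, p2] at this
    have e2 : ((3 : ℤ_[3]) : ℚ_[3]) = 3 := rfl
    rw [e2] at this
    rw [mul_left_cancel₀ (pow_ne_zero m three_ne_zero) this]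
    exact w.2
  · have r : ∀ i, b.repr (∑ j, ((y j).zmodRepr : K) • b j) i = (y i).zmodRepr := fun i => by
      simp [Finsupp.single_apply]
    have k : ∑ j, ((y j).zmodRepr : K) • b j ∈ Ov ι J L := (h _).2 fun i => by
      rw [r, map_natCast]; exact IsUltrametricDist.norm_natCast_le_one _ _
    refine ⟨_, k, fun i => ?_⟩
    have : c (∑ j, ((y j).zmodRepr : K) • b j) i = (y i).zmodRepr :=
      Subtype.ext (by rw [hc _ k, r]; simp)
    have s := (y i).sub_zmodRepr_mem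
    rw [PadicInt.maximalIdeal_eq_span_p, Ideal.mem_span_singleton] at s
    rw [this, ← dvd_neg, neg_sub]
    exact_mod_cast s

theorem inv_two : (2 : N)⁻¹ ∈ Ov ι J N := by
  have := neg_mem (v1_unit (ι := ι) (J := J) le_rfl (v1_iff.2 ⟨-1, neg_mem (one_mem _),
    show (-2 : N) = 1 + 3 ^ 1 * -1 by norm_num⟩)).2
  rwa [inv_neg, neg_neg] at this

variable [Algebra M N] [IsScalarTower K M N] {τ : N ≃ₐ[M] N}

theorem qd (two : finrank M N = 2) (t1 : τ ≠ 1) :
    (∀ y, τ (τ y) = y) ∧ ∀ y, τ y = y → ∃ z, algebraMap M N z = y := by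
  have : Algebra.IsQuadraticExtension M N := ⟨two⟩
  have hc : Nat.card Gal(N/M) = 2 := by rw [IsGalois.card_aut_eq_finrank, two]
  refine ⟨fun y => by rw [← AlgEquiv.mul_apply, ← pow_two, ← hc, pow_card_eq_one',
    AlgEquiv.one_apply], fun y h => (IsGalois.mem_range_algebraMap_iff_fixed y).2 fun g => ?_⟩
  obtain ⟨b, hb, k⟩ := (Nat.card_eq_two_iff' 1).1 hc
  by_cases g1 : g = 1
  · rw [g1, AlgEquiv.one_apply]
  · rw [k g g1, ← k τ t1, h]

theorem ov_act {x : N} (h : x ∈ Ov ι J N) : τ x ∈ Ov ι J N := Uf.vi_act (τ.restrictScalars K) h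

theorem v1_act {x : N} {m : ℕ} (h : V1 ι J m x) : V1 ι J m (τ x) :=
  Uf.v1_act (τ.restrictScalars K) h

/-- a basis on which `τ` is diagonal -/
theorem ex_b (two : finrank M N = 2) (t1 : τ ≠ 1) :
    ∃ b : Basis (Fin (finrank K M + finrank K M)) K N, Vb ι J b ∧ ∀ x i,
      b.repr (τ x) (Fin.castAdd _ i) = b.repr x (Fin.castAdd _ i) ∧
      b.repr (τ x) (Fin.natAdd _ i) = -b.repr x (Fin.natAdd _ i) := by
  obtain ⟨tt, fx⟩ := qd two t1
  obtain ⟨x₀, h0⟩ := not_forall.1 fun h => t1 (AlgEquiv.ext h)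
  obtain ⟨θ, n0, hθ⟩ : ∃ θ : N, θ ≠ 0 ∧ τ θ = -θ :=
    ⟨τ x₀ - x₀, sub_ne_zero.2 h0, by rw [map_sub, tt, neg_sub]⟩
  let f := (IsScalarTower.toAlgHom K M N).toLinearMap
  let g := LinearMap.mulLeft K θ ∘ₗ f
  have tf : ∀ a, τ (f a) = f a := τ.commutes
  have tg : ∀ a, τ (g a) = -g a := fun a => by
    show τ (θ * f a) = -(θ * f a)
    rw [map_mul, hθ, tf, neg_mul]
  have i1 : Function.Injective f := (algebraMap M N).injective
  have i2 : Function.Injective g := fun a b h => i1 (mul_left_cancel₀ n0 h)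
  obtain ⟨e, he⟩ := lat (ι := ι) (J := J) f i1
  obtain ⟨e', he'⟩ := lat (ι := ι) (J := J) g i2
  have k1 : ∀ a a', f a = 2⁻¹ * (f a + g a' + τ (f a + g a')) := fun a a' => by
    rw [map_add, tf, tg]; ring
  have su : ∀ x, ∃ p : M × M, f.coprod g p = x := fun x => by
    obtain ⟨a, ha⟩ := fx (2⁻¹ * (x + τ x)) (by simp [tt, add_comm, map_ofNat])
    obtain ⟨a', ha'⟩ := fx (θ⁻¹ * (2⁻¹ * (x - τ x))) (by
      simp only [map_mul, map_inv₀, map_sub, tt, hθ, map_ofNat]; ring)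
    refine ⟨(a, a'), ?_⟩
    show algebraMap M N a + θ * algebraMap M N a' = x
    rw [ha, ha', mul_inv_cancel_left₀ n0]
    ring
  let φ := LinearEquiv.ofBijective (f.coprod g) ⟨(injective_iff_map_eq_zero _).2 fun p h => by
    have h' : f p.1 + g p.2 = 0 := h
    have := k1 p.1 p.2
    rw [h', map_zero, add_zero, mul_zero] at this
    rw [this, zero_add] at h'
    exact Prod.ext ((map_eq_zero_iff f i1).1 this) ((map_eq_zero_iff g i2).1 h'), su⟩
  let b := ((e.prod e').map φ).reindex finSumFinEquiv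
  have r : ∀ a a' i, b.repr (f a + g a') (Fin.castAdd _ i) = e.repr a i ∧
      b.repr (f a + g a') (Fin.natAdd _ i) = e'.repr a' i := fun a a' i => by
    have : φ.symm (f a + g a') = (a, a') := φ.symm_apply_apply (a, a')
    simp [b, this, -Fin.natAdd_eq_addNat]
  refine ⟨b, fun x => ?_, fun x i => ?_⟩
  · obtain ⟨⟨a, a'⟩, rfl⟩ := su x
    simp only [LinearMap.coprod_apply, Fin.forall_fin_add, fun i => (r a a' i).1,
      fun i => (r a a' i).2, ← he, ← he', ← mem_Ov]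
    refine ⟨fun h => ?_, fun h => add_mem h.1 h.2⟩
    have := mul_mem inv_two (add_mem h (ov_act (τ := τ) h))
    rw [← k1] at this
    exact ⟨this, (add_mem_cancel_left this).1 h⟩
  · obtain ⟨⟨a, a'⟩, rfl⟩ := su x
    simp only [LinearMap.coprod_apply, map_add τ, tf, tg, ← map_neg g, (r _ _ i).1, (r _ _ i).2]
    simp

end Vale.Agent.P014Y.C.Al.Lm

namespace Vale.Agent.P014Y.C.Al

open Gx Lg Lm

theorem lgm : LGM := fun K _ _ ι J Ω B M N _ _ _ _ _ _ _ _ τ two t1 => by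
  obtain ⟨ρ, hρ⟩ := kv K ι J Ω B
  obtain ⟨tt, -⟩ := qd two t1
  obtain ⟨b, hb, hτ⟩ := ex_b (ι := ι) (J := J) two t1
  obtain ⟨c, C, hc⟩ := Lm.ex_co ρ hρ b hb
  obtain ⟨ℓ, H⟩ := C.ex_log
  have ka : ∀ x k, ak (τ x) k = τ (ak x k) := fun x k => by simp [ak, map_ofNat]
  have a : ∀ x, V1 ι J 2 x → ∀ i, ℓ (τ x) (Fin.castAdd _ i) = ℓ x (Fin.castAdd _ i) ∧
      ℓ (τ x) (Fin.natAdd _ i) = -ℓ x (Fin.natAdd _ i) := fun x h i => by
    have m := ak_mem h
    refine ⟨sub_eq_zero.1 (eq_zero fun k => ?_), eq_neg_of_add_eq_zero_left (eq_zero fun k => ?_)⟩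
    · have := dvd_sub (H _ (v1_act (τ := τ) h) (Fin.castAdd _ i) k) (H _ h (Fin.castAdd _ i) k)
      rwa [ka, show c (τ (ak x k)) (Fin.castAdd _ i) = c (ak x k) (Fin.castAdd _ i) from
        Subtype.ext (by rw [hc _ (ov_act (m k)), hc _ (m k), (hτ _ i).1]),
        sub_sub_sub_cancel_right] at this
    · have := dvd_add (H _ (v1_act (τ := τ) h) (Fin.natAdd _ i) k) (H _ h (Fin.natAdd _ i) k)
      rwa [ka, show c (τ (ak x k)) (Fin.natAdd _ i) = -c (ak x k) (Fin.natAdd _ i) from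
        Subtype.ext (by rw [hc _ (ov_act (m k)), PadicInt.coe_neg, hc _ (m k), (hτ _ i).2, map_neg]),
        sub_neg_eq_add, add_add_sub_cancel] at this
  have q : ∀ x, V1 ι J 2 x → V1 ι J 2 (x / τ x) ∧ ℓ (x / τ x) = ℓ x - ℓ (τ x) := fun x h => by
    have h' := v1_act (τ := τ) h
    have v : V1 ι J 2 (x / τ x) := div_eq_mul_inv x _ ▸ v1_mul h (v1_inv (by norm_num) h')
    exact ⟨v, eq_sub_of_add_eq (by
      rw [← lg_add C H v h', div_mul_cancel₀ _ (v1_unit (by norm_num) h').1])⟩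
  have u2 : IsUnit (2 : ℤ_[3]) := PadicInt.isUnit_iff.2 (by
    exact_mod_cast PadicInt.norm_natCast_eq_one_iff.2 (show Nat.Coprime 3 2 by norm_num))
  refine ⟨fun x i => ℓ x (Fin.natAdd _ i), fun x y h k => funext fun i => by
    simp [lg_add C H h k], fun x h => funext fun i => (a x h i).2, fun x m h => ?_, fun y m => ?_⟩
  · rw [lg_iff C H (q x h).1, (q x h).2, Fin.forall_fin_add]
    simp only [Pi.sub_apply, fun i => (a x h i).1, fun i => (a x h i).2, sub_self, dvd_zero,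
      implies_true, true_and, sub_neg_eq_add, ← two_mul, u2.dvd_mul_left]
  obtain ⟨w, hw⟩ := u2.exists_right_inv
  obtain ⟨x, hx, h⟩ := lg_den C H (Fin.append 0 fun i => w * y i) m
  obtain ⟨v, e⟩ := q x hx
  obtain ⟨x', h1, h2, h3⟩ := approx v (m + 2) 3 (by norm_num)
  have n0 := (v1_unit (by norm_num) hx).1
  have n1 := (v1_unit (by norm_num) (v1_act (τ := τ) hx)).1
  refine ⟨x', h2, Ideal.isCoprime_span_singleton_iff _ _ |>.1 (Ideal.isCoprime_iff_sup_eq.2 h3), ?_,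
    fun i => ?_⟩
  · have := v1_mul h1 (v1_act (τ := τ) h1)
    simp only [map_mul, map_inv₀, map_div₀, tt] at this
    rw [show (x' : N) * τ x' = x' * (x / τ x)⁻¹ * (τ x' * (τ x / x)⁻¹) by field_simp]
    exact v1_mono (by omega) this
  · have v' := v1_mono (by omega : 2 ≤ m + 2) h1
    have := lg_add C H v' v
    rw [inv_mul_cancel_right₀ (v1_unit (by norm_num) v).1] at this
    have k := (h (Fin.natAdd _ i)).mul_left 2
    rw [Fin.append_right, mul_sub, ← mul_assoc, hw, one_mul] at k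
    simp only [this, e, Pi.add_apply, Pi.sub_apply, (a x hx i).2, sub_neg_eq_add, ← two_mul,
      add_sub_assoc]
    exact dvd_add ((lg_iff C H v' m).1 h1 _) k

end Vale.Agent.P014Y.C.Al
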