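import Vale.Agent.P014Y.C.Al.Clm
import Vale.Agent.P004C.Al.A0

/-!
# P014 Y, block AL: the bound for the minus group (row MJX)
-/

set_option linter.all false

open NumberField Module IsDedekindDomain Ideal
open scoped Classical

noncomputable section

namespace Vale.Agent.P014Y.C.Al

open Cl Dj Multiplicative

theorem Cl.v3_dv {a b n c : ℕ} (h : a ∣ b ^ n) (b0 : b ≠ 0) (k : v3 b ≤ c) :
    a ≠ 0 ∧ v3 a ≤ n * c := by
  have : Fact (Nat.Prime 3) := ⟨Nat.prime_three⟩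
  have a0 : a ≠ 0 := ne_zero_of_dvd_ne_zero (pow_ne_zero n b0) h
  refine ⟨a0, le_trans ?_ (Nat.mul_le_mul_left n k)⟩
  rw [v3, v3, ← padicValNat.pow b n, ← padicValNat_dvd_iff_le (pow_ne_zero n b0)]
  exact pow_padicValNat_dvd.trans h

/-- **row MJX** -/
theorem mjx (axm : AXM) : MJX := by
  intro K _ _ ι J Ω B A M N _ _ _ _ _ _ _ _ _ _ _ _ _ _ _ _ τ σ j h2 h1 e hy
  have : Fact (Nat.Prime 3) := ⟨Nat.prime_three⟩
  obtain ⟨s, c, H⟩ := axm K ι J Ω B A M N τ j h2 h1 hy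
  obtain ⟨-, n, hn⟩ := clm K ι J Ω B A M N τ σ h2 h1 e
  refine ⟨s, n * c + s * c + c, fun t t0 m Bq hm mB => ?_⟩
  obtain ⟨w, Φ, f, b, i, ⟨E, E0, E1, E2⟩, on⟩ := H t t0 m Bq hm mB
  refine ⟨w, Φ, f, { b with gen := b.gen.imp fun _ k => ⟨k.1, k.2.1.trans (by omega), k.2.2⟩ }, i,
    fun a aB F hF => ?_⟩
  have m1 : 1 ≤ m := by omega
  have mu : Mu F (mi (ua σ) (UL ι J N m)) := by
    rintro _ ⟨⟨-, x, rfl⟩, -⟩ _ ⟨⟨-, y, rfl⟩, -⟩
    refine toAdd.injective (funext fun i => ?_)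
    rw [← map_mul, toAdd_mul, Pi.add_apply, hF, hF, hF, Units.val_mul,
      b.loc i _ _ x.ne_zero y.ne_zero, ZMod.cast_add (pow_dvd_pow 3 aB)]
  rw [P004C.Al.a7 _ _ _ _ F _ _ mu (by
    rintro _ ⟨x, hx, rfl⟩
    exact ⟨dd (Ss ι J A 1) x, mem_mi.2 ⟨dd_le ⟨x, hx.1, rfl⟩, by
      rw [← d1_ua, ← map_mul, (mem_mi.1 hx).2, map_one]⟩, pj_pj (fun _ => .inl) _⟩)]
  obtain ⟨a1, a2⟩ := v3_dv ((hn m hm).2 s E w E0 E2) (mul_ne_zero two_ne_zero E0) (c := c) (by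
    rwa [v3, padicValNat.mul two_ne_zero E0, padicValNat.eq_zero_of_not_dvd (by norm_num), zero_add])
  have key : ∀ z : Multiplicative (Fin s → ZMod (3 ^ a)), z ^ 3 ^ c ∈ Subgroup.closure
      (F '' (mi (ua σ) (UL ι J N m) ⊓ (dd (Sw ι J A fun i => (w i).under (𝓞 M))).ker :
        Subgroup Aˣ)) := fun z => by
    choose y hy using fun i => ZMod.ringHom_surjective
      (ZMod.castHom (pow_dvd_pow 3 aB) (ZMod (3 ^ a))) (z.toAdd i)
    obtain ⟨u, u1, u2, u3⟩ := on y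
    let x : Nˣ := Units.map (algebraMap (𝓞 N) N : 𝓞 N →* N) u
    refine Subgroup.subset_closure ⟨iu A x, ⟨mem_mi.2 ⟨(mem_UL m1).2 u1, Units.ext ?_⟩, ?_⟩,
      toAdd.injective (funext fun i => ?_)⟩
    · exact (congrArg (_ * ·) (e _).symm).trans ((map_mul (algebraMap N A) _ _).symm.trans
        ((congrArg _ u2).trans (map_one _)))
    · refine MonoidHom.mem_ker.2 ?_
      rw [Df.dd_eq, Df.dd_map (a := u) rfl,
        span_singleton_eq_top.2 u.isUnit, Df.xt, Ideal.map_top, Df.dI_top, map_one]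
    · rw [hF, toAdd_pow, Pi.smul_apply, ← hy, ← map_nsmul, nsmul_eq_mul]
      exact congrArg ZMod.cast ((u3 i).trans (by simp))
  have b0 := idx_dvd (I := ⊤) (Finset.univ.image fun i : Fin s =>
    (ofAdd (Pi.single i 1) : Multiplicative (Fin s → ZMod (3 ^ a)))) (le_sup_of_le_left fun z _ => by
      rw [← ofAdd_toAdd z, ← Finset.univ_sum_single z.toAdd, ofAdd_sum]
      refine Subgroup.prod_mem _ fun i _ => ?_
      rw [← mul_one (z.toAdd i), ← smul_eq_mul, Pi.single_smul, ← Kn.vs, ofAdd_nsmul]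
      exact pow_mem (Subgroup.subset_closure (by simp)) _) fun z _ => key z
  rw [Subgroup.relIndex_top_right] at b0
  obtain ⟨b1, b2⟩ := v3_dv (b0.trans (pow_dvd_pow _ (Finset.card_image_le.trans
    (by simp : _ ≤ s)))) (by positivity) (c := c) (by rw [v3, padicValNat.prime_pow])
  refine ⟨mul_ne_zero a1 b1, ?_⟩
  rw [v3, padicValNat.mul a1 b1]
  exact (add_le_add a2 b2).trans (Nat.le_add_right _ _)

end Vale.Agent.P014Y.C.Al
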