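import Vale.Agent.P014Y.C.Al.Aux3

/-!
# P014 Y, block AL: the row PRC
-/

set_option linter.all false

noncomputable section

namespace Vale.Agent.P014Y.C.Al

open NumberField Module Ideal Matrix NumberField.Units IsDedekindDomain
open scoped Classical

open Kn in
/-- **one prime in a ray class** -/
theorem prc (hP : PRM) (hL : LOG) (hN : LIN) : PRC := by
  intro K _ _ ι J Ω hB L L₂ _ _ _ _ _ _ j₂ hy
  have hl := hL K ι J Ω hB L
  rw [← Gx.rank_eq (M := L) hB rfl] at hl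
  obtain ⟨ℓ, l1, l2, l3⟩ := hl
  obtain ⟨h, h0, hπ⟩ := Gx.ex_pow (𝓞 L)
  obtain ⟨N, N0, v1⟩ := Gx.pow_v1 (ι := ι) (J := J) (M := L) 2
  replace v1 : ∀ x : 𝓞 L, IsCoprime x 3 → V1 ι J 2 ((x : L) ^ N) := fun x k =>
    v1 x ((sup_eq_top_iff_isCoprime _ _).2 k)
  have uc : ∀ u : (𝓞 L)ˣ, IsCoprime (u : 𝓞 L) 3 := fun u => ⟨u⁻¹.1, 0, by simp⟩
  have cm : ∀ x y : 𝓞 L, ((x * y : 𝓞 L) : L) ^ N = x ^ N * y ^ N := fun x y => by
    rw [← mul_pow]; rfl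
  let Λ : (𝓞 L)ˣ →* Multiplicative (Fin (rank L + 1) → ℤ_[3]) :=
    MonoidHom.mk' (fun u => .ofAdd (ℓ (((u : 𝓞 L) : L) ^ N))) fun u w => congrArg _ (by
      rw [Units.val_mul, cm]
      exact l1 _ _ (v1 _ (uc u)) (v1 _ (uc w)))
  obtain ⟨r, c₀, k, μ, l, u, -, -, n3, n4, n5⟩ :=
    hN (rank L) (Matrix.of fun s => (Λ (fundSystem L s)).toAdd)
  have lu : ∀ i (w : (𝓞 L)ˣ), l i ⬝ᵥ (Λ w).toAdd = 0 := fun i w => by
    obtain ⟨⟨ζ, e⟩, rfl, -⟩ := exist_unique_eq_mul_prod L w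
    have z : (Λ ζ).toAdd = 0 := by
      obtain ⟨n, a, b⟩ := isOfFinOrder_iff_pow_eq_one.1 ζ.2
      have := congrArg (fun x => (Λ x).toAdd) b
      simp only [map_pow, toAdd_pow, map_one, toAdd_one] at this
      exact (smul_eq_zero.1 this).resolve_left a.ne'
    simp only [map_mul, toAdd_mul, z, zero_add, map_prod, toAdd_prod, map_zpow, toAdd_zpow,
      dotProduct_sum, dotProduct_smul]
    exact Finset.sum_eq_zero fun s _ => by
      rw [dotProduct_comm, show (Λ (fundSystem L s)).toAdd ⬝ᵥ l i = 0 from congrFun (n3 i) s,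
        smul_zero]
  obtain ⟨c₁, hc⟩ := hP K ι J Ω hB L L₂ j₂ hy
  refine ⟨h * (3 ^ c₀ * N), 3 ^ c₀ * (3 ^ c₁ * h * N), c₁, by positivity, by positivity,
    fun B z z1 z2 κ _ b y ok un S => ?_⟩
  let ρ : ℤ_[3] →+* ZMod (3 ^ B) := PadicInt.toZModPow B
  have ρ0 : ∀ x, ρ x = 0 ↔ 3 ^ B ∣ x := fun x => by
    rw [← RingHom.mem_ker, PadicInt.ker_toZModPow, mem_span_singleton, Nat.cast_ofNat]
  have ρs : Function.Surjective ρ := ZMod.ringHom_surjective ρ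
  have lg : Lg ι J fun x => ρ ∘ ℓ x := ⟨fun x y a b => funext fun i => by simp [l1 x y a b],
    fun x a => by simp only [l2 x B a, funext_iff, Function.comp, Pi.zero_apply, ρ0], fun y => by
      choose y' hy using fun i => ρs (y i)
      obtain ⟨x, a, b, c⟩ := l3 y' B 3 (by exact_mod_cast (by norm_num : (3 : ℕ) ≠ 0))
      exact ⟨x, a, (sup_eq_top_iff_isCoprime _ _).1 b, funext fun i => by
        rw [← hy, ← sub_eq_zero, Function.comp, ← map_sub, ρ0]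
        exact c i⟩⟩
  let g : 𝓞 L → Fin (rank L + 1) → ZMod (3 ^ B) := fun x => ρ ∘ ℓ ((x : L) ^ N)
  have g1 : ∀ x y, IsCoprime x 3 → IsCoprime y 3 → g (x * y) = g x + g y := fun x y a b =>
    (congrArg (fun x => ρ ∘ ℓ x) (cm x y)).trans (lg.add _ _ (v1 x a) (v1 y b))
  obtain ⟨g2, g3⟩ := pa (p := fun x : 𝓞 L => IsCoprime x 3) isCoprime_one_left
    (fun _ _ => IsCoprime.mul_left) g1
  have g6 := (pa (f := fun x => ρ ∘ ℓ x) Gx.v1_one (fun _ _ => Gx.v1_mul) lg.add).1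
  have g4 : ∀ x : 𝓞 L, V1 ι J 2 (x : L) → g x = N • ρ ∘ ℓ x := fun x a => (g6 _ N a).2
  have g5 : ∀ i x y, IsCoprime x 3 → span {x} = span {y} → ρ ∘ l i ⬝ᵥ g y = ρ ∘ l i ⬝ᵥ g x :=
    fun i x y a e => by
      obtain ⟨w, rfl⟩ := span_singleton_eq_span_singleton.1 e
      rw [g1 x w a (uc w), dotProduct_add, show ρ ∘ l i ⬝ᵥ g w = 0 from
        (ρ.map_dotProduct _ _).symm.trans ((congrArg ρ (lu i w)).trans (map_zero ρ)), add_zero]
  choose! π hπ' using id hπ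
  have π2 : ∀ I, I ≠ ⊥ → I ⊔ span {3} = ⊤ → IsCoprime (π I) 3 := fun I a b => by
    rw [← sup_eq_top_iff_isCoprime, ← hπ' I a, ← isCoprime_iff_sup_eq]
    exact (isCoprime_iff_sup_eq.2 b).pow_left
  have ψ1 : ∀ i x, IsCoprime x 3 → ρ ∘ l i ⬝ᵥ g (π (span {x})) = h • (ρ ∘ l i ⬝ᵥ g x) :=
    fun i x a => by
      rw [← dotProduct_smul, ← (g2 x h a).2]
      exact g5 i _ _ (g2 x h a).1 (by
        rw [← hπ' _ (span_singleton_eq_bot.not.2 (ne2 a)), span_singleton_pow])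
  obtain ⟨W, a1, a2, a3, a4, a5⟩ := hc B (B + 2) _ (fun i I => ρ ∘ l i ⬝ᵥ g (π I))
    (fun i I I' a b c d => by
      rw [← dotProduct_add, ← g1 _ _ (π2 I a c) (π2 I' b d)]
      exact g5 i _ _ ((π2 I a c).mul_left (π2 I' b d)) (by
        rw [← hπ' _ (mul_ne_zero a b), mul_pow, hπ' I a, hπ' I' b,
          span_singleton_mul_span_singleton]))
    (fun i y a b c => by
      have k := Gx.v1_mono (Nat.le_add_left 2 B) b
      rw [ψ1 i y ((sup_eq_top_iff_isCoprime _ _).1 c), g4 y k, (lg.zero _ k).1 b]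
      simp)
    (span {z}) (span_singleton_eq_bot.not.2 (ne2 z2)) ((sup_eq_top_iff_isCoprime _ _).2 z2)
    κ b y ok un (insert 3 S)
  rw [Finset.mem_insert, not_or] at a2
  have W0 : W ≠ ⊥ := absNorm_eq_zero_iff.not.1 a1.ne_zero
  have wπ : IsCoprime (π W) 3 := π2 W W0 (by
    obtain ⟨s, t, e⟩ : IsCoprime ((absNorm W : ℕ) : 𝓞 L) ((3 : ℕ) : 𝓞 L) :=
      ((Nat.coprime_primes a1 Nat.prime_three).2 a2.1).cast
    exact (eq_top_iff_one _).2 (e ▸ add_mem (mem_sup_left (W.mul_mem_left s (absNorm_mem W)))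
      (mem_sup_right (mul_mem_left _ t (mem_span_singleton_self _)))))
  obtain ⟨ζ, hz⟩ := lin_mod n4 n5 ρ ρs ((3 ^ c₁ * h * N) • ρ ∘ ℓ z - g (π W)) fun i => by
    rw [dotProduct_sub, a4, ψ1 i _ z2, g4 _ z1, dotProduct_smul, dotProduct_smul, mul_smul,
      mul_smul, sub_self]
  obtain ⟨b1, b2⟩ := g2 _ (3 ^ c₀) wπ
  have b3 := b1.mul_left (uc (∏ s, fundSystem L s ^ (ζ s).val))
  refine ⟨W, a1, a2.2, a3, ⟨(π W ^ 3 ^ c₀ * (∏ s, fundSystem L s ^ (ζ s).val : (𝓞 L)ˣ)) ^ N,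
    ?_, ?_⟩, a5⟩
  · rw [← span_singleton_pow, span_singleton_mul_right_unit (Units.isUnit _), pow_mul,
      hπ' W W0, ← span_singleton_pow, pow_mul]
  · refine lg.cg (x := _ ^ N) (v1 _ b3) (g6 _ _ z1).1 (Eq.trans ?_ (g6 _ _ z1).2.symm)
    show g (π W ^ 3 ^ c₀ * _) = _
    rw [g1 _ _ b1 (uc _), b2]
    simp only [Units.coe_prod, Units.val_pow_eq_pow_val, (g3 _ _ _ fun s => uc _).2, vs]
    rw [show ∑ s, ζ s • g (fundSystem L s) = _ from hz, ← smul_add, add_sub_cancel,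
      mul_smul (3 ^ c₀)]

end Vale.Agent.P014Y.C.Al
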