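import Vale.Agent.P014Y.C.Al.Amb
import Vale.Agent.P004C.Al.Ip

/-!
# P014 Y, block AL: auxiliary primes for a quadratic pair (words and rows)
-/

open NumberField Module IsDedekindDomain Matrix
open scoped Classical

noncomputable section

namespace Vale.Agent.P014Y.C.Al

open Vale.Agent.P022 (Qb GQ GK)
open Vale.Agent.P027M.S (Pr Inert)
open Vale.Agent.P022E.GW (Ov)

/-- the minus part -/
abbrev mi {X : Type} [CommGroup X] (s : X →* X) (U : Subgroup X) : Subgroup X := U ⊓ (nm s).ker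

section

variable {M : Type} [Field M] [NumberField M]

/-- `Aux` for any finite family -/
structure Sy {κ : Type} [Fintype κ] (t : 𝓞 M) (B : ℕ) (W : κ → Ideal (𝓞 M))
    (Φ : Ideal (𝓞 M) → ZMod (3 ^ B)) (φ : κ → M → ZMod (3 ^ B)) : Prop where
  max : ∀ i, (W i).IsMaximal
  inj : Function.Injective W
  cop : ∀ i, t ∉ W i
  add : ∀ I I', I ≠ ⊥ → I' ≠ ⊥ → (∀ i, I ⊔ W i = ⊤) → (∀ i, I' ⊔ W i = ⊤) →
    Φ (I * I') = Φ I + Φ I'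
  loc : ∀ i x y, x ≠ 0 → y ≠ 0 → φ i (x * y) = φ i x + φ i y
  tam : ∀ i (x : 𝓞 M), x - 1 ∈ W i → φ i x = 0
  prd : ∀ (x : 𝓞 M) (I : Ideal (𝓞 M)) (e : κ → ℕ), x ≠ 0 → (∀ i, I ⊔ W i = ⊤) →
    Ideal.span {x} = I * ∏ i, W i ^ e i → Φ I + ∑ i, φ i x = 0

/-- the order at a prime ideal -/
def oi (P : Ideal (𝓞 M)) (x : M) : ℤ :=
  if h : P.IsPrime ∧ P ≠ ⊥ then P022.C.ordv (⟨P, h.1, h.2⟩ : HeightOneSpectrum (𝓞 M)) x else 0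

/-- tame at `W` -/
def Tm {B : ℕ} (W : Ideal (𝓞 M)) (δ : Mˣ →* Multiplicative (ZMod (3 ^ B))) : Prop :=
  ∀ (b : Mˣ) (x : 𝓞 M), (b : M) = x → x - 1 ∈ W → δ b = 1

/-- values which are compatible with the relations modulo `3 ^ B`-th powers -/
def Ok {κ : Type} [Fintype κ] {B : ℕ} (b : κ → Mˣ) (y : κ → ZMod (3 ^ B)) : Prop :=
  ∀ n : κ → ℕ, (∃ r : Mˣ, ∏ i, b i ^ n i = r ^ 3 ^ B) → ∑ i, n i • y i = 0

/-- a step of degree two, or of degree three and ramified outside three -/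
structure Hy (M : Type) [Field M] {N : Type} [Field N] [Algebra M N] (j : N →+* Qb) : Prop where
  rt : ∃ w : M, w ^ 2 + w + 1 = 0
  gal : IsGalois M N
  dg : finrank M N = 2 ∨ finrank M N = 3 ∧ ∃ l P g, l ≠ 3 ∧ Ov l P ∧ Inert P g ∧
    g ∈ GK (j.comp (algebraMap M N)) ∧ g ∉ GK j

variable {K : Type} [Field K] [NumberField K] (ι : ℂ →+* ℂ_[3]) (J : K →+* ℂ) [Algebra K M]
  {N : Type} [Field N] [NumberField N] [Algebra M N] (τ : N ≃ₐ[M] N) {d s B : ℕ}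

/-- the conjugate ideal -/
def cj (w : Ideal (𝓞 N)) : Ideal (𝓞 N) := w.comap (RingOfIntegers.mapAlgEquiv τ)

/-- **minus system**: split primes `w`, harmless for the base field `M` -/
structure Bm (t : 𝓞 M) (B m c : ℕ) (w : Fin s → Ideal (𝓞 N)) (Φ : Ideal (𝓞 M) → ZMod (3 ^ B))
    (f : Fin s → N → ZMod (3 ^ B)) : Prop where
  sy : Sy t B (fun i => (w i).under (𝓞 M)) Φ fun i x => f i (algebraMap M N x)
  max : ∀ i, (w i).IsMaximal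
  ne : ∀ i, cj τ (w i) ≠ w i
  loc : ∀ i x y, x ≠ 0 → y ≠ 0 → f i (x * y) = f i x + f i y
  tam : ∀ i (x : 𝓞 N), x - 1 ∈ w i → f i x = 0
  un : ∀ i (u : (𝓞 M)ˣ), f i (algebraMap M N (u : 𝓞 M)) = 0
  gen : ∃ E : ℕ, E ≠ 0 ∧ v3 E ≤ c ∧ ∀ i, ∃ x : 𝓞 M, V1 ι J m (x : M) ∧
    Ideal.span {x} = (w i).under (𝓞 M) ^ E

/-- the primes of the base field -/
def Wd (a : Fin (d + 1) → Ideal (𝓞 M)) (w : Fin s → Ideal (𝓞 N)) :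
    Fin (d + s + 1) → Ideal (𝓞 M) :=
  vecCons (a 0) (Fin.append (fun i => a i.succ) fun i => (w i).under (𝓞 M))

/-- the primes above them -/
def Wu (a : Fin (d + 1) → Ideal (𝓞 M)) (w : Fin s → Ideal (𝓞 N)) :
    Fin (d + s + s + 1) → Ideal (𝓞 N) :=
  vecCons ((a 0).map (algebraMap (𝓞 M) (𝓞 N))) (Fin.append (Fin.append
    (fun i => (a i.succ).map (algebraMap (𝓞 M) (𝓞 N))) w) fun i => cj τ (w i))

/-- the local characters of the base field -/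
def fd (g : Fin (d + 1) → M → ZMod (3 ^ B)) (f : Fin s → N → ZMod (3 ^ B)) :
    Fin (d + s + 1) → M → ZMod (3 ^ B) :=
  vecCons (g 0) (Fin.append (fun i => g i.succ) fun i x => f i (algebraMap M N x))

/-- the local characters above them -/
def fu (g : Fin (d + 1) → M → ZMod (3 ^ B)) (f : Fin s → N → ZMod (3 ^ B)) :
    Fin (d + s + s + 1) → N → ZMod (3 ^ B) :=
  vecCons (fun x => g 0 (Algebra.norm M x)) (Fin.append (Fin.append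
    (fun i x => g i.succ (Algebra.norm M x)) f) fun i x => f i (τ x))

/-- **completed pair**: inert primes `a` are added, `Φ` is changed by a multiple of `3 ^ j` -/
structure Pk (t : 𝓞 M) (B m c j : ℕ) (w : Fin s → Ideal (𝓞 N)) (Φ : Ideal (𝓞 M) → ZMod (3 ^ B))
    (f : Fin s → N → ZMod (3 ^ B)) (a : Fin (d + 1) → Ideal (𝓞 M))
    (Ψ : Ideal (𝓞 M) → ZMod (3 ^ B)) (g₀ g : Fin (d + 1) → M → ZMod (3 ^ B))
    (f' : Fin s → N → ZMod (3 ^ B)) : Prop where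
  sa : Aux t B a Ψ g₀
  ine : ∀ i, Ine N (a i)
  dn : Aux t B (Wd a w) (fun I => Φ I + 3 ^ j * Ψ I) (fd g f')
  up : Aux (algebraMap (𝓞 M) (𝓞 N) t) B (Wu τ a w)
    (fun I => Φ (Ideal.relNorm (𝓞 M) I) + 3 ^ j * Ψ (Ideal.relNorm (𝓞 M) I)) (fu τ g f')
  cg : ∀ i x, ∃ z, f' i x = f i x + 3 ^ j * z
  cl : ∀ t' R, t' ≠ 0 → 3 ∣ t' → Rp ι J (Wd a w) m t' R → v3 R.card ≤ c
  on : ∀ y : Fin (d + s) → ZMod (3 ^ B), ∃ x : M, Ev ι J (Wd a w) m 1 1 x ∧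
    ∀ i, fd g f' i.succ x = 3 ^ c * y i

variable [Algebra K N]

/-- the minus defect is killed -/
structure Kl (B m c : ℕ) (w : Fin s → Ideal (𝓞 N)) (f : Fin s → N → ZMod (3 ^ B)) : Prop where
  cl : ∃ E : ℕ, E ≠ 0 ∧ v3 E ≤ c ∧ ∀ I : Ideal (𝓞 N), I ≠ ⊥ → I ⊔ Ideal.span {3} = ⊤ →
    ∃ x, Ev ι J (vecCons ⊤ (Fin.append w fun i => cj τ (w i))) m (I ^ E) (cj τ I ^ E) x
  on : ∀ y : Fin s → ZMod (3 ^ B), ∃ u : (𝓞 N)ˣ, V1 ι J m ((u : 𝓞 N) : N) ∧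
    ((u : 𝓞 N) : N) * τ (u : 𝓞 N) = 1 ∧ ∀ i, f i (u : 𝓞 N) = 3 ^ c * y i

end

/-! ### the exports -/

/-- **completion of a pair** -/
def CPL : Prop := ∀ (K : Type) [Field K] [NumberField K] (ι : ℂ →+* ℂ_[3]) (J : K →+* ℂ) (Ω : ℝ),
  Base ι J Ω → ∀ (M N : Type) [Field M] [NumberField M] [Field N] [NumberField N] [Algebra K M]
  [Algebra M N] (τ : N ≃ₐ[M] N), finrank M N = 2 → τ ≠ 1 → (∃ w : M, w ^ 2 + w + 1 = 0) →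
  ∃ d : ℕ, ∀ s c j : ℕ, ∃ c' : ℕ, ∀ t : 𝓞 M, t ≠ 0 → 3 ∣ t → ∀ m B : ℕ, 2 ≤ m → m ≤ B →
  ∀ (w : Fin s → Ideal (𝓞 N)) Φ f, Bm ι J τ t B m c w Φ f →
    ∃ (a : Fin (d + 1) → Ideal (𝓞 M)) (Ψ : Ideal (𝓞 M) → ZMod (3 ^ B))
      (g₀ g : Fin (d + 1) → M → ZMod (3 ^ B)) (f' : Fin s → N → ZMod (3 ^ B)),
      Pk ι J τ t B m c' j w Φ f a Ψ g₀ g f'

/-- **the minus system and the bound for its minus group** (`A / N` cyclic cubic) -/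
def MJX : Prop := ∀ (K : Type) [Field K] [NumberField K] (ι : ℂ →+* ℂ_[3]) (J : K →+* ℂ) (Ω : ℝ),
  Base ι J Ω → ∀ (A M N : Type) [Field A] [NumberField A] [Field M] [NumberField M] [Field N]
  [NumberField N] [Algebra K A] [Algebra K M] [Algebra K N] [Algebra M N] [Algebra M A]
  [Algebra N A] [IsScalarTower K M N] [IsScalarTower K N A] [IsScalarTower M N A]
  [IsScalarTower K M A] (τ : N ≃ₐ[M] N) (σ : A ≃ₐ[K] A) (j : A →+* Qb), finrank M N = 2 → τ ≠ 1 →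
  (∀ x, algebraMap N A (τ x) = σ (algebraMap N A x)) → Hy N j →
  ∃ s c : ℕ, ∀ t : 𝓞 M, t ≠ 0 → ∀ m B : ℕ, 2 ≤ m → m ≤ B →
    ∃ (w : Fin s → Ideal (𝓞 N)) (Φ : Ideal (𝓞 M) → ZMod (3 ^ B)) (f : Fin s → N → ZMod (3 ^ B)),
      Bm ι J τ t B m c w Φ f ∧ (∀ i, Ine A (w i)) ∧ ∀ a ≤ B,
      ∀ F : Aˣ → Multiplicative (Fin s → ZMod (3 ^ a)),
        (∀ (x : Nˣ) i, (F (Units.map (algebraMap N A : N →* A) x)).toAdd i = (f i x).cast) →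
        Jx (dd (Sw ι J A fun i => (w i).under (𝓞 M))) F (mi (ua σ) (UL ι J N m))
          ((mi (ta σ) (IL N (Ss ι J A 1))).map (pj (Sw ι J A fun i => (w i).under (𝓞 M)))) ≠ 0 ∧
        v3 (Jx (dd (Sw ι J A fun i => (w i).under (𝓞 M))) F (mi (ua σ) (UL ι J N m))
          ((mi (ta σ) (IL N (Ss ι J A 1))).map (pj (Sw ι J A fun i => (w i).under (𝓞 M))))) ≤ c

/-- **the minus system goes up a cubic step** -/
def BUP : Prop := ∀ (K : Type) [Field K] [NumberField K] (ι : ℂ →+* ℂ_[3]) (J : K →+* ℂ)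
  (M N M' N' : Type) [Field M] [NumberField M] [Field N] [NumberField N] [Field M']
  [NumberField M'] [Field N'] [NumberField N'] [Algebra K M] [Algebra K M'] [Algebra M N]
  [Algebra M M'] [Algebra M N'] [Algebra N N'] [Algebra M' N'] [IsScalarTower K M M']
  [IsScalarTower M N N'] [IsScalarTower M M' N'] [IsGalois M M'] [IsGalois N N']
  (τ : N ≃ₐ[M] N) (τ' : N' ≃ₐ[M'] N'), finrank M N = 2 → finrank M' N' = 2 → finrank M M' = 3 →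
  τ ≠ 1 → (∀ x, algebraMap N N' (τ x) = τ' (algebraMap N N' x)) →
  ∀ (s B m c : ℕ) t (w : Fin s → Ideal (𝓞 N)) Φ f, Bm ι J τ t B m c w Φ f → (∀ i, Ine N' (w i)) →
  Bm ι J τ' (algebraMap (𝓞 M) (𝓞 M') t) B m c (fun i => (w i).map (algebraMap (𝓞 N) (𝓞 N')))
    (fun I => Φ (Ideal.relNorm (𝓞 M) I)) (fun i x => f i (Algebra.norm N x)) ∧
  ∀ i, Ine M' ((w i).under (𝓞 M)) ∧ ((w i).map (algebraMap (𝓞 N) (𝓞 N'))).under (𝓞 M') =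
    ((w i).under (𝓞 M)).map (algebraMap (𝓞 M) (𝓞 M'))

/-- split primes -/
def SPL : Prop := ∀ (M N : Type) [Field M] [NumberField M] [Field N] [NumberField N] [Algebra M N]
  (τ : N ≃ₐ[M] N), finrank M N = 2 → τ ≠ 1 →
  (∀ x : N, algebraMap M N (Algebra.norm M x) = x * τ x ∧ τ (τ x) = x) ∧
  (∀ I I' : Ideal (𝓞 N), cj τ (cj τ I) = I ∧ cj τ (I * I') = cj τ I * cj τ I' ∧
    (cj τ I).under (𝓞 M) = I.under (𝓞 M) ∧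
    (Ideal.relNorm (𝓞 M) I).map (algebraMap (𝓞 M) (𝓞 N)) = I * cj τ I) ∧
  ∀ w : Ideal (𝓞 N), w.IsMaximal → (cj τ w).IsMaximal ∧ (cj τ w ≠ w →
    (w.under (𝓞 M)).map (algebraMap (𝓞 M) (𝓞 N)) = w * cj τ w ∧
    Ideal.relNorm (𝓞 M) w = w.under (𝓞 M) ∧ Ideal.relNorm (𝓞 M) (cj τ w) = w.under (𝓞 M) ∧
    ∀ x : M, oi w (algebraMap M N x) = oi (w.under (𝓞 M)) x)

/-! ### inner rows -/

/-- **one prime from characters** -/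
def PRM : Prop := ∀ (K : Type) [Field K] [NumberField K] (ι : ℂ →+* ℂ_[3]) (J : K →+* ℂ) (Ω : ℝ),
  Base ι J Ω → ∀ (M N : Type) [Field M] [NumberField M] [Field N] [NumberField N] [Algebra K M]
  [Algebra M N] (j : N →+* Qb), Hy M j → ∃ c : ℕ, ∀ (B m : ℕ) (κ : Type) [Finite κ]
    (ψ : κ → Ideal (𝓞 M) → ZMod (3 ^ B)),
    (∀ i I I', I ≠ ⊥ → I' ≠ ⊥ → I ⊔ Ideal.span {3} = ⊤ → I' ⊔ Ideal.span {3} = ⊤ →
      ψ i (I * I') = ψ i I + ψ i I') →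
    (∀ i (x : 𝓞 M), x ≠ 0 → V1 ι J m (x : M) → Ideal.span {x} ⊔ Ideal.span {3} = ⊤ →
      ψ i (Ideal.span {x}) = 0) →
    ∀ I : Ideal (𝓞 M), I ≠ ⊥ → I ⊔ Ideal.span {3} = ⊤ →
    ∀ (κ' : Type) [Fintype κ'] (b : κ' → Mˣ) (y : κ' → ZMod (3 ^ B)), Ok b y →
    (finrank M N = 3 → ∀ i, ∃ u : (𝓞 M)ˣ, (b i : M) = (u : 𝓞 M)) → ∀ S : Finset ℕ,
    ∃ W : Ideal (𝓞 M), (Ideal.absNorm W).Prime ∧ Ideal.absNorm W ∉ S ∧ Ine N W ∧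
      (∀ i, ψ i W = 3 ^ c • ψ i I) ∧ ∃ δ : Mˣ →* Multiplicative (ZMod (3 ^ B)), Tm W δ ∧
      ∀ i, (δ (b i)).toAdd = 3 ^ c • y i

/-- **one prime in a ray class** -/
def PRC : Prop := ∀ (K : Type) [Field K] [NumberField K] (ι : ℂ →+* ℂ_[3]) (J : K →+* ℂ) (Ω : ℝ),
  Base ι J Ω → ∀ (M N : Type) [Field M] [NumberField M] [Field N] [NumberField N] [Algebra K M]
  [Algebra M N] (j : N →+* Qb), Hy M j → ∃ E E' c : ℕ, E ≠ 0 ∧ E' ≠ 0 ∧ ∀ B : ℕ,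
    ∀ z : 𝓞 M, V1 ι J 2 (z : M) → IsCoprime z 3 →
    ∀ (κ : Type) [Fintype κ] (b : κ → Mˣ) (y : κ → ZMod (3 ^ B)), Ok b y →
    (finrank M N = 3 → ∀ i, ∃ u : (𝓞 M)ˣ, (b i : M) = (u : 𝓞 M)) → ∀ S : Finset ℕ,
    ∃ W : Ideal (𝓞 M), (Ideal.absNorm W).Prime ∧ Ideal.absNorm W ∉ S ∧ Ine N W ∧
      (∃ g : 𝓞 M, W ^ E = Ideal.span {g} ∧ V1 ι J (B + 2) ((g : M) / (z : M) ^ E')) ∧
      ∃ δ : Mˣ →* Multiplicative (ZMod (3 ^ B)), Tm W δ ∧ ∀ i, (δ (b i)).toAdd = 3 ^ c • y i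

/-- a good diagonal -/
def DG : Prop := ∀ (B s : ℕ) (X : Matrix (Fin s) (Fin s) (ZMod (3 ^ B))) (q : ZMod (3 ^ B)),
  ∃ y : Fin s → ZMod (3 ^ B), ∀ z : Fin s → ZMod (3 ^ B), ∃ n,
    vecMul n (X + diagonal fun i => q * y i) = q ^ s • z

/-- linear algebra over `ℤ₃`, square matrices -/
def LINS : Prop := ∀ (a : ℕ) (B : Matrix (Fin a) (Fin a) ℤ_[3]), ∃ (r c : ℕ)
  (k μ l u : Fin r → Fin a → ℤ_[3]),
  (∀ i, vecMul (k i) B = 0) ∧ (∀ i i', μ i ⬝ᵥ k i' = if i = i' then 1 else 0) ∧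
  (∀ i, B.mulVec (l i) = 0) ∧ (∀ i i', l i ⬝ᵥ u i' = if i = i' then 1 else 0) ∧
  ∀ y, (∀ i, l i ⬝ᵥ y = 0) → ∃ x, vecMul x B = 3 ^ c • y

/-- local characters give a system; sums of systems -/
def SYS : Prop := ∀ (M : Type) [Field M] [NumberField M] (B : ℕ) (t : 𝓞 M),
  (∀ (κ : Type) [Fintype κ] (W : κ → Ideal (𝓞 M)) (h : ℕ)
    (δ : κ → Mˣ →* Multiplicative (ZMod (3 ^ B))), (∀ i, (W i).IsMaximal) → Function.Injective W →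
    (∀ i, t ∉ W i) → (∀ I : Ideal (𝓞 M), I ≠ ⊥ → ∃ π, I ^ h = Ideal.span {π}) →
    (∀ i, Tm (W i) (δ i)) →
    (∀ u : (𝓞 M)ˣ, ∏ i, δ i (Units.map (algebraMap (𝓞 M) M : 𝓞 M →* M) u) = 1) →
    ∃ Φ φ, Sy t B W Φ φ ∧ ∀ i (b : Mˣ), φ i b = h • (δ i b).toAdd + oi (W i) (b : M) • Φ (W i)) ∧
  (∀ (κ κ' : Type) [Fintype κ] [Fintype κ'] (W : κ → Ideal (𝓞 M)) (W' : κ' → Ideal (𝓞 M))
    Φ φ Φ' φ' (q : ZMod (3 ^ B)), Sy t B W Φ φ → Sy t B W' Φ' φ' → (∀ i i', W i ≠ W' i') →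
    Sy t B (Sum.elim W' W) (fun I => Φ I + q * Φ' I) (Sum.elim
      (fun i x => q * φ' i x + oi (W' i) x • Φ (W' i))
      fun i x => φ i x + q * (oi (W i) x • Φ' (W i)))) ∧
  (∀ (κ κ' : Type) [Fintype κ] [Fintype κ'] (e : κ' ≃ κ) (W : κ → Ideal (𝓞 M)) Φ φ,
    Sy t B W Φ φ → Sy t B (W ∘ e) Φ (φ ∘ e)) ∧
  ∀ P : Ideal (𝓞 M), P.IsMaximal → (∀ x y : M, x ≠ 0 → y ≠ 0 → oi P (x * y) = oi P x + oi P y) ∧
    (∀ x : 𝓞 M, x ∉ P → oi P (x : M) = 0) ∧ ∀ (x : 𝓞 M) (e : ℕ) (I : Ideal (𝓞 M)), I ⊔ P = ⊤ →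
      Ideal.span {x} = I * P ^ e → oi P (x : M) = e

/-- systems go up a quadratic step -/
def UPS : Prop := ∀ (M N : Type) [Field M] [NumberField M] [Field N] [NumberField N] [Algebra M N]
  (τ : N ≃ₐ[M] N), finrank M N = 2 → τ ≠ 1 → ∀ (d s B : ℕ) (t : 𝓞 M)
  (a : Fin (d + 1) → Ideal (𝓞 M)) (w : Fin s → Ideal (𝓞 N)) Φ
  (g : Fin (d + 1) → M → ZMod (3 ^ B)) (f : Fin s → N → ZMod (3 ^ B)),
  Aux t B (Wd a w) Φ (fd g f) → (∀ i, Ine N (a i)) → (∀ i, (w i).IsMaximal ∧ cj τ (w i) ≠ w i) →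
  (∀ i x y, x ≠ 0 → y ≠ 0 → f i (x * y) = f i x + f i y) →
  (∀ i (x : 𝓞 N), x - 1 ∈ w i → f i x = 0) →
  Aux (algebraMap (𝓞 M) (𝓞 N) t) B (Wu τ a w) (fun I => Φ (Ideal.relNorm (𝓞 M) I)) (fu τ g f)

/-- the minus logarithm and the minus units -/
def LGM : Prop := ∀ (K : Type) [Field K] [NumberField K] (ι : ℂ →+* ℂ_[3]) (J : K →+* ℂ) (Ω : ℝ),
  Base ι J Ω → ∀ (M N : Type) [Field M] [NumberField M] [Field N] [NumberField N] [Algebra K M]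
  [Algebra K N] [Algebra M N] [IsScalarTower K M N] (τ : N ≃ₐ[M] N), finrank M N = 2 → τ ≠ 1 →
  ∃ ℓ : N → Fin (finrank K M) → ℤ_[3],
    (∀ x y, V1 ι J 2 x → V1 ι J 2 y → ℓ (x * y) = ℓ x + ℓ y) ∧
    (∀ x, V1 ι J 2 x → ℓ (τ x) = -ℓ x) ∧
    (∀ x m, V1 ι J 2 x → (V1 ι J (m + 2) (x / τ x) ↔ ∀ i, 3 ^ m ∣ ℓ x i)) ∧
    ∀ (y : Fin (finrank K M) → ℤ_[3]) (m : ℕ), ∃ x : 𝓞 N, V1 ι J 2 (x : N) ∧ IsCoprime x 3 ∧
      V1 ι J m ((x : N) * τ x) ∧ ∀ i, 3 ^ m ∣ ℓ x i - y i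

/-- coordinates on the minus units -/
def UNM : Prop := ∀ (K : Type) [Field K] [NumberField K] (ι : ℂ →+* ℂ_[3]) (J : K →+* ℂ) (Ω : ℝ),
  Base ι J Ω → ∀ (M N : Type) [Field M] [NumberField M] [Field N] [NumberField N] [Algebra K M]
  [Algebra K N] [Algebra M N] [IsScalarTower K M N] (τ : N ≃ₐ[M] N), finrank M N = 2 → τ ≠ 1 →
  ∃ ε : Fin (finrank K M) → (𝓞 N)ˣ,
    (∀ u : (𝓞 N)ˣ, V1 ι J 2 ((u : 𝓞 N) : N) ∧ ((u : 𝓞 N) : N) * τ (u : 𝓞 N) = 1 ↔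
      ∃ n : Fin (finrank K M) → ℤ, u = ∏ i, ε i ^ n i) ∧
    ∀ n : Fin (finrank K M) → ℤ, ∏ i, ε i ^ n i = 1 → n = 0

/-- **the minus system** -/
def AXM : Prop := ∀ (K : Type) [Field K] [NumberField K] (ι : ℂ →+* ℂ_[3]) (J : K →+* ℂ) (Ω : ℝ),
  Base ι J Ω → ∀ (A M N : Type) [Field A] [NumberField A] [Field M] [NumberField M] [Field N]
  [NumberField N] [Algebra K M] [Algebra K N] [Algebra M N] [Algebra N A] [IsScalarTower K M N]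
  (τ : N ≃ₐ[M] N) (j : A →+* Qb), finrank M N = 2 → τ ≠ 1 → Hy N j →
  ∃ s c : ℕ, ∀ t : 𝓞 M, t ≠ 0 → ∀ m B : ℕ, 2 ≤ m → m ≤ B →
    ∃ (w : Fin s → Ideal (𝓞 N)) (Φ : Ideal (𝓞 M) → ZMod (3 ^ B)) (f : Fin s → N → ZMod (3 ^ B)),
      Bm ι J τ t B m c w Φ f ∧ (∀ i, Ine A (w i)) ∧ Kl ι J τ B m c w f

/-- the minus class group is bounded by its exponent -/
def CLM : Prop := ∀ (K : Type) [Field K] [NumberField K] (ι : ℂ →+* ℂ_[3]) (J : K →+* ℂ) (Ω : ℝ),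
  Base ι J Ω → ∀ (A M N : Type) [Field A] [NumberField A] [Field M] [NumberField M] [Field N]
  [NumberField N] [Algebra K A] [Algebra K M] [Algebra K N] [Algebra M N] [Algebra M A]
  [Algebra N A] [IsScalarTower K M N] [IsScalarTower K N A] [IsScalarTower M N A]
  [IsScalarTower K M A] (τ : N ≃ₐ[M] N) (σ : A ≃ₐ[K] A), finrank M N = 2 → τ ≠ 1 →
  (∀ x, algebraMap N A (τ x) = σ (algebraMap N A x)) →
  (∀ p ∈ mi (ta σ) (IL N (Ss ι J A 1)), ∃ q ∈ IL N (Ss ι J A 1), p = q / ta σ q) ∧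
  ∃ n : ℕ, ∀ m, 2 ≤ m →
    ((mi (ua σ) (UL ι J N m)).map (dd (Ss ι J A 1))).relIndex
      (mi (ta σ) (IL N (Ss ι J A 1))) ≠ 0 ∧
    ∀ (s E : ℕ) (w : Fin s → Ideal (𝓞 N)), E ≠ 0 → (∀ I : Ideal (𝓞 N), I ≠ ⊥ →
      I ⊔ Ideal.span {3} = ⊤ →
      ∃ x, Ev ι J (vecCons ⊤ (Fin.append w fun i => cj τ (w i))) m (I ^ E) (cj τ I ^ E) x) →
    ((mi (ua σ) (UL ι J N m)).map (dd (Sw ι J A fun i => (w i).under (𝓞 M)))).relIndex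
      ((mi (ta σ) (IL N (Ss ι J A 1))).map (pj (Sw ι J A fun i => (w i).under (𝓞 M)))) ∣
        (2 * E) ^ n

end Vale.Agent.P014Y.C.Al
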