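import Vale.Agent.P014Y.C.Al.Aux0
import Vale.Agent.P014Y.C.Al.AxSt
import Vale.Agent.P004C.Al.Aux2

/-!
# P014 Y, C, block AL: the auxiliary prime from ray class characters
-/

set_option linter.all false

noncomputable section

namespace Vale.Agent.P014Y.C.Al

open NumberField IsDedekindDomain Module Ideal
open Vale.Agent.P022 Vale.Agent.P022.C Vale.Agent.P022.H916
open Vale.Agent.P027M.S (Pr Inert)
open Vale.Agent.P022D.Sel (ov)
open Vale.Agent.P022E.GW (Ov)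
open Vale.Agent.P022K.Exi (ex_root pow_self ex_log)
open Vale.Agent.P004C.Al.Kn (cop_dvd nat_dvd cop_of fr_root Gz ku ku_one ku_of sq_mem)

namespace Kn

variable {M : Type} [Field M] [NumberField M]

/-- the prime, given an element outside the group of the upper field -/
theorem pr0 {K : Type} [Field K] [NumberField K] {ι : ℂ →+* ℂ_[3]} {J : K →+* ℂ}
    {Ω : ℝ} (hB : Base ι J Ω) [Algebra K M] {M2 : Type} [Field M2] [NumberField M2] [Algebra M M2]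
    [IsGalois M M2] (h2 : (finrank M M2).Prime) (h3 : finrank M M2 ≤ 3) (j2 : M2 →+* Qb) :
    ∃ c : ℕ, ∀ (A m : ℕ) (κ : Type) [Finite κ] (ψ : κ → Ideal (𝓞 M) → ZMod (3 ^ A)),
    (∀ i I I', I ≠ ⊥ → I' ≠ ⊥ → I ⊔ span {3} = ⊤ → I' ⊔ span {3} = ⊤ →
      ψ i (I * I') = ψ i I + ψ i I') →
    (∀ i (x : 𝓞 M), x ≠ 0 → V1 ι J m (x : M) → span {x} ⊔ span {3} = ⊤ → ψ i (span {x}) = 0) →
    ∀ I : Ideal (𝓞 M), I ≠ ⊥ → I ⊔ span {3} = ⊤ →
    ∀ (κ' : Type) [Fintype κ'] (b : κ' → Mˣ) (y : κ' → ZMod (3 ^ A)), Ok b y →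
    ∀ Q₀ : Finset ℕ, (∀ q ∈ Q₀, q.Prime ∧ q ≠ 3) →
    (∀ θ : κ → GK (j2.comp (algebraMap M M2)) →* Multiplicative (ZMod (3 ^ A)),
      (∀ i, ∀ q ∈ Q₀, ∀ P, Ov q P → ∀ g : GK (j2.comp (algebraMap M M2)), Inert P g → θ i g = 1) →
      ∃ g : GK (j2.comp (algebraMap M M2)), g.1 ∉ GK j2 ∧ (∀ z : Qb, z ^ 3 ^ A = 1 → g.1 z = z) ∧
        (∀ i, θ i g = 1) ∧
        ∀ i (z : Qb), z ^ 3 ^ A = j2.comp (algebraMap M M2) (b i) → g.1 z = z) →
    ∀ S : Finset ℕ, ∃ W : Ideal (𝓞 M),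
      (absNorm W).Prime ∧ absNorm W ∉ S ∧ (W.map (algebraMap (𝓞 M) (𝓞 M2))).IsMaximal ∧
      W.IsMaximal ∧ (∀ i, ψ i W = 3 ^ c • ψ i I) ∧ ∃ δ : Mˣ →* Multiplicative (ZMod (3 ^ A)),
      Tm W δ ∧ ∀ i, (δ (b i)).toAdd = 3 ^ c • y i := by
  classical
  obtain ⟨c, hc⟩ := core hB (j2.comp (algebraMap M M2))
  refine ⟨c, fun A m κ _ ψ add prn I I0 I2 κ' _ b w ok Q₀ hQ hg S => ?_⟩
  haveI : IsEmpty (M →+* ℝ) := ⟨fun f => hB.im.false (f.comp (algebraMap K M))⟩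
  letI := Fintype.ofFinite κ
  have d2 : (3 : 𝓞 M) ∣ 3 ^ (m + 1) := dvd_pow_self 3 m.succ_ne_zero
  have N0 : absNorm I ≠ 0 := absNorm_eq_zero_iff.not.2 I0
  have hN : ∀ p ∈ Q₀ ∪ (absNorm I).primeFactors, p.Prime ∧ p ≠ 3 := fun p hp => by
    rcases Finset.mem_union.1 hp with hp | hp
    · exact hQ p hp
    · refine ⟨Nat.prime_of_mem_primeFactors hp, ?_⟩
      rintro rfl
      obtain ⟨P, p1, p2, p3⟩ := exists_isMaximal_dvd_of_dvd_absNorm Int.prime_three I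
        (by exact_mod_cast Nat.dvd_of_mem_primeFactors hp)
      exact p1.ne_top (top_unique (I2 ▸ sup_le (dvd_iff_le.1 p3) ((span_singleton_le_iff_mem _).2
        (by simpa using mem_comap.1 (p2.ge (mem_span_singleton_self 3))))))
  choose θ opn B B1 B2 B3 B4 using fun i => Xt.ext M (j2.comp (algebraMap M M2)) A
    (span {3 ^ (m + 1)})
    (ψ i) (Q₀ ∪ (absNorm I).primeFactors) (fun p hp => ⟨(hN p hp).1, (hN p hp).2,
      (sup_eq_top_iff_isCoprime _ _).2 (by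
        exact_mod_cast (Nat.Coprime.cast (R := 𝓞 M) ((Nat.coprime_primes (hN p hp).1
          Nat.prime_three).2 (hN p hp).2)).pow_right (n := m + 1))⟩)
    (by simp) (fun I I' a b c d => add i I I' a b (cop_dvd d2 c) (cop_dvd d2 d)) fun x a b => by
      obtain ⟨y, hy⟩ := mem_span_singleton.1 b
      refine prn i x a (Gx.v1_mono m.le_succ (Gx.v1_iff.2 ⟨y, Gx.int_Ov y, ?_⟩))
        ((sup_eq_top_iff_isCoprime _ _).2 ⟨1, -(3 ^ m * y), by linear_combination hy⟩)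
      have := congrArg (algebraMap (𝓞 M) M) (eq_add_of_sub_eq' hy)
      rwa [map_add, map_mul, map_pow, map_one, map_ofNat] at this
  obtain ⟨g, g2, g3, g4, g5⟩ := hg θ fun i q hq => B3 i q
    (Finset.disjoint_right.1 (B2 i) (Finset.mem_union_left _ hq))
  have t2 : (3 : 𝓞 M) ∣ (3 * ∏ i, ∏ l ∈ B i, l : ℕ) := by
    rw [Nat.cast_mul]; exact dvd_mul_right _ _
  have T0 : 3 * ∏ i, ∏ l ∈ B i, l ≠ 0 := mul_ne_zero three_ne_zero (Finset.prod_ne_zero_iff.2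
    fun i _ => Finset.prod_ne_zero_iff.2 fun l hl => (B1 i l hl).ne_zero)
  obtain ⟨y, hy⟩ : ∃ y : 𝓞 M2,
      g.1 • RingOfIntegers.mapRingHom j2 y - RingOfIntegers.mapRingHom j2 y ≠ 0 := by
    by_contra! k
    refine g2 fun x => ?_
    obtain ⟨a, b, -, rfl⟩ := IsFractionRing.div_surjective (A := 𝓞 M2) x
    have e : ∀ a : 𝓞 M2, g.1 (j2 (algebraMap _ M2 a)) = j2 (algebraMap _ M2 a) := fun a =>
      congrArg (fun z : 𝓞 Qb => (z : Qb)) (sub_eq_zero.1 (k a))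
    rw [map_div₀, map_div₀, e, e]
  obtain ⟨r, r1, r0⟩ := Submodule.exists_mem_ne_zero_of_ne_bot (comap_ne_bot_of_integral_mem
    (R := ℤ) hy (mem_span_singleton_self _) (Algebra.IsIntegral.isIntegral _))
  obtain ⟨l, P, φ, h, δ, hP, lS, nl, fb, u, k1, k2, k3⟩ := hc A m _ κ θ ψ T0 (dvd_mul_right _ _) opn
    (fun i I I' a b c d => add i I I' a b (cop_dvd t2 c) (cop_dvd t2 d))
    (fun i v hv => B4 i v fun ⟨l, hl, _, k⟩ => hv (v.asIdeal.mem_of_dvd (Nat.cast_dvd_cast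
      (((Finset.dvd_prod_of_mem (fun l => l) hl).trans (Finset.dvd_prod_of_mem
        (fun i => ∏ l ∈ B i, l) (Finset.mem_univ i))).mul_left _)) k))
    (fun i x a b c => prn i x a b (cop_dvd t2 c)) I I0 (cop_of (fun P p1 p2 p hp d k => by
      simp only [hp.dvd_mul, hp.prime.dvd_finsetProd_iff] at d
      rcases d with d | ⟨i, -, l, hl, d⟩
      · obtain rfl := (Nat.prime_dvd_prime_iff_eq hp Nat.prime_three).1 d
        exact p1.ne_top (top_unique (I2 ▸ sup_le p2 ((span_singleton_le_iff_mem _).2 k)))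
      · obtain rfl := (Nat.prime_dvd_prime_iff_eq hp (B1 i l hl)).1 d
        exact Finset.disjoint_left.1 (B2 i) hl (Finset.mem_union_right _ (Nat.mem_primeFactors.2
          ⟨hp, nat_dvd p1 hp k (p2 (absNorm_mem I)), N0⟩))) T0)
    κ' b w ok g g3 g4 g5 (GK j2) (isOpen_GK j2) (S ∪ r.natAbs.primeFactors)
  rw [Finset.mem_union, not_or] at lS
  refine ⟨_, nl ▸ hP.1, nl ▸ lS.1, inert (fun _ => rfl) h2 hP.2.1 hP.1 nl fb (y := y)
    fun k => lS.2 ?_, (H20.below_prime _ hP.2.1).isMaximal fun e => hP.1.ne_zero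
      (by rw [← nl, e, absNorm_bot]), k1, δ, k2, k3⟩
  rw [← mul_inv_cancel_left (g.1 * h.1 ^ 6) φ, mul_assoc, mul_smul, P022K.GW.Pl.fix_int j2
    (mul_mem (six_mem (fun _ => rfl) h3 h) u)] at k
  exact Nat.mem_primeFactors.2 ⟨hP.1, Int.natCast_dvd.1 (H20.dvd_of_mem hP.1 hP.2.1 hP.2.2
    ((span_singleton_le_iff_mem _).2 k r1)), Int.natAbs_ne_zero.2 r0⟩

/-- an element which fixes the third roots of unity -/
theorem fix_pow {g : GQ} (h : ∀ z : Qb, z ^ 3 = 1 → g z = z) (A : ℕ) :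
    ∀ z : Qb, z ^ 3 ^ (A + 1) = 1 → (g ^ 3 ^ A) z = z := by
  induction A with
  | zero => simpa using h
  | succ A ih =>
    intro z hz
    have z0 : z ≠ 0 := fun e => by simp [e] at hz
    have h' : ∀ z : Qb, z ^ 3 = 1 → (g ^ 3 ^ A) z = z := fun z k =>
      ih z (by rw [pow_succ', pow_mul, k, one_pow])
    have e := ih (z ^ 3) (by rw [← pow_mul, ← pow_succ', hz])
    rw [pow_succ, pow_mul]
    generalize g ^ 3 ^ A = s at h' e
    obtain ⟨w, hw⟩ : ∃ w, s z = w * z := ⟨s z / z, (div_mul_cancel₀ _ z0).symm⟩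
    have w3 : w ^ 3 = 1 := mul_right_cancel₀ (pow_ne_zero 3 z0) (by
      rw [← mul_pow, ← hw, ← map_pow, e, one_mul])
    rw [pow_three, AlgEquiv.mul_apply, AlgEquiv.mul_apply, hw, map_mul, h' w w3, hw, map_mul,
      map_mul, h' w w3, hw]
    linear_combination z * w3

theorem ex_out {M2 : Type} [Field M2] [NumberField M2] [Algebra M M2] (h : finrank M M2 ≠ 1)
    (j2 : M2 →+* Qb) : ∃ g ∈ GK (j2.comp (algebraMap M M2)), g ∉ GK j2 := by
  by_contra! k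
  refine h (Subalgebra.bot_eq_top_iff_finrank_eq_one.1 (eq_top_iff.2 fun x _ => ?_))
  obtain ⟨y, hy⟩ := fixed (j2.comp (algebraMap M M2)) (x := j2 x) fun g => k g g.2 x
  exact ⟨y, j2.injective hy⟩

end Kn

open Kn in
/-- **one prime from characters** -/
theorem prm : PRM := by
  intro K _ _ ι J Ω hB M N _ _ _ _ _ _ j H
  haveI := H.gal
  have hd : finrank M N = 2 ∨ finrank M N = 3 := H.dg.imp_right And.left
  obtain ⟨c, hc⟩ := pr0 hB (M := M) (M2 := N) (by rcases hd with e | e <;> rw [e] <;> norm_num)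
    (by omega) j
  refine ⟨c, fun B m κ _ ψ add prn I I0 I3 κ' _ b y ok un S => ?_⟩
  obtain ⟨ζ, hζ⟩ := HasEnoughRootsOfUnity.exists_primitiveRoot Qb (3 ^ B)
  have fin : ∀ {g : GK (j.comp (algebraMap M N))}, g.1 ζ = ζ → ∀ z : Qb, z ^ 3 ^ B = 1 →
      g.1 z = z := fun k z e => by
    obtain ⟨i, -, rfl⟩ := hζ.eq_pow_of_pow_eq_one e
    rw [map_pow, k]
  suffices ∃ W : Ideal (𝓞 M), (absNorm W).Prime ∧ absNorm W ∉ S ∧
      (W.map (algebraMap (𝓞 M) (𝓞 N))).IsMaximal ∧ W.IsMaximal ∧ (∀ i, ψ i W = 3 ^ c • ψ i I) ∧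
      ∃ δ : Mˣ →* Multiplicative (ZMod (3 ^ B)), Tm W δ ∧ ∀ i, (δ (b i)).toAdd = 3 ^ c • y i by
    obtain ⟨W, a, b, c, d, e⟩ := this
    exact ⟨W, a, b, c, e⟩
  rcases H.dg with e | ⟨e, q, Q, g, q3, hQ, ig, g1, g2⟩
  · refine hc B m κ ψ add prn I I0 I3 κ' b y ok ∅ (by simp) (fun θ _ => ?_) S
    obtain ⟨g, g1, g2⟩ := ex_out (M := M) (by omega) j
    obtain ⟨w, hw⟩ := H.rt
    have w3 : IsPrimitiveRoot (j.comp (algebraMap M N) w) 3 := by
      have k := congrArg (j.comp (algebraMap M N)) hw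
      rw [map_add, map_add, map_pow, map_one, map_zero] at k
      generalize j.comp (algebraMap M N) w = z at k
      haveI := Fact.mk Nat.prime_three
      refine (IsPrimitiveRoot.iff_orderOf).2 (orderOf_eq_prime (by linear_combination (z - 1) * k) ?_)
      rintro rfl
      norm_num at k
    have f3 := fix_pow (g := g) (fun z k => by
      obtain ⟨i, -, rfl⟩ := w3.eq_pow_of_pow_eq_one k
      rw [map_pow, g1]) B ζ (by rw [pow_succ, pow_mul, hζ.pow_eq_one, one_pow])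
    let s : Gz ζ (j.comp (algebraMap M N)) := ⟨⟨g, g1⟩ ^ 3 ^ B, f3⟩
    refine ⟨(s ^ 3 ^ B).1, fun k => g2 ?_, fin (s ^ 3 ^ B).2,
      fun i => (map_pow (θ i) s.1 _).trans (pow_self _), fun i z k =>
        (ku_one hζ k).1 ((map_pow _ s _).trans (pow_self _))⟩
    obtain ⟨t, ht⟩ : Odd (3 ^ B * 3 ^ B) := Odd.mul (Odd.pow (by decide)) (Odd.pow (by decide))
    have k' : g ^ (3 ^ B * 3 ^ B) ∈ GK j := by rw [pow_mul]; exact k
    rw [ht, pow_succ, pow_mul] at k'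
    exact ((GK j).mul_mem_cancel_left (pow_mem (sq_mem e (fun _ => rfl) ⟨g, g1⟩) t)).1 k'
  · have two : ((3 ^ B : ℕ) : 𝓞 Qb) ∉ Q := fun m => q3 (P022K.GW.Pl.ov_uniq hQ
      ⟨Nat.prime_three, hQ.2.1, hQ.2.1.mem_of_pow_mem B (by exact_mod_cast m)⟩)
    have gz : g ζ = ζ := (fr_root (q := 1) hQ.2.1 two hζ.pow_eq_one
      fun x => (pow_one x).symm ▸ ig x).trans (pow_one ζ)
    refine hc B m κ ψ add prn I I0 I3 κ' b y ok {q} (by simpa using ⟨hQ.1, q3⟩)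
      (fun θ k => ⟨⟨g, g1⟩, g2, fin gz, fun i => k i q (Finset.mem_singleton_self q) Q hQ _ ig,
        fun i z k => ?_⟩) S
    obtain ⟨u, hu⟩ := un e i
    exact (ku_one hζ (g := ⟨⟨g, g1⟩, gz⟩) k).1 (ku_of hζ hQ.2.1 two hu
      (fun m => (H20.below_prime _ hQ.2.1).ne_top (eq_top_of_isUnit_mem _ m u.isUnit))
      fun y _ => ig y)

end Vale.Agent.P014Y.C.Al
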