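import Vale.Agent.P014Y.C.Al.Sys

/-!
# P014 Y, block AL: split primes of a quadratic step
-/

set_option linter.all false

open NumberField Module IsDedekindDomain Ideal
open scoped Classical

noncomputable section

namespace Vale.Agent.P014Y.C.Al

open Sys

namespace Spl

variable {M N : Type} [Field M] [NumberField M] [Field N] [NumberField N] [Algebra M N]
  {τ : N ≃ₐ[M] N}

theorem gal (r : finrank M N = 2) : IsGalois M N :=
  haveI : Algebra.IsQuadraticExtension M N := { finrank_eq_two' := r }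
  inferInstance

theorem two (r : finrank M N = 2) (h : τ ≠ 1) (σ : N ≃ₐ[M] N) : σ = 1 ∨ σ = τ := by
  haveI := gal r
  haveI : FiniteDimensional M N := Module.finite_of_finrank_pos (by omega)
  obtain ⟨y, -, e⟩ := (Nat.card_eq_two_iff' (1 : N ≃ₐ[M] N)).1
    ((IsGalois.card_aut_eq_finrank M N).trans r)
  by_cases k : σ = 1
  · exact .inl k
  · exact .inr ((e σ k).trans (e τ h).symm)

theorem inv (r : finrank M N = 2) (h : τ ≠ 1) (x : N) : τ (τ x) = x := by
  rcases two r h (τ * τ) with k | k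
  · exact DFunLike.congr_fun k x
  · exact absurd (mul_left_cancel (k.trans (mul_one τ).symm)) h

theorem nrm (r : finrank M N = 2) (h : τ ≠ 1) (x : N) :
    algebraMap M N (Algebra.norm M x) = x * τ x := by
  haveI := gal r
  haveI : FiniteDimensional M N := Module.finite_of_finrank_pos (by omega)
  rw [Algebra.norm_eq_prod_automorphisms, show (Finset.univ : Finset (N ≃ₐ[M] N)) = {1, τ} from
    Finset.ext fun σ => by simpa using two r h σ, Finset.prod_pair h.symm]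
  rfl

theorem inv' (r : finrank M N = 2) (h : τ ≠ 1) (x : 𝓞 N) :
    RingOfIntegers.mapAlgEquiv τ (RingOfIntegers.mapAlgEquiv τ x) = x :=
  RingOfIntegers.ext (inv r h x)

theorem mem_cj {I : Ideal (𝓞 N)} {x : 𝓞 N} : x ∈ cj τ I ↔ RingOfIntegers.mapAlgEquiv τ x ∈ I :=
  Iff.rfl

theorem cj_cj (r : finrank M N = 2) (h : τ ≠ 1) (I : Ideal (𝓞 N)) : cj τ (cj τ I) = I :=
  Ideal.ext fun x => by rw [mem_cj, mem_cj, inv' r h]

theorem cj_map (r : finrank M N = 2) (h : τ ≠ 1) (I : Ideal (𝓞 N)) :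
    cj τ I = I.map (RingOfIntegers.mapAlgEquiv τ) :=
  le_antisymm (fun x hx => by rw [← inv' r h x]; exact mem_map_of_mem _ hx)
    (map_le_iff_le_comap.2 fun x hx => by rwa [mem_comap, mem_cj, inv' r h])

theorem cj_mul (r : finrank M N = 2) (h : τ ≠ 1) (I I' : Ideal (𝓞 N)) :
    cj τ (I * I') = cj τ I * cj τ I' := by
  simp only [cj_map r h, Ideal.map_mul]

theorem cj_pow (r : finrank M N = 2) (h : τ ≠ 1) (I : Ideal (𝓞 N)) (n : ℕ) :
    cj τ (I ^ n) = cj τ I ^ n := by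
  simp only [cj_map r h, Ideal.map_pow]

theorem cj_span (r : finrank M N = 2) (h : τ ≠ 1) (x : 𝓞 N) :
    cj τ (span {x}) = span {RingOfIntegers.mapAlgEquiv τ x} := by
  rw [cj_map r h, map_span, Set.image_singleton]

theorem cj_under (I : Ideal (𝓞 N)) : (cj τ I).under (𝓞 M) = I.under (𝓞 M) :=
  Ideal.ext fun x => by rw [mem_comap, mem_comap, mem_cj, AlgEquiv.commutes]

theorem cj_max {w : Ideal (𝓞 N)} (hw : w.IsMaximal) : (cj τ w).IsMaximal :=
  comap_isMaximal_of_surjective _ (RingOfIntegers.mapAlgEquiv τ).surjective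

theorem int_nrm (r : finrank M N = 2) (h : τ ≠ 1) (x : 𝓞 N) :
    algebraMap (𝓞 M) (𝓞 N) (Algebra.intNorm (𝓞 M) (𝓞 N) x) =
      x * RingOfIntegers.mapAlgEquiv τ x := by
  haveI : FiniteDimensional M N := Module.finite_of_finrank_pos (by omega)
  have nm : Algebra.norm M (x : N) = Algebra.intNorm (𝓞 M) (𝓞 N) x :=
    (Algebra.algebraMap_intNorm (A := 𝓞 M) (K := M) (L := N) x).symm
  exact RingOfIntegers.ext ((congrArg (algebraMap M N) nm.symm).trans (nrm r h _))

theorem rn_map (r : finrank M N = 2) (h : τ ≠ 1) (I : Ideal (𝓞 N)) :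
    (relNorm (𝓞 M) I).map (algebraMap (𝓞 M) (𝓞 N)) = I * cj τ I := by
  by_cases I0 : I = ⊥
  · rw [I0, bot_mul, relNorm_eq_bot_iff.2 rfl, Ideal.map_bot]
  have k := pow_card_eq_one (x := ClassGroup.mk0 ⟨I, mem_nonZeroDivisors_of_ne_zero I0⟩)
  rw [← map_pow, ClassGroup.mk0_eq_one_iff] at k
  obtain ⟨π, e⟩ : ∃ π, I ^ Fintype.card (ClassGroup (𝓞 N)) = span {π} := ⟨_, k.1.choose_spec⟩
  refine pow_left_injective (Fintype.card_ne_zero (α := ClassGroup (𝓞 N))) ?_
  show _ ^ _ = _ ^ _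
  rw [← Ideal.map_pow, ← map_pow, mul_pow, ← cj_pow r h, e, relNorm_singleton, map_span,
    Set.image_singleton, cj_span r h, span_singleton_mul_span_singleton, int_nrm r h]

theorem rk (r : finrank M N = 2) : finrank (𝓞 M) (𝓞 N) = 2 := by
  rw [← r]
  exact (IsFractionRing.finrank_eq (𝓞 M) M (𝓞 N) N).symm

variable {w : Ideal (𝓞 N)}

theorem un_map (r : finrank M N = 2) (h : τ ≠ 1) (hw : w.IsMaximal) (n : cj τ w ≠ w) :
    (w.under (𝓞 M)).map (algebraMap (𝓞 M) (𝓞 N)) = w * cj τ w := by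
  refine le_antisymm ?_ ?_
  · rw [mul_eq_inf_of_coprime (cop_ne (cj_max hw) hw n.symm)]
    exact le_inf map_comap_le (by rw [← cj_under (τ := τ)]; exact map_comap_le)
  · rw [← rn_map r h]
    exact map_mono (relNorm_le_comap _ w)

theorem rn_eq (r : finrank M N = 2) (h : τ ≠ 1) (hw : w.IsMaximal) (n : cj τ w ≠ w) :
    relNorm (𝓞 M) w = w.under (𝓞 M) := by
  have e := congrArg (relNorm (𝓞 M)) ((rn_map r h w).trans (un_map r h hw n).symm)
  rw [relNorm_algebraMap, relNorm_algebraMap, rk r] at e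
  exact pow_left_injective two_ne_zero e

theorem oi_int (r : finrank M N = 2) (h : τ ≠ 1) (hw : w.IsMaximal) (n : cj τ w ≠ w) {a : 𝓞 M}
    (a0 : a ≠ 0) : oi w (algebraMap M N a) = oi (w.under (𝓞 M)) (a : M) := by
  haveI := hw
  haveI hP : (w.under (𝓞 M)).IsMaximal := inferInstance
  obtain ⟨Q, k, q, e⟩ : ∃ Q k, w.under (𝓞 M) ⊔ Q = ⊤ ∧ span {a} = w.under (𝓞 M) ^ k * Q := by
    obtain ⟨Q, q, e⟩ := eq_prime_pow_mul_coprime (span_singleton_eq_bot.not.2 a0) (w.under (𝓞 M))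
    exact ⟨Q, _, q, e⟩
  rw [sup_comm] at q
  rw [mul_comm] at e
  rw [oi_pw hP q e]
  refine oi_pw hw (x := algebraMap (𝓞 M) (𝓞 N) a)
    (I := Q.map (algebraMap (𝓞 M) (𝓞 N)) * cj τ w ^ k) (cop_mul hw ((cop_iff hw).2 fun m =>
      (cop_iff hP).1 q (map_le_iff_le_comap.1 m)) ((cop_iff hw).2 fun m =>
        (cop_iff hw).1 (cop_ne hw (cj_max hw) n) (IsPrime.le_of_pow_le m))) ?_
  rw [← Set.image_singleton, ← map_span, e, Ideal.map_mul, Ideal.map_pow, un_map r h hw n, mul_pow]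
  ring

theorem oi_alg (r : finrank M N = 2) (h : τ ≠ 1) (hw : w.IsMaximal) (n : cj τ w ≠ w) (x : M) :
    oi w (algebraMap M N x) = oi (w.under (𝓞 M)) x := by
  haveI := hw
  haveI hP : (w.under (𝓞 M)).IsMaximal := inferInstance
  by_cases x0 : x = 0
  · rw [x0, map_zero, oi_zero, oi_zero]
  obtain ⟨a, b, hb, rfl⟩ := IsFractionRing.div_surjective (A := 𝓞 M) x
  have b0 : b ≠ 0 := nonZeroDivisors.ne_zero hb
  have b1 : (b : M) ≠ 0 := RingOfIntegers.coe_ne_zero_iff.2 b0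
  have a0 : a ≠ 0 := fun e => x0 (by simp [e])
  have e1 := oi_mul hP x0 b1
  have e2 := oi_mul hw ((map_ne_zero (algebraMap M N)).2 x0) ((map_ne_zero (algebraMap M N)).2 b1)
  rw [← map_mul] at e2
  rw [div_mul_cancel₀ _ b1] at e1 e2
  have e3 := oi_int r h hw n a0
  have e4 := oi_int r h hw n b0
  change oi _ (a : M) = _ at e1
  change oi _ (algebraMap M N (a : M)) = _ at e2
  omega

end Spl

open Spl in
theorem spl : SPL := fun M N _ _ _ _ _ τ r h =>
  ⟨fun x => ⟨nrm r h x, inv r h x⟩,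
    fun I I' => ⟨cj_cj r h I, cj_mul r h I I', cj_under I, rn_map r h I⟩,
    fun w hw => ⟨cj_max hw, fun n => ⟨un_map r h hw n, rn_eq r h hw n,
      (rn_eq r h (cj_max hw) (by rw [cj_cj r h]; exact n.symm)).trans (cj_under w),
      oi_alg r h hw n⟩⟩⟩

end Vale.Agent.P014Y.C.Al
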