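import Vale.Agent.P014Y.C.Al.AxSt
import Vale.Agent.P027M.S.Cls

/-!
# P014 Y, block AL: systems from local characters, sums of systems
-/

set_option linter.all false

open NumberField Module IsDedekindDomain Ideal
open scoped Classical

noncomputable section

namespace Vale.Agent.P014Y.C.Al

open Vale.Agent.P022.C (ordv)
open Vale.Agent.P004C.Al.Rc (ct ct_ne ct_mul ct_self ct_of_ne ct_span)

namespace Sys

variable {M : Type} [Field M] [NumberField M] {P : Ideal (𝓞 M)}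

theorem ne0 (h : P.IsMaximal) : P ≠ ⊥ :=
  Ring.ne_bot_of_isMaximal_of_not_isField h (RingOfIntegers.not_isField M)

theorem oi_eq (h : P.IsMaximal) (x : M) : oi P x = ordv ⟨P, h.isPrime, ne0 h⟩ x :=
  dif_pos ⟨h.isPrime, ne0 h⟩

theorem oi_zero (P : Ideal (𝓞 M)) : oi P (0 : M) = 0 := by
  unfold oi
  split_ifs
  · simp [ordv]
  · rfl

theorem oi_mul (h : P.IsMaximal) {x y : M} (a : x ≠ 0) (b : y ≠ 0) :
    oi P (x * y) = oi P x + oi P y := by
  simp only [oi_eq h]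
  exact P027M.S.Cls.ordv_mul _ a b

theorem cop_iff (h : P.IsMaximal) {I : Ideal (𝓞 M)} : I ⊔ P = ⊤ ↔ ¬ I ≤ P :=
  ⟨fun e m => h.ne_top (top_unique (e ▸ sup_le m le_rfl)), fun m => by
    by_contra c
    exact m (le_sup_left.trans (h.eq_of_le c le_sup_right).ge)⟩

theorem cop_ne (h : P.IsMaximal) {Q : Ideal (𝓞 M)} (h' : Q.IsMaximal) (n : Q ≠ P) : Q ⊔ P = ⊤ :=
  (cop_iff h).2 fun m => n (h'.eq_of_le h.ne_top m)

theorem cop_mul (h : P.IsMaximal) {I I' : Ideal (𝓞 M)} (a : I ⊔ P = ⊤) (b : I' ⊔ P = ⊤) :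
    I * I' ⊔ P = ⊤ :=
  (cop_iff h).2 fun m => (h.isPrime.mul_le.1 m).elim ((cop_iff h).1 a) ((cop_iff h).1 b)

theorem cop_prod (h : P.IsMaximal) {κ : Type} (s : Finset κ) {W : κ → Ideal (𝓞 M)} (e : κ → ℕ)
    (a : ∀ i ∈ s, W i ⊔ P = ⊤) : (∏ i ∈ s, W i ^ e i) ⊔ P = ⊤ :=
  (cop_iff h).2 fun m => by
    obtain ⟨i, hi, k⟩ := h.isPrime.prod_le.1 m
    haveI := h.isPrime
    exact (cop_iff h).1 (a i hi) (IsPrime.le_of_pow_le k)

theorem oi_pw (h : P.IsMaximal) {x : 𝓞 M} {e : ℕ} {I : Ideal (𝓞 M)} (a : I ⊔ P = ⊤)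
    (b : span {x} = I * P ^ e) : oi P (x : M) = e := by
  have I0 : I ≠ ⊥ := fun k => (cop_iff h).1 a (k ▸ bot_le)
  have x0 : x ≠ 0 := fun k => mul_ne_zero I0 (pow_ne_zero e (ne0 h))
    (b.symm.trans (span_singleton_eq_bot.2 k))
  rw [oi_eq h, ct_span x0, b, Nat.cast_inj]
  clear b
  induction e with
  | zero => simpa using (ct_ne (v := ⟨P, h.isPrime, ne0 h⟩) I0).not.2 ((cop_iff h).1 a)
  | succ e ih =>
    rw [pow_succ, ← mul_assoc, ct_mul (mul_ne_zero I0 (pow_ne_zero e (ne0 h))) (ne0 h), ih]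
    exact congrArg _ (ct_self (v := ⟨P, h.isPrime, ne0 h⟩))

theorem oi_out (h : P.IsMaximal) {x : 𝓞 M} (a : x ∉ P) : oi P (x : M) = 0 :=
  oi_pw h (e := 0) (I := span {x}) ((cop_iff h).2 fun m => a (m (mem_span_singleton_self x)))
    (by simp)

theorem oi_tam (h : P.IsMaximal) {x : 𝓞 M} (a : x - 1 ∈ P) : oi P (x : M) = 0 :=
  oi_out h fun m => h.isPrime.one_notMem (by simpa using P.sub_mem m a)

theorem oi_prod {κ : Type} [Fintype κ] {W : κ → Ideal (𝓞 M)} (mx : ∀ i, (W i).IsMaximal)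
    (inj : Function.Injective W) {x : 𝓞 M} {I : Ideal (𝓞 M)} {e : κ → ℕ} (i : κ)
    (a : I ⊔ W i = ⊤) (b : span {x} = I * ∏ i, W i ^ e i) : oi (W i) (x : M) = e i := by
  refine oi_pw (mx i) (I := I * ∏ k ∈ Finset.univ.erase i, W k ^ e k) (cop_mul (mx i) a
    (cop_prod (mx i) _ e fun k hk => cop_ne (mx i) (mx k) fun c => Finset.ne_of_mem_erase hk
      (inj c))) ?_
  rw [b, mul_assoc, Finset.prod_erase_mul _ _ (Finset.mem_univ i)]

theorem add_prod {R A κ : Type} [CommMonoid R] [AddCommMonoid A] {Q : R → Prop} {Φ : R → A}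
    (hq : ∀ a b, Q a → Q b → Q (a * b)) (ad : ∀ a b, Q a → Q b → Φ (a * b) = Φ a + Φ b)
    {W : κ → R} (hW : ∀ i, Q (W i)) (e : κ → ℕ) {I : R} (hI : Q I) (s : Finset κ) :
    Q (I * ∏ i ∈ s, W i ^ e i) ∧ Φ (I * ∏ i ∈ s, W i ^ e i) = Φ I + ∑ i ∈ s, e i • Φ (W i) := by
  have pw : ∀ a b, Q a → Q b → ∀ k : ℕ, Q (a * b ^ k) ∧ Φ (a * b ^ k) = Φ a + k • Φ b :=
    fun a b ha hb k => by
      induction k with
      | zero => simpa using ha
      | succ k ih =>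
        rw [pow_succ, ← mul_assoc, ad _ _ ih.1 hb, ih.2, succ_nsmul, add_assoc]
        exact ⟨hq _ _ ih.1 hb, rfl⟩
  induction s using Finset.induction_on with
  | empty => simpa using hI
  | insert a s ha ih =>
    rw [Finset.prod_insert ha, Finset.sum_insert ha, mul_comm (W a ^ _), ← mul_assoc,
      (pw _ _ ih.1 (hW a) _).2, ih.2]
    exact ⟨(pw _ _ ih.1 (hW a) _).1, by abel⟩

variable {B : ℕ} {t : 𝓞 M} {κ κ' : Type} [Fintype κ] [Fintype κ'] {W : κ → Ideal (𝓞 M)}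
  {W' : κ' → Ideal (𝓞 M)}

theorem sy_of {h : ℕ} (δ : κ → Mˣ →* Multiplicative (ZMod (3 ^ B))) (mx : ∀ i, (W i).IsMaximal)
    (inj : Function.Injective W) (cop : ∀ i, t ∉ W i)
    (hh : ∀ I : Ideal (𝓞 M), I ≠ ⊥ → ∃ π, I ^ h = span {π}) (tam : ∀ i, Tm (W i) (δ i))
    (un : ∀ u : (𝓞 M)ˣ, ∏ i, δ i (Units.map (algebraMap (𝓞 M) M : 𝓞 M →* M) u) = 1) :
    ∃ Φ φ, Sy t B W Φ φ ∧ (∀ I I', I ≠ ⊥ → I' ≠ ⊥ → Φ (I * I') = Φ I + Φ I') ∧
      ∀ i (b : Mˣ), φ i b = h • (δ i b).toAdd + oi (W i) (b : M) • Φ (W i) := by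
  let d : κ → M → ZMod (3 ^ B) := fun i x =>
    if k : x = 0 then 0 else (δ i (Units.mk0 x k)).toAdd
  have d1 : ∀ i (b : Mˣ), d i b = (δ i b).toAdd := fun i b => by
    simp only [d, dif_neg b.ne_zero, Units.mk0_val]
  have d2 : ∀ i x y, x ≠ 0 → y ≠ 0 → d i (x * y) = d i x + d i y := fun i x y a b => by
    simp only [d, dif_neg a, dif_neg b, dif_neg (mul_ne_zero a b), Units.mk0_mul, map_mul,
      toAdd_mul]
  let D : 𝓞 M → ZMod (3 ^ B) := fun x => ∑ i, d i x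
  have D2 : ∀ x y : 𝓞 M, x ≠ 0 → y ≠ 0 → D (x * y) = D x + D y := fun x y a b => by
    rw [← Finset.sum_add_distrib]
    exact Finset.sum_congr rfl fun i _ => (congrArg (d i) (map_mul (algebraMap (𝓞 M) M) x y)).trans
      (d2 i _ _ (RingOfIntegers.coe_ne_zero_iff.2 a) (RingOfIntegers.coe_ne_zero_iff.2 b))
  have D1 : ∀ u : (𝓞 M)ˣ, D u = 0 := fun u => by
    rw [← toAdd_one, ← un u, toAdd_prod]
    exact Finset.sum_congr rfl fun i _ => d1 i (Units.map (algebraMap (𝓞 M) M : 𝓞 M →* M) u)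
  have D3 : ∀ x y : 𝓞 M, x ≠ 0 → span {x} = span {y} → D y = D x := fun x y a e => by
    obtain ⟨u, rfl⟩ := span_singleton_eq_span_singleton.1 e
    rw [D2 x u a u.ne_zero, D1, add_zero]
  have D4 : ∀ x : 𝓞 M, x ≠ 0 → ∀ n : ℕ, D (x ^ n) = n • D x := fun x a n => by
    induction n with
    | zero => simpa using D1 1
    | succ n k => rw [pow_succ, D2 _ _ (pow_ne_zero n a) a, k, succ_nsmul]
  choose! π hπ using hh
  have π0 : ∀ I, I ≠ ⊥ → π I ≠ 0 := fun I a e =>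
    pow_ne_zero h a ((hπ I a).trans (span_singleton_eq_bot.2 e))
  have ad : ∀ I I', I ≠ ⊥ → I' ≠ ⊥ → -D (π (I * I')) = -D (π I) + -D (π I') := fun I I' a b => by
    rw [← neg_add, ← D2 _ _ (π0 I a) (π0 I' b)]
    refine congrArg _ (D3 _ _ (mul_ne_zero (π0 I a) (π0 I' b)) ?_)
    rw [← hπ _ (mul_ne_zero a b), mul_pow, hπ I a, hπ I' b, span_singleton_mul_span_singleton]
  have pr : ∀ x : 𝓞 M, x ≠ 0 → D (π (span {x})) = h • D x := fun x a => by
    rw [← D4 x a]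
    exact D3 _ _ (pow_ne_zero h a) (by
      rw [← hπ _ (span_singleton_eq_bot.not.2 a), span_singleton_pow])
  refine ⟨fun I => -D (π I), fun i x => h • d i x + oi (W i) x • -D (π (W i)),
    ⟨mx, inj, cop, fun I I' a b _ _ => ad I I' a b, fun i x y a b => ?_, fun i x k => ?_,
      fun x I e a b c => ?_⟩, ad, fun i b => by rw [← d1]⟩
  · rw [d2 i x y a b, oi_mul (mx i) a b, smul_add, add_smul]
    abel
  · have x0 : x ≠ 0 := fun e => (mx i).isPrime.one_notMem (by simpa [e] using k)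
    have := d1 i (Units.mk0 (x : M) (RingOfIntegers.coe_ne_zero_iff.2 x0))
    rw [tam i _ x rfl k, Units.val_mk0] at this
    rw [this, oi_tam (mx i) k]
    simp
  · have I0 : I ≠ ⊥ := fun k => a (span_singleton_eq_bot.1 (by rw [c, k, bot_mul]))
    have k2 := (add_prod (Q := fun I : Ideal (𝓞 M) => I ≠ ⊥) (Φ := fun I => -D (π I))
      (fun _ _ => mul_ne_zero) ad (fun i => ne0 (mx i)) e I0 Finset.univ).2
    rw [← c] at k2
    simp only [fun i => oi_prod mx inj i (b i) c, natCast_zsmul, Finset.sum_add_distrib,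
      ← Finset.smul_sum]
    rw [add_left_comm, ← k2, pr x a, add_neg_cancel]

variable {Φ Φ' : Ideal (𝓞 M) → ZMod (3 ^ B)} {φ : κ → M → ZMod (3 ^ B)}
  {φ' : κ' → M → ZMod (3 ^ B)}

/-- the product formula with foreign primes -/
theorem prd2 (X : Sy t B W Φ φ) (mx : ∀ i, (W' i).IsMaximal) (inj : Function.Injective W')
    (n : ∀ i i', W i ≠ W' i') {x : 𝓞 M} {I : Ideal (𝓞 M)} {e : κ → ℕ} {e' : κ' → ℕ} (x0 : x ≠ 0)
    (a : ∀ i, I ⊔ W i = ⊤) (a' : ∀ i, I ⊔ W' i = ⊤)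
    (c : span {x} = I * (∏ i, W' i ^ e' i) * ∏ i, W i ^ e i) :
    Φ I + ∑ i, oi (W' i) (x : M) • Φ (W' i) + ∑ i, φ i x = 0 := by
  have I0 : I ≠ ⊥ := fun k => x0 (span_singleton_eq_bot.1 (by rw [c, k, bot_mul, bot_mul]))
  obtain ⟨k1, k2⟩ := add_prod (Q := fun I : Ideal (𝓞 M) => I ≠ ⊥ ∧ ∀ i, I ⊔ W i = ⊤) (Φ := Φ)
    (fun _ _ p q => ⟨mul_ne_zero p.1 q.1, fun i => cop_mul (X.max i) (p.2 i) (q.2 i)⟩)
    (fun _ _ p q => X.add _ _ p.1 q.1 p.2 q.2)
    (fun k => ⟨ne0 (mx k), fun i => cop_ne (X.max i) (mx k) (n i k).symm⟩) e' ⟨I0, a⟩ Finset.univ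
  have o : ∀ i, oi (W' i) (x : M) = e' i := fun i => oi_prod mx inj i (I := I * ∏ i, W i ^ e i)
    (cop_mul (mx i) (a' i) (cop_prod (mx i) _ e fun k _ => cop_ne (mx i) (X.max k) (n k i)))
    (by rw [c, mul_right_comm])
  simp only [o, natCast_zsmul]
  rw [← k2]
  exact X.prd x _ e x0 k1.2 c

theorem sy_add (q : ZMod (3 ^ B)) (X : Sy t B W Φ φ) (X' : Sy t B W' Φ' φ')
    (n : ∀ i i', W i ≠ W' i') :
    Sy t B (Sum.elim W' W) (fun I => Φ I + q * Φ' I) (Sum.elim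
      (fun i x => q * φ' i x + oi (W' i) x • Φ (W' i))
      fun i x => φ i x + q * (oi (W i) x • Φ' (W i))) := by
  refine ⟨?_, X'.inj.sumElim X.inj fun a b => (n b a).symm, ?_, fun I I' a b c d => ?_, ?_, ?_,
    fun x I e a b c => ?_⟩
  · rintro (i | i)
    exacts [X'.max i, X.max i]
  · rintro (i | i)
    exacts [X'.cop i, X.cop i]
  · rw [X.add I I' a b (fun i => c (.inr i)) fun i => d (.inr i),
      X'.add I I' a b (fun i => c (.inl i)) fun i => d (.inl i)]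
    ring
  · rintro (i | i) x y a b
    · simp only [Sum.elim_inl]
      rw [X'.loc i x y a b, oi_mul (X'.max i) a b, add_smul]
      ring
    · simp only [Sum.elim_inr]
      rw [X.loc i x y a b, oi_mul (X.max i) a b, add_smul]
      ring
  · rintro (i | i) x k
    · simp only [Sum.elim_inl]
      rw [X'.tam i x k, oi_tam (X'.max i) k]
      simp
    · simp only [Sum.elim_inr]
      rw [X.tam i x k, oi_tam (X.max i) k]
      simp
  · rw [Fintype.prod_sum_type, ← mul_assoc] at c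
    have p := prd2 X X'.max X'.inj n a (fun i => b (.inr i)) (fun i => b (.inl i)) c
    have p' := prd2 X' X.max X.inj (fun i k => (n k i).symm) a (fun i => b (.inl i))
      (fun i => b (.inr i)) (c.trans (mul_right_comm _ _ _))
    rw [Fintype.sum_sum_type]
    simp only [Sum.elim_inl, Sum.elim_inr, Finset.sum_add_distrib, ← Finset.mul_sum]
    linear_combination p + q * p'

theorem sy_cmp (e : κ' ≃ κ) (X : Sy t B W Φ φ) : Sy t B (W ∘ e) Φ (φ ∘ e) := by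
  refine ⟨fun i => X.max _, X.inj.comp e.injective, fun i => X.cop _, fun I I' a b c d =>
    X.add I I' a b (fun i => by simpa using c (e.symm i)) fun i => by simpa using d (e.symm i),
    fun i => X.loc _, fun i => X.tam _, fun x I n a b c => ?_⟩
  have := X.prd x I (n ∘ e.symm) a (fun i => by simpa using b (e.symm i))
    (by rw [c, ← e.prod_comp]; simp)
  rwa [← e.sum_comp] at this

end Sys

open Sys in
theorem sys : SYS := fun M _ _ B t =>
  ⟨fun _ _ _ _ δ mx inj cop hh tam un => by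
      obtain ⟨Φ, φ, a, -, b⟩ := sy_of δ mx inj cop hh tam un
      exact ⟨Φ, φ, a, b⟩,
    fun _ _ _ _ _ _ _ _ _ _ q X X' n => sy_add q X X' n, fun _ _ _ _ e _ _ _ X => sy_cmp e X,
    fun P h => ⟨fun _ _ => oi_mul h, fun _ => oi_out h, fun _ _ _ => oi_pw h⟩⟩

end Vale.Agent.P014Y.C.Al
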