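import Vale.Agent.P014Y.C.Al.AxSt
import Vale.Agent.P014Y.C.Al.Gbx

/-!
# P014 Y, block AL: coordinates on the minus units (row UNM)
-/

open NumberField Module

noncomputable section

namespace Vale.Agent.P014Y.C.Al

open Gx

namespace Un

theorem fr_eq {G : Type} [AddCommGroup G] [Module.Finite ℤ G] {S T : Submodule ℤ G} (le : S ≤ T)
    (h : ∀ x ∈ T, ∃ a : ℤ, a ≠ 0 ∧ a • x ∈ S) : finrank ℤ S = finrank ℤ T := by
  rw [← (S.comap T.subtype).finrank_quotient_add_finrank,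
    (Submodule.comapSubtypeEquivOfLe le).finrank_eq, (finrank_eq_zero_iff (M := T ⧸ _)).2, zero_add]
  intro x
  obtain ⟨x, rfl⟩ := Submodule.Quotient.mk_surjective _ x
  exact (h x x.2).imp fun a k => ⟨k.1, (Submodule.Quotient.mk_eq_zero _).2 k.2⟩

theorem nm_eq {M N : Type} [Field M] [NumberField M] [Field N] [NumberField N] [Algebra M N]
    {τ : N ≃ₐ[M] N} (h2 : finrank M N = 2) (hτ : τ ≠ 1) (x : N) :
    algebraMap M N (Algebra.norm M x) = x * τ x := by
  classical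
  have : Algebra.IsQuadraticExtension M N := { finrank_eq_two' := h2 }
  rw [Algebra.norm_eq_prod_automorphisms, ← Finset.eq_univ_of_card {1, τ} (by
    rw [Finset.card_pair hτ.symm, ← Nat.card_eq_fintype_card, IsGalois.card_aut_eq_finrank, h2]),
    Finset.prod_pair hτ.symm]
  rfl

end Un

open Un

/-- **row UNM** -/
theorem unm : UNM := fun K _ _ ι J Ω B M N _ _ _ _ _ _ _ _ τ h2 hτ => by
  let ν : Additive (𝓞 N)ˣ →ₗ[ℤ] Additive (𝓞 M)ˣ :=
    (Units.map (RingOfIntegers.norm M : 𝓞 N →* 𝓞 M)).toAdditive.toIntLinearMap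
  have kν : ∀ u : (𝓞 N)ˣ, Additive.ofMul u ∈ LinearMap.ker ν ↔
      ((u : 𝓞 N) : N) * τ (u : 𝓞 N) = 1 := fun u => by
    rw [← nm_eq h2 hτ, map_eq_one_iff _ (algebraMap M N).injective, LinearMap.mem_ker]
    exact ⟨fun e => congrArg (fun z : Additive (𝓞 M)ˣ => ((z.toMul : 𝓞 M) : M)) e,
      fun e => Units.ext (RingOfIntegers.ext e)⟩
  let E : Subgroup (𝓞 N)ˣ :=
    { carrier := {u | V1 ι J 2 ((u : 𝓞 N) : N)}
      mul_mem' := fun a b => by simpa using v1_mul a b
      one_mem' := by simpa using v1_one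
      inv_mem' := fun a => by simpa using v1_inv one_le_two a }
  let S := E.toAddSubgroup.toIntSubmodule ⊓ LinearMap.ker ν
  obtain ⟨n, n0, hn⟩ := pow_v1 (ι := ι) (J := J) (M := N) 2
  have r1 : finrank ℤ S = finrank ℤ (LinearMap.ker ν) := fr_eq inf_le_right fun x k =>
    ⟨n, by simpa using n0, by
      have := hn (x.toMul : (𝓞 N)ˣ)
        (by rw [Ideal.span_singleton_eq_top.2 (Units.isUnit _), top_sup_eq])
      show V1 ι J 2 (((((n : ℤ) • x).toMul : (𝓞 N)ˣ) : 𝓞 N) : N)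
      simpa using this, Submodule.smul_mem _ _ k⟩
  have r2 : finrank ℤ (LinearMap.range ν) = finrank ℤ (⊤ : Submodule ℤ (Additive (𝓞 M)ˣ)) :=
    fr_eq le_top fun x _ => ⟨2, two_ne_zero, Additive.ofMul (Units.map
      (algebraMap (𝓞 M) (𝓞 N) : 𝓞 M →* 𝓞 N) x.toMul), Additive.toMul.injective (Units.ext (by
        show RingOfIntegers.norm M (algebraMap (𝓞 M) (𝓞 N) x.toMul) = _
        rw [RingOfIntegers.norm_algebraMap, h2, toMul_zsmul, zpow_ofNat,
          Units.val_pow_eq_pow_val]))⟩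
  have r3 := (LinearMap.ker ν).finrank_quotient_add_finrank
  have r4 := rank_eq (M := M) B rfl
  have r5 := rank_eq (M := N) B (finrank_mul_finrank K M N).symm
  rw [ν.quotKerEquivRange.finrank_eq, r2, finrank_top, Units.finrank_eq, Units.finrank_eq, ← r1] at r3
  rw [h2] at r5
  have : IsAddTorsionFree S := ⟨fun k k0 x y e => by
    have t := v1_tf le_rfl k0 (x - y).2.1 (show ((((x - y).1.toMul : (𝓞 N)ˣ) : 𝓞 N) : N) ^ k = 1 by
      have : k • (x - y) = 0 := by rw [nsmul_sub, sub_eq_zero]; exact e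
      simpa using congrArg (fun z : S => ((z.1.toMul : 𝓞 N) : N)) this)
    exact sub_eq_zero.1 (Subtype.ext (Units.ext (RingOfIntegers.ext t)))⟩
  let c := finBasisOfFinrankEq ℤ S (n := finrank K M) (by omega)
  have e : ∀ d : Fin (finrank K M) → ℤ,
      ∏ i, (c i).1.toMul ^ d i = (∑ i, d i • c i : S).1.toMul := fun d => by
    simp [toMul_sum]
  refine ⟨fun i => (c i).1.toMul, fun u => ⟨fun k => ?_, ?_⟩, fun d k => funext
    (Fintype.linearIndependent_iff.1 c.linearIndependent d (Subtype.ext ((e d).symm.trans k)))⟩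
  · exact ⟨c.repr ⟨Additive.ofMul u, k.1, (kν u).2 k.2⟩, by rw [e, c.sum_repr]; rfl⟩
  · rintro ⟨d, rfl⟩
    rw [e]
    exact ⟨(∑ i, d i • c i : S).2.1, (kν _).1 (∑ i, d i • c i : S).2.2⟩

end Vale.Agent.P014Y.C.Al
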