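import Vale.Agent.P014Y.C.Al.AxSt
import Vale.Agent.P004C.Al.Cmb3

/-!
# P014 Y, block AL: systems go up a quadratic step (row UPS)
-/

set_option linter.all false

open NumberField Module Ideal Matrix
open scoped Classical

noncomputable section

namespace Vale.Agent.P014Y.C.Al

namespace Up

section

variable {α β : Type*} {d s : ℕ}

/-- two families in one -/
def V2 (A : Fin (d + 1) → α) (B : Fin s → α) : Fin (d + s + 1) → α :=
  vecCons (A 0) (Fin.append (fun i => A i.succ) B)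

theorem all2 (P : α → β → Prop) {A : Fin (d + 1) → α} {B : Fin s → α} {A' : Fin (d + 1) → β}
    {B' : Fin s → β} : (∀ i, P (V2 A B i) (V2 A' B' i)) ↔
      (∀ i, P (A i) (A' i)) ∧ ∀ i, P (B i) (B' i) :=
  ⟨fun h => ⟨Fin.cases (h 0) fun i => by simpa [V2] using h (Fin.castAdd s i).succ,
    fun i => by simpa [V2] using h (Fin.natAdd d i).succ⟩,
  fun h => Fin.cases (h.1 0) (Fin.addCases (fun i => by simpa [V2] using h.1 i.succ)
    fun i => by simpa [V2] using h.2 i)⟩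

theorem all1 (P : α → Prop) {A : Fin (d + 1) → α} {B : Fin s → α} :
    (∀ i, P (V2 A B i)) ↔ (∀ i, P (A i)) ∧ ∀ i, P (B i) :=
  all2 (fun x (_ : α) => P x) (A' := A) (B' := B)

theorem prod2 {γ : Type*} [CommMonoid γ] (F : α → β → γ) (A : Fin (d + 1) → α) (B : Fin s → α)
    (A' : Fin (d + 1) → β) (B' : Fin s → β) :
    ∏ i, F (V2 A B i) (V2 A' B' i) = (∏ i, F (A i) (A' i)) * ∏ i, F (B i) (B' i) := by
  simp [V2, Fin.prod_univ_succ, Fin.prod_univ_add, mul_assoc]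

theorem sum2 {γ : Type*} [AddCommMonoid γ] (F : α → γ) (A : Fin (d + 1) → α) (B : Fin s → α) :
    ∑ i, F (V2 A B i) = (∑ i, F (A i)) + ∑ i, F (B i) := by
  simp [V2, Fin.sum_univ_succ, Fin.sum_univ_add, add_assoc]

theorem ex2 (e : Fin (d + s + 1) → α) : ∃ A B, e = V2 A B :=
  ⟨vecCons (e 0) fun i => e (Fin.castAdd s i).succ, fun i => e (Fin.natAdd d i).succ,
    funext (Fin.cases rfl (Fin.addCases (fun i => by simp [V2]) fun i => by simp [V2]))⟩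

theorem inj2 {A : Fin (d + 1) → α} {B : Fin s → α} : Function.Injective (V2 A B) ↔
    Function.Injective A ∧ Function.Injective B ∧ ∀ i j, A i ≠ B j := by
  have e : Function.Injective A ↔ (∀ i : Fin d, A i.succ ≠ A 0) ∧
      Function.Injective fun i : Fin d => A i.succ := by
    conv_lhs => rw [← Fin.cons_self_tail A]
    rw [Fin.cons_injective_iff]
    simp [Fin.tail_def]
  have e' : A 0 ∉ Set.range (Fin.append (fun i : Fin d => A i.succ) B) ↔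
      (∀ i : Fin d, A i.succ ≠ A 0) ∧ ∀ j, A 0 ≠ B j :=
    ⟨fun h => ⟨fun i k => h ⟨Fin.castAdd s i, by simpa using k⟩,
      fun j k => h ⟨Fin.natAdd d j, by simpa using k.symm⟩⟩, fun h ⟨i, k⟩ => by
        revert k
        exact Fin.addCases (fun i => by simpa using h.1 i) (fun j => by simpa using (h.2 j).symm) i⟩
  rw [V2, vecCons, Fin.cons_injective_iff, Fin.append_injective_iff, e, e', Fin.forall_fin_succ]
  tauto

end

variable {M : Type} [Field M] [NumberField M] {N : Type} [Field N] [NumberField N] [Algebra M N]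

theorem nmi (x : 𝓞 N) : Algebra.norm M (x : N) = Algebra.intNorm (𝓞 M) (𝓞 N) x :=
  haveI : Module.Finite M N := Module.Finite.of_restrictScalars_finite ℚ M N
  (Algebra.algebraMap_intNorm (A := 𝓞 M) (K := M) (L := N) x).symm

theorem cm {P : Ideal (𝓞 M)} (h : P.IsMaximal) (k : Ine N P) :
    (P.map (algebraMap (𝓞 M) (𝓞 N))).under (𝓞 M) = P :=
  (h.eq_of_le (comap_ne_top _ k.ne_top) le_comap_map).symm

theorem mp (σ : N ≃ₐ[M] N) (P : Ideal (𝓞 M)) {x : 𝓞 N} (k : x ∈ P.map (algebraMap (𝓞 M) (𝓞 N))) :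
    RingOfIntegers.mapAlgEquiv σ x ∈ P.map (algebraMap (𝓞 M) (𝓞 N)) :=
  mem_comap.1 ((map_le_iff_le_comap.2 fun y hy => by
    rw [mem_comap, mem_comap, AlgEquiv.commutes]
    exact mem_map_of_mem _ hy : _ ≤ comap (RingOfIntegers.mapAlgEquiv σ) _) k)

theorem n1 [IsGalois M N] {P : Ideal (𝓞 M)} (h : P.IsMaximal) (h' : Ine N P) {x : 𝓞 N}
    (k : x - 1 ∈ P.map (algebraMap (𝓞 M) (𝓞 N))) : Algebra.intNorm (𝓞 M) (𝓞 N) x - 1 ∈ P := by
  haveI : Module.Finite M N := Module.Finite.of_restrictScalars_finite ℚ M N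
  refine (cm h h').le ?_
  have e : algebraMap (𝓞 M) (𝓞 N) (Algebra.intNorm (𝓞 M) (𝓞 N) x) =
      ∏ σ : N ≃ₐ[M] N, RingOfIntegers.mapAlgEquiv σ x := RingOfIntegers.ext (by
    rw [RingOfIntegers.coe_eq_algebraMap (∏ σ : N ≃ₐ[M] N, _), map_prod]
    exact (congrArg (algebraMap M N) (nmi x).symm).trans (Algebra.norm_eq_prod_automorphisms M _))
  rw [mem_comap, map_sub, map_one, e, ← Ideal.Quotient.eq, map_prod, map_one]
  refine Finset.prod_eq_one fun σ _ => ?_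
  rw [← map_one (Ideal.Quotient.mk _), Ideal.Quotient.eq,
    ← map_one (RingOfIntegers.mapAlgEquiv σ), ← map_sub]
  exact mp σ P k

theorem n0 {x : 𝓞 N} (a : x ≠ 0) : Algebra.intNorm (𝓞 M) (𝓞 N) x ≠ 0 := fun k => by
  rw [← span_singleton_eq_bot, ← relNorm_singleton, relNorm_eq_bot_iff] at k
  exact a (span_singleton_eq_bot.1 k)

theorem gal2 (h : finrank M N = 2) : IsGalois M N :=
  haveI : Algebra.IsQuadraticExtension M N := ⟨h⟩
  inferInstance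

theorem wd {d s : ℕ} (a : Fin (d + 1) → Ideal (𝓞 M)) (w : Fin s → Ideal (𝓞 N)) :
    Wd a w = V2 a fun i => (w i).under (𝓞 M) := rfl

theorem wu (τ : N ≃ₐ[M] N) {d s : ℕ} (a : Fin (d + 1) → Ideal (𝓞 M)) (w : Fin s → Ideal (𝓞 N)) :
    Wu τ a w = V2 (V2 (fun i => (a i).map (algebraMap (𝓞 M) (𝓞 N))) w) fun i => cj τ (w i) := rfl

theorem fd' {d s B : ℕ} (g : Fin (d + 1) → M → ZMod (3 ^ B)) (f : Fin s → N → ZMod (3 ^ B)) :
    fd g f = V2 g fun i x => f i (algebraMap M N x) := rfl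

theorem fu' (τ : N ≃ₐ[M] N) {d s B : ℕ} (g : Fin (d + 1) → M → ZMod (3 ^ B))
    (f : Fin s → N → ZMod (3 ^ B)) :
    fu τ g f = V2 (V2 (fun i x => g i (Algebra.norm M x)) f) fun i x => f i (τ x) := rfl

end Up

open Up P004C.Cm in
theorem ups (spl : SPL) : UPS := by
  intro M N _ _ _ _ _ τ h2 τ1 d s B t a w Φ g f X ine hw loc tam
  haveI : Module.Finite M N := Module.Finite.of_restrictScalars_finite ℚ M N
  haveI := gal2 h2
  obtain ⟨s1, s2, s3⟩ := spl M N τ h2 τ1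
  rw [wd, fd'] at X
  rw [wu, fu']
  obtain ⟨x1, x2, x3, x4, x5, x6, x7⟩ := X
  obtain ⟨m1, m2⟩ := (all1 IsMaximal).1 x1
  obtain ⟨i1, i2, i3⟩ := inj2.1 x2
  obtain ⟨c1, c2⟩ := (all1 (t ∉ ·)).1 x3
  obtain ⟨l1, -⟩ := (all1 fun φ : M → ZMod (3 ^ B) =>
    ∀ x y, x ≠ 0 → y ≠ 0 → φ (x * y) = φ x + φ y).1 x5
  obtain ⟨t1, -⟩ := (all2 fun (W : Ideal (𝓞 M)) (φ : M → ZMod (3 ^ B)) =>
    ∀ x : 𝓞 M, x - 1 ∈ W → φ x = 0).1 x6
  have u := fun i => cm (m1 i) (ine i)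
  have u' := fun i => (s2 (w i) ⊤).2.2.1
  have v := fun i => (s3 _ (hw i).1).2 (hw i).2
  have cp : ∀ I : Ideal (𝓞 N), (∀ i, I ⊔ V2 (V2 (fun i => (a i).map (algebraMap (𝓞 M) (𝓞 N))) w)
      (fun i => cj τ (w i)) i = ⊤) → ∀ i, relNorm (𝓞 M) I ⊔ V2 a (fun i => (w i).under (𝓞 M)) i = ⊤ :=
    fun I k => by
      obtain ⟨k1, k3⟩ := (all1 (I ⊔ · = ⊤)).1 k
      obtain ⟨k1, k2⟩ := (all1 (I ⊔ · = ⊤)).1 k1
      exact (all1 (relNorm (𝓞 M) I ⊔ · = ⊤)).2 ⟨fun i => (cop_rn (m1 i) I).2 (k1 i),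
        fun i => (cop_rn (m2 i) I).2 ((v i).1 ▸ cop_mul.2 ⟨k2 i, k3 i⟩)⟩
  refine ⟨(all1 IsMaximal).2 ⟨(all1 IsMaximal).2 ⟨ine, fun i => (hw i).1⟩,
      fun i => (s3 _ (hw i).1).1⟩,
    inj2.2 ⟨inj2.2 ⟨fun i j e => i1 (by rw [← u, ← u j]; exact congrArg _ e),
      fun i j e => i2 (congrArg _ e), fun i j e => i3 i j (by rw [← u]; exact congrArg _ e)⟩,
      fun i j e => i2 (by
        show (w i).under _ = (w j).under _
        rw [← u', ← u' j]
        exact congrArg _ e),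
      fun i j => (all1 (· ≠ cj τ (w j))).2 ⟨fun i e => i3 i j (by
        rw [← u, ← u']
        exact congrArg _ e), fun i e => (hw j).2 (by
        obtain rfl : i = j := i2 (by
          show (w i).under _ = (w j).under _
          rw [← u' j]
          exact congrArg _ e)
        exact e.symm)⟩ i⟩,
    (all1 (algebraMap (𝓞 M) (𝓞 N) t ∉ ·)).2 ⟨(all1 (algebraMap (𝓞 M) (𝓞 N) t ∉ ·)).2
      ⟨fun i k => c1 i ((u i).le k), c2⟩, fun i k => c2 i ((u' i).le k)⟩,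
    fun I I' a b c d => ?_,
    (all1 fun φ : N → ZMod (3 ^ B) => ∀ x y, x ≠ 0 → y ≠ 0 → φ (x * y) = φ x + φ y).2
      ⟨(all1 fun φ : N → ZMod (3 ^ B) => ∀ x y, x ≠ 0 → y ≠ 0 → φ (x * y) = φ x + φ y).2
        ⟨fun i x y a b => ?_, loc⟩, fun i x y a b => ?_⟩,
    (all2 fun (W : Ideal (𝓞 N)) (φ : N → ZMod (3 ^ B)) => ∀ x : 𝓞 N, x - 1 ∈ W → φ x = 0).2
      ⟨(all2 fun (W : Ideal (𝓞 N)) (φ : N → ZMod (3 ^ B)) => ∀ x : 𝓞 N, x - 1 ∈ W → φ x = 0).2
        ⟨fun i x k => ?_, tam⟩, fun i x k => ?_⟩, fun x I e x0 b c => ?_⟩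
  · rw [map_mul]
    exact x4 _ _ (relNorm_eq_bot_iff.not.2 a) (relNorm_eq_bot_iff.not.2 b) (cp I c) (cp I' d)
  · rw [map_mul]
    exact l1 i _ _ (Algebra.norm_ne_zero_iff.2 a) (Algebra.norm_ne_zero_iff.2 b)
  · rw [map_mul]
    exact loc i _ _ ((map_ne_zero τ).2 a) ((map_ne_zero τ).2 b)
  · rw [nmi]
    exact t1 i _ (n1 (m1 i) (ine i) k)
  · exact tam i (RingOfIntegers.mapAlgEquiv τ x) (by simpa [cj] using k)
  · obtain ⟨e, e3, rfl⟩ := ex2 e
    obtain ⟨e1, e2, rfl⟩ := ex2 e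
    rw [prod2 (· ^ ·), prod2 (· ^ ·)] at c
    have := x7 (Algebra.intNorm (𝓞 M) (𝓞 N) x) _
      (V2 (fun i => finrank (𝓞 M) (𝓞 N) * e1 i) fun i => e2 i + e3 i) (n0 x0) (cp I b) (by
        rw [prod2 (· ^ ·), ← relNorm_singleton, c]
        simp only [map_mul, map_prod, map_pow, relNorm_algebraMap, pow_mul, (v _).2.1, (v _).2.2.1,
          pow_add, Finset.prod_mul_distrib, mul_assoc])
    have x0' : (x : N) ≠ 0 := RingOfIntegers.coe_ne_zero_iff.2 x0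
    rw [sum2 fun φ : M → ZMod (3 ^ B) => φ _] at this
    rw [sum2 fun φ : N → ZMod (3 ^ B) => φ _, sum2 fun φ : N → ZMod (3 ^ B) => φ _, add_assoc (∑ i, _),
      ← Finset.sum_add_distrib]
    simp only [← nmi, (s1 _).1, loc _ _ _ x0' ((map_ne_zero τ).2 x0')] at this
    exact this

end Vale.Agent.P014Y.C.Al
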