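import Vale.Agent.P014Y.C.Al.Cpl
import Vale.Agent.P014Y.C.Al.Axm
import Vale.Agent.P014Y.C.Al.Prc
import Vale.Agent.P014Y.C.Al.Prm
import Vale.Agent.P014Y.C.Al.Dg
import Vale.Agent.P014Y.C.Al.Sys
import Vale.Agent.P014Y.C.Al.Spl
import Vale.Agent.P014Y.C.Al.Ups
import Vale.Agent.P014Y.C.Al.Bup
import Vale.Agent.P014Y.C.Al.Clm
import Vale.Agent.P014Y.C.Al.Mjx
import Vale.Agent.P014Y.C.Al.Lgm
import Vale.Agent.P014Y.C.Al.Unm
import Vale.Agent.P014Y.C.Al.Umf

/-!
# P014 Y, block AL: the auxiliary primes, closed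
-/

set_option linter.all false

namespace Vale.Agent.P014Y.C.Al

theorem prcx : PRC := prc prm (log_row kv) lin

theorem cplx : CPL := cpl prcx (log_row kv) lin dg sys spl (ups spl)

theorem axmx : AXM := axm prcx lins lgm unm sys spl

theorem mjxx : MJX := mjx axmx

theorem bupx : BUP := bup spl

end Vale.Agent.P014Y.C.Al
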