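import Vale.Agent.P014Y.C.Al.Cb0

/-!
# P014 Y, block AL: the cubic step (row CB3)
-/

set_option linter.all false

open NumberField Module Ideal
open scoped Classical

noncomputable section

namespace Vale.Agent.P014Y.C.Al

open Cm Cb
open P004C.Cm (sum_of cop_rn rn_rn)

/-- **the cubic step** -/
theorem cb3 (hb : Cg.BNDR) (hl : LCM) (hm : MEA) (hs : SMX) : CB3 := by
  intro K _ _ ι J Ω Bs M N E _ _ _ _ _ _ _ _ _ _ _ _ h2 h3 hw n b ψ η v Q T s₀ s1 si h h0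
  have : Algebra.IsQuadraticExtension M N := { finrank_eq_two' := h2 }
  obtain ⟨g, pg, Hη, g3⟩ := T.hc
  obtain ⟨f, F, pf, L, hF⟩ := Q.lc
  obtain ⟨l, l0, C₁, B₁, D⟩ := bd hb hl hm hs Bs h2 hw v Q pg g3 h0
  refine ⟨3 * l, by positivity, fun s C δ δ0 => ?_⟩
  obtain ⟨ε, ε0, B₂, H⟩ := (hm ι s (max C C₁)).2.2.2 (δ / 10) (by positivity)
  refine ⟨ε, ε0, max (max B₁ B₂) 1, fun e B he hB lam La t w Φ φ ht X iw σ x y hσ m1 m2 hy => ?_⟩
  simp only [max_le_iff] at he hB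
  have p3 : 3 ≤ 3 ^ e := le_self_pow₀ (by norm_num) (by omega)
  have hh : (2 : ℝ) ≤ h * (3 ^ e : ℕ) := by exact_mod_cast (by nlinarith : 2 ≤ h * 3 ^ e)
  have σ0 : 0 < σ := hσ ▸ sc_pos Bs (mul_pos (dv_pos b) (hF ▸ norm_pos_iff.2 (Nat.cast_ne_zero.2
    (absNorm_eq_zero_iff.not.2 L.ne)))) _ _
  have η3 : ∀ P, P.IsMaximal → η P = 0 ∨ η P ^ 3 = 1 := fun P p => h3 ▸ gp_pow p (T.gp P p)
  have cη : P004C.Al.Cm η := ⟨Hη.one, Hη.mul⟩
  have η1 : ∀ (i : ℕ) I, ‖η I ^ i‖ ≤ 1 := fun i I =>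
    (norm_pow _ _).trans_le (pow_le_one₀ (norm_nonneg _) (T.le I))
  have Hl := la_hc (M := M) Bs La
  let a : ℕ → Ideal (𝓞 M) → ℂ := fun i I => ψ I * (η I ^ i * lam (relNorm (𝓞 K) I))
  have ca : ∀ i, P004C.Al.Cm (a i) := fun i =>
    ⟨by simp only [a]; rw [L.hc.one, Hη.one, Hl.one]; simp, fun I I' => by
      simp only [a]; rw [L.hc.mul, Hη.mul, Hl.mul]; ring⟩
  have na : ∀ i I, ‖a i I‖ ≤ (absNorm I : ℝ) ^ (-2 : ℝ) := fun i I => by
    simp only [a]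
    rw [norm_mul, norm_mul]
    exact (mul_le_of_le_one_left (by positivity) (Q.le I)).trans
      ((mul_le_of_le_one_left (norm_nonneg _) (η1 i I)).trans (la_le Bs La hh I))
  have sa : ∀ i, Summable (a i) := fun i => sum_of one_lt_two (na i)
  have sr : ∀ i, Summable (rk w (a i)) := fun i =>
    sum_of one_lt_two fun I => (rk_le I).trans (na i I)
  have a0 : (fun I => ψ I * lam (relNorm (𝓞 K) I)) = a 0 := funext fun I => by simp [a]
  have bi : ∀ i, i ≠ 0 → ∀ z, σ * ‖ι (mw w Φ (a i) z)‖ ≤ max C C₁ := fun i i0 z =>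
    le_max_of_le_right (hσ ▸ D (fun I => η I ^ i) ⟨by rw [Hη.one, one_pow], fun I I' => by
      rw [Hη.mul, mul_pow], fun I => by rw [pow_eq_zero_iff i0, Hη.zero], fun x a b => by
      rw [Hη.prn x a b, pow_zero, one_pow]⟩ (η1 i) (fun P p => (η3 P p).imp
        (fun k => by rw [k, zero_pow i0]) fun k => by rw [← pow_mul, mul_comm, pow_mul, k, one_pow])
      e B he.2 hB.1.1 lam La t _ w Φ φ ht X z)
  rw [a0] at m1
  have k := H B hB.1.2 _ _ _ _ σ x y σ0 (fun ω => ?_) ⟨fun z => le_max_of_le_left (m1.bd z), m1.sm,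
    m1.ld⟩ ⟨fun z => le_max_of_le_left (m2.bd z), m2.sm, m2.ld⟩ (bi 1 one_ne_zero) (bi 2 two_ne_zero)
  swap
  · have rr : ∀ I : Ideal (𝓞 E), rk (fun i => (w i).map (algebraMap (𝓞 M) (𝓞 E)))
        (fun I => ψ (relNorm (𝓞 M) I) * lam (relNorm (𝓞 K) I)) I = rk w (a 0) (relNorm (𝓞 M) I) :=
      fun I => by simp only [rk, a, rn_rn, cop_rn (X.max _), pow_zero, one_mul]
    have k1 := (P004C.Al.eul_cyc h3 cη T.le (tw_cm X (ca 0) (by simp [a, La.1]) ω)
      (by simp [rk, a, La.1]) one_lt_two (fun I => by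
        rw [norm_mul, ω.norm_apply, mul_one]; exact (rk_le I).trans (na 0 I))
      fun P p _ => T.gp P p).2.2
    have k2 : ∀ i, ∑' I, rk w (a 0) I * ω (Φ I) * η I ^ i = ∑' I, rk w (a i) I * ω (Φ I) :=
      fun i => tsum_congr fun I => by simp only [rk, a]; split_ifs <;> ring
    simp only [mw_eq]
    rw [ms_sum (sr 0), ms_sum (sr 1), ms_sum (sr 2), ms_sum (sum_of one_lt_two fun I =>
      (rk_le I).trans (by
        rw [norm_mul]
        exact (mul_le_of_le_one_left (norm_nonneg _) (Q.le _)).trans (la_le Bs La hh I)))]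
    simp only [rr]
    rw [k1]
    simp only [k2, Finset.prod_range_succ, Finset.prod_range_zero, one_mul]
  have fc : ∀ P : Ideal (𝓞 M), P.IsMaximal → Ine E P → Pv ι J P →
      ‖ι (1 - a 1 P)‖ * ‖ι (1 - a 2 P)‖ = if ψ P = 1 then 1 / 3 else 1 := fun P p i q => by
    simp only [a, pow_one]
    exact fac ι (h3 ▸ gp_ine (by omega) p (T.gp P p) i) (h2 ▸ gp_pow p (Q.gp P p))
      ((la_one Bs La q).trans (pow_le_pow_of_le_one (by norm_num) (by norm_num) (by omega)))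
  have e1 : ∀ i, ∑ z, mw w Φ (a i) z = (∑' I, a i I) * ∏ j, (1 - a i (w j)) := fun i => by
    have := ms_sum (sr i) Φ fun _ => 1
    simp only [mul_one] at this
    rw [mw_eq, this, rk_sum X.max X.inj (ca i) (sa i)]
  have e2 : ‖ι (∑ z, mw w Φ (a 1) z)‖ * ‖ι (∑ z, mw w Φ (a 2) z)‖ * 3 ^ s =
      ‖ι (∑' I, a 1 I)‖ * ‖ι (∑' I, a 2 I)‖ := by
    simp only [e1, map_mul, norm_mul, map_prod, norm_prod]
    rw [mul_mul_mul_comm, ← Finset.prod_mul_distrib, Finset.prod_congr rfl fun j _ =>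
      (fc _ (X.max j) (iw j).1 (pv_max (X.max j) fun k => X.cop j (mem_of_dvd _ ht (by
        push_cast; exact mul_mem_right _ _ k)))).trans (if_pos (iw j).2), Finset.prod_const,
      Finset.card_univ, Fintype.card_fin, mul_assoc, ← mul_pow]
    simp
  have fs := ps_fin (M := M) s1
  have e3 : ‖ι (Ls s₀ lam fun I => η I * ψ I)‖ * ‖ι (Ls s₀ lam fun I => η I ^ 2 * ψ I)‖ *
      3 ^ {P ∈ Ps M s₀ | ψ P = 1}.ncard = ‖ι (∑' I, a 1 I)‖ * ‖ι (∑' I, a 2 I)‖ := by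
    rw [show (Ls s₀ lam fun I => η I * ψ I) = _ from (tsum_congr fun I => if_congr Iff.rfl
        (by simp only [a]; ring) rfl).trans (ls_eq fs (ca 1) (sa 1)),
      show (Ls s₀ lam fun I => η I ^ 2 * ψ I) = _ from (tsum_congr fun I => if_congr Iff.rfl
        (by simp only [a]; ring) rfl).trans (ls_eq fs (ca 2) (sa 2)),
      show {P ∈ Ps M s₀ | ψ P = 1} = ↑(fs.toFinset.filter fun P => ψ P = 1) by ext; simp,
      Set.ncard_coe_finset]
    simp only [map_mul, norm_mul, map_prod, norm_prod]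
    rw [mul_mul_mul_comm, ← Finset.prod_mul_distrib, Finset.prod_congr rfl fun P p =>
      fc P (fs.mem_toFinset.1 p).1 (si P (fs.mem_toFinset.1 p)) ⟨s₀, s1, (fs.mem_toFinset.1 p).2⟩,
      Finset.prod_ite, Finset.prod_const, Finset.prod_const_one, mul_one, mul_assoc, ← mul_pow]
    simp
  have p : (0 : ℝ) < 3 ^ s := by positivity
  have := mul_le_mul_of_nonneg_right (abs_le.1 k).2 p.le
  have := mul_le_mul_of_nonneg_right hy p.le
  rw [← e2] at e3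
  generalize ‖ι (∑ z, mw w Φ (a 1) z)‖ = u₁, ‖ι (∑ z, mw w Φ (a 2) z)‖ = u₂,
    ‖ι (Ls s₀ lam fun I => η I * ψ I)‖ = z₁, ‖ι (Ls s₀ lam fun I => η I ^ 2 * ψ I)‖ = z₂,
    (3 : ℝ) ^ {P ∈ Ps M s₀ | ψ P = 1}.ncard = r at *
  rw [show x * r * (σ * z₁ * (σ * z₂)) = x * (σ * u₁ * (σ * u₂)) * 3 ^ s by
    linear_combination x * σ * σ * e3]
  linarith

end Vale.Agent.P014Y.C.Al
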