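import Vale.Agent.P014Y.C.St
import Vale.Agent.P014Y.C.Al.Cmb0
import Vale.Agent.P004C.Al.Eul
import Vale.Agent.P014Y.C.Al.Gb0

/-!
# P014 Y, C: the characters `lam ∘ N`, their twists and smoothed push forwards
-/

open NumberField Module Ideal
open scoped Classical

set_option linter.all false

noncomputable section

namespace Vale.Agent.P014Y.C.Cm

variable {K : Type} [Field K] [NumberField K] {ι : ℂ →+* ℂ_[3]} {J : K →+* ℂ} {Ω : ℝ}
  {h e : ℕ} {lam : Ideal (𝓞 K) → ℂ}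

theorem la_eq (B : Base ι J Ω) (L : La J h e lam) {I : Ideal (𝓞 K)} (hI : I ≠ ⊥) {α : 𝓞 K}
    (hα : span {α} = I ^ h) : lam I = (J α)⁻¹ ^ (2 * e) := by
  obtain ⟨β, h1, h2⟩ := L.2 I hI
  obtain ⟨u, rfl⟩ := span_singleton_eq_span_singleton.1 (h1.trans hα.symm)
  rw [h2]
  rcases B.upm u with rfl | rfl
  · simp
  · simp [pow_mul, inv_neg]

theorem la_cm (B : Base ι J Ω) (L : La J h e lam) : P004C.Al.Cm lam where
  one := by
    rw [la_eq B L (I := 1) (by simp) (α := 1) (by rw [one_pow, span_singleton_one, one_eq_top])]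
    simp
  mul I I' := by
    by_cases hI : I = ⊥
    · simp [hI, L.1]
    by_cases hI' : I' = ⊥
    · simp [hI', L.1]
    obtain ⟨α, h1, h2⟩ := L.2 I hI
    obtain ⟨β, h3, h4⟩ := L.2 I' hI'
    rw [la_eq B L (mul_ne_zero hI hI') (α := α * β)
      (by rw [← span_singleton_mul_span_singleton, h1, h3, mul_pow]), h2, h4]
    simp [mul_pow, mul_comm]

theorem nm_sq (B : Base ι J Ω) (α : 𝓞 K) : ‖J α‖ ^ 2 = absNorm (span {α}) := by
  have h1 : ∀ σ : K →+* ℂ, ‖σ α‖ = ‖J α‖ := by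
    intro σ
    have hc : Fintype.card (K →+* ℂ) = 2 := by rw [Embeddings.card, B.two]
    have hn : ComplexEmbedding.conjugate J ≠ J := fun k =>
      B.im.false (ComplexEmbedding.IsReal.embedding (ComplexEmbedding.isReal_iff.2 k))
    by_cases k : σ = J
    · rw [k]
    · have : σ = ComplexEmbedding.conjugate J := by
        by_contra k'
        have := Finset.card_le_univ ({σ, J, ComplexEmbedding.conjugate J} : Finset _)
        rw [Finset.card_eq_three.2 ⟨_, _, _, k, k', hn.symm, rfl⟩, hc] at this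
        omega
      rw [this, ComplexEmbedding.conjugate_coe_eq, RCLike.norm_conj]
  have h2 := Algebra.norm_eq_prod_embeddings ℚ ℂ (α : K)
  have h3 : ‖algebraMap ℚ ℂ (Algebra.norm ℚ (α : K))‖ = ‖J α‖ ^ 2 := by
    rw [h2, norm_prod]
    refine (Finset.prod_congr rfl fun σ _ => h1 (σ : K →ₐ[ℚ] ℂ).toRingHom).trans ?_
    rw [Finset.prod_const, Finset.card_univ, AlgHom.card, B.two]
  rw [← h3, absNorm_span_singleton, ← Algebra.coe_norm_int]
  simp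

theorem la_nm (B : Base ι J Ω) (L : La J h e lam) {I : Ideal (𝓞 K)} (hI : I ≠ ⊥) :
    ‖lam I‖ = ((absNorm I : ℝ) ^ (h * e))⁻¹ := by
  obtain ⟨α, h1, h2⟩ := L.2 I hI
  rw [h2, norm_pow, norm_inv, inv_pow, pow_mul, nm_sq B, h1, map_pow, Nat.cast_pow, ← pow_mul]

variable {M : Type} [Field M] [NumberField M] [Algebra K M]

theorem rn_bot {I : Ideal (𝓞 M)} : relNorm (𝓞 K) I = ⊥ ↔ I = ⊥ := relNorm_eq_bot_iff

theorem la_hc (B : Base ι J Ω) (L : La J h e lam) :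
    HC J (2 * h * e) ⊤ fun I : Ideal (𝓞 M) => lam (relNorm (𝓞 K) I) where
  one := by rw [map_one, (la_cm B L).one]
  mul I I' := by rw [map_mul, (la_cm B L).mul]
  zero I := by
    simp only [le_top, sup_of_le_right, ne_eq, not_true_eq_false, or_false]
    refine ⟨fun k => ?_, fun k => by rw [k, relNorm_bot, L.1]⟩
    by_contra hI
    have h1 := la_nm B L (mt rn_bot.1 hI)
    rw [k, norm_zero] at h1
    have h2 : absNorm (relNorm (𝓞 K) I) ≠ 0 := mt absNorm_eq_zero_iff.1 (mt rn_bot.1 hI)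
    exact (by positivity : (((absNorm (relNorm (𝓞 K) I) : ℕ) : ℝ) ^ (h * e))⁻¹ ≠ 0) h1.symm
  prn x hx _ := by
    rw [la_eq B L (mt rn_bot.1 (mt span_singleton_eq_bot.1 hx))
      (α := Algebra.intNorm (𝓞 K) (𝓞 M) x ^ h) (by rw [relNorm_singleton, span_singleton_pow])]
    have : ((Algebra.intNorm (𝓞 K) (𝓞 M) x : 𝓞 K) : K) = Algebra.norm K (x : M) :=
      Algebra.algebraMap_intNorm (A := 𝓞 K) (K := K) (L := M) (B := 𝓞 M) x
    rw [← this, mul_comm 2 h, mul_assoc, pow_mul _ h]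
    simp

theorem la_le (B : Base ι J Ω) (L : La J h e lam) {s : ℝ} (hs : s ≤ h * e) (I : Ideal (𝓞 M)) :
    ‖lam (relNorm (𝓞 K) I)‖ ≤ (absNorm I : ℝ) ^ (-s) := by
  by_cases hI : I = ⊥
  · rw [hI, relNorm_bot, L.1, norm_zero]; positivity
  rw [la_nm B L (mt rn_bot.1 hI), absNorm_relNorm, ← Real.rpow_natCast,
    ← Real.rpow_neg (Nat.cast_nonneg _)]
  refine Real.rpow_le_rpow_of_exponent_le ?_ (by push_cast; linarith)
  exact_mod_cast Nat.one_le_iff_ne_zero.2 (mt absNorm_eq_zero_iff.1 hI)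

variable {k : ℕ} {f g : Ideal (𝓞 M)} {a η : Ideal (𝓞 M) → ℂ}

theorem cop_mul {I f g : Ideal (𝓞 M)} : I ⊔ f * g = ⊤ ↔ I ⊔ f = ⊤ ∧ I ⊔ g = ⊤ := by
  simp only [← isCoprime_iff_sup_eq, IsCoprime.mul_right_iff]

theorem mul_cop {I I' f : Ideal (𝓞 M)} : I * I' ⊔ f = ⊤ ↔ I ⊔ f = ⊤ ∧ I' ⊔ f = ⊤ := by
  simp only [← isCoprime_iff_sup_eq, IsCoprime.mul_left_iff]

theorem one_cop {x : 𝓞 M} (hx : x - 1 ∈ g) : span {x} ⊔ g = ⊤ := by
  rw [eq_top_iff_one]
  have := sub_mem (mem_sup_left (mem_span_singleton_self x)) (mem_sup_right (S := span {x}) hx)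
  simpa using this

/-- twist by a ray class character -/
theorem hc_mul (H : HC J k f a) (E : HC J 0 g η) : HC J k (f * g) fun I => η I * a I where
  one := by rw [H.one, E.one, mul_one]
  mul I I' := by rw [H.mul, E.mul]; ring
  zero I := by
    rw [mul_eq_zero, H.zero, E.zero, ne_eq, ne_eq, ne_eq, cop_mul]
    tauto
  prn x hx k := by
    have k1 : x - 1 ∈ f := Ideal.mul_le_left k
    have k2 : x - 1 ∈ g := Ideal.mul_le_right k
    simp only [H.prn x hx k1, E.prn x hx k2, pow_zero, one_mul]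

/-- the trivial character of modulus `g` -/
theorem hc_ind (g : Ideal (𝓞 M)) :
    HC J 0 g fun I => if I ≠ ⊥ ∧ I ⊔ g = ⊤ then 1 else 0 where
  one := by simp
  mul I I' := by
    simp only [mul_cop, ne_eq, Ideal.mul_eq_bot, not_or]
    split_ifs <;> first | tauto | simp
  zero I := by simp; tauto
  prn x hx k := by simp [hx, one_cop k]

variable {r A : ℕ} {t : 𝓞 M} {W : Fin (r + 1) → Ideal (𝓞 M)} {Φ : Ideal (𝓞 M) → ZMod (3 ^ A)}
  {φ : Fin (r + 1) → M → ZMod (3 ^ A)}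

theorem aux_prn (X : Aux t A W Φ φ) {x : 𝓞 M} (hx : x ≠ 0) (k : ∀ i, x - 1 ∈ W i) :
    Φ (span {x}) = 0 := by
  have := X.prd x (span {x}) 0 hx (fun i => one_cop (k i))
    (by simp only [Pi.zero_apply, pow_zero, Finset.prod_const_one, mul_one])
  simpa [fun i => X.tam i x (k i)] using this

theorem aux_ry (X : Aux t A W Φ φ) (hf : ∀ i, f ≤ W i) (F : ZMod (3 ^ A) → ℂ) :
    Ry f fun I => if I ≠ ⊥ ∧ ∀ i, I ⊔ W i = ⊤ then F (Φ I) else 0 := by
  intro I x hx k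
  have h1 := fun i => one_cop (hf i k)
  have h2 : span {x} ≠ (⊥ : Ideal (𝓞 M)) := mt span_singleton_eq_bot.1 hx
  by_cases hI : I ≠ ⊥ ∧ ∀ i, I ⊔ W i = ⊤
  · simp only [if_pos hI]
    rw [if_pos ⟨mul_ne_zero h2 hI.1, fun i => mul_cop.2 ⟨h1 i, hI.2 i⟩⟩,
      X.add _ _ h2 hI.1 h1 hI.2, aux_prn X hx fun i => hf i k, zero_add]
  · simp only [if_neg hI]
    exact if_neg fun k => hI ⟨right_ne_zero_of_mul k.1, fun i => (mul_cop.1 (k.2 i)).2⟩

theorem sm_mem {c : Ideal (𝓞 M)} {l : ℕ} (S : Sm c l) : c ≠ ⊥ ∧ (l : 𝓞 M) ∈ c :=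
  ⟨fun k => S.1.ne_zero (by rw [← S.2.2.1, k, absNorm_bot]), S.2.2.1 ▸ absNorm_mem c⟩

theorem cop_of {w c : Ideal (𝓞 M)} (hw : w.IsMaximal) {x : 𝓞 M} (h1 : x ∈ c) (h2 : x ∉ w) :
    c ⊔ w = ⊤ := by
  by_contra k
  exact h2 ((hw.eq_of_le k le_sup_right).symm ▸ mem_sup_left h1)

theorem cop_prod {I : Ideal (𝓞 M)} : I ⊔ ∏ i, W i = ⊤ ↔ ∀ i, I ⊔ W i = ⊤ := by
  simp only [← isCoprime_iff_sup_eq, IsCoprime.prod_right_iff, Finset.mem_univ, true_implies]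

theorem prod_le (i : Fin (r + 1)) : ∏ i, W i ≤ W i :=
  le_of_dvd (Finset.dvd_prod_of_mem _ (Finset.mem_univ i))

/-- the smoothed push forward -/
def mu (a : Ideal (𝓞 M) → ℂ) (Φ : Ideal (𝓞 M) → ZMod (3 ^ A)) (c : Ideal (𝓞 M)) (l : ℕ) :
    ZMod (3 ^ A) → ℂ := sm (ms a Φ) (l * a c) (Φ c)

theorem mu_sum (ha : Summable a) (c : Ideal (𝓞 M)) (l : ℕ) (F : ZMod (3 ^ A) → ℂ) :
    ∑ x, mu a Φ c l x * F x = ∑' I, a I * (F (Φ I) - l * a c * F (Φ c + Φ I)) := by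
  rw [mu, sm_sum, ms_sum ha Φ fun x => F x - l * a c * F (Φ c + x)]

theorem mu_ch (ha : Summable a) (c : Ideal (𝓞 M)) (l : ℕ) (ω : AddChar (ZMod (3 ^ A)) ℂ) :
    ∑ x, mu a Φ c l x * ω x = (1 - l * a c * ω (Φ c)) * ∑' I, a I * ω (Φ I) := by
  rw [mu, sm_ch, ms_sum ha]

/-- the form of `BND` -/
theorem mu_eq (X : Aux t A W Φ φ) (H : HC J k f a) (hf : ∀ i, f ≤ W i) (ha : Summable a)
    {c : Ideal (𝓞 M)} (c0 : c ≠ ⊥) (hc : f ⊔ c = ⊤) (l : ℕ) (x : ZMod (3 ^ A)) :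
    ∃ u : Ideal (𝓞 M) → ℂ, Ry f u ∧ (∀ I, ‖ι (u I)‖ ≤ 1) ∧
      mu a Φ c l x = ∑' I, a I * (u I - l * a c * u (c * I)) := by
  have cp : ∀ I, I ⊔ f = ⊤ → ∀ i, I ⊔ W i = ⊤ := fun I k i =>
    eq_top_iff.2 (k ▸ sup_le_sup_left (hf i) I)
  refine ⟨_, aux_ry X hf fun y => if y = x then 1 else 0, fun I => ?_, ?_⟩
  · split_ifs <;> simp
  · have := mu_sum (Φ := Φ) ha c l fun y => if y = x then 1 else 0
    simp only [mul_ite, mul_one, mul_zero, Finset.sum_ite_eq', Finset.mem_univ, if_true] at this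
    rw [this]
    refine tsum_congr fun I => ?_
    by_cases k : a I = 0
    · simp [k]
    rw [H.zero, not_or, not_not] at k
    have k1 := cp c (by rwa [sup_comm])
    rw [if_pos (c := I ≠ ⊥ ∧ _) ⟨k.1, cp I k.2⟩, if_pos (c := c * I ≠ ⊥ ∧ _)
      ⟨mul_ne_zero c0 k.1, fun i => mul_cop.2 ⟨k1 i, cp I k.2 i⟩⟩, X.add c I c0 k.1 k1 (cp I k.2)]
    simp

/-- restriction to the ideals prime to `W` -/
def rs (W : Fin (r + 1) → Ideal (𝓞 M)) (a : Ideal (𝓞 M) → ℂ) (I : Ideal (𝓞 M)) : ℂ :=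
  if ∀ j, I ⊔ W j = ⊤ then a I else 0

theorem rs_le (I : Ideal (𝓞 M)) : ‖rs W a I‖ ≤ ‖a I‖ := by
  unfold rs; split_ifs <;> simp

theorem rs_hc (H : HC J k f a) : HC J k (f * ∏ i, W i) (rs W a) := by
  have := hc_mul H (hc_ind (J := J) (∏ i, W i))
  refine (funext fun I => ?_ : (fun I => _) = rs W a) ▸ this
  by_cases k : I = ⊥
  · simp [rs, (H.zero I).2 (.inl k)]
  · simp only [rs, cop_prod, ne_eq, k, not_false_eq_true, true_and, ite_mul, one_mul, zero_mul]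

theorem zz_eq (ha : Summable (rs W a)) {c : Ideal (𝓞 M)} (hc : ∀ j, c ⊔ W j = ⊤) (l i : ℕ) :
    zz W Φ a c l i = mc (mu (rs W a) Φ c l) i := by
  rw [mc, mu_sum ha c l fun x => (x.val.choose i : ℕ), zz]
  refine tsum_congr fun I => ?_
  simp only [rs, if_pos hc]
  split_ifs <;> simp

/-- the twist by a character of the group is multiplicative -/
theorem tw_cm (X : Aux t A W Φ φ) (H : HC J k f a) (hf : ∀ i, f ≤ W i)
    (ω : AddChar (ZMod (3 ^ A)) ℂ) : P004C.Al.Cm fun I => a I * ω (Φ I) := by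
  have cp : ∀ I, a I ≠ 0 → I ≠ ⊥ ∧ ∀ i, I ⊔ W i = ⊤ := fun I k => by
    rw [ne_eq, H.zero, not_or, not_not] at k
    exact ⟨k.1, fun i => eq_top_iff.2 (k.2 ▸ sup_le_sup_left (hf i) I)⟩
  refine ⟨?_, fun I I' => ?_⟩
  · have := aux_prn X one_ne_zero fun i => by simp
    rw [span_singleton_one, ← one_eq_top] at this
    rw [H.one, this, ω.map_zero_eq_one, mul_one]
  · by_cases h1 : a I = 0
    · simp [H.mul, h1]
    by_cases h2 : a I' = 0
    · simp [H.mul, h2]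
    rw [H.mul, X.add I I' (cp I h1).1 (cp I' h2).1 (cp I h1).2 (cp I' h2).2, ω.map_add_eq_mul]
    ring

end Vale.Agent.P014Y.C.Cm
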