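import Vale.Agent.P014Y.Tp.St0
import Vale.Agent.P014Y.C.Al.Cmb1
import Vale.Agent.P004C.Al.Lf2
import Vale.Agent.P004C.Al.Icx

/-!
# P014 Y, block AL: the faithful characters of a layer
-/

set_option linter.all false

open NumberField Module IsDedekindDomain
open scoped Classical

noncomputable section

namespace Vale.Agent.P014Y.C.Al.Lf

open Vale.Agent.P022 (Qb GQ GK below)
open Vale.Agent.P027M.S (Inert)
open Vale.Agent.P027M.M (ze)
open Vale.Agent.P022E.GW (Ov)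
open Vale.Agent.P022K
open Vale.Agent.P004C.Al (Gc Ic Rm Ls Gp eul_cyc)
open Vale.Agent.P004C.Al.Lf (tm ls_eq tm_mul tm_ne cop_rn res ex_pl ex_fr deg gp ic_le ze_norm
  ze_add ze_one ze_prim)
open Tp

variable {K : Type} [Field K] [NumberField K] {ι : ℂ →+* ℂ_[3]} {J : K →+* ℂ} {Ω : ℝ}
  {M N : Type} [Field M] [NumberField M] [Field N] [NumberField N] [Algebra K M] [Algebra K N]
  [Algebra M N] [IsScalarTower K M N] {h a : ℕ} {lam : Ideal (𝓞 K) → ℂ} {s : 𝓞 K}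
  {χ ψ : Ideal (𝓞 M) → ℂ}

theorem tm_bot (L : La J h a lam) : tm s lam χ ⊥ = 0 := by
  unfold tm
  rw [Ideal.relNorm_bot, L.1, mul_zero, ite_self]

theorem tm_cm (B : Base ι J Ω) (L : La J h a lam) (hχ : P004C.Al.Cm χ) :
    P004C.Al.Cm (tm s lam χ) where
  one := by
    unfold tm
    rw [if_pos (by rw [Ideal.one_eq_top, top_sup_eq]), map_one, hχ.one, (Cm.la_cm B L).one, mul_one]
  mul I I' := by
    unfold tm
    simp only [Cm.mul_cop, map_mul, hχ.mul, (Cm.la_cm B L).mul, ite_and]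
    split_ifs <;> ring

theorem tm_le (B : Base ι J Ω) (L : La J h a lam) (h1 : ∀ I, ‖χ I‖ ≤ 1) {r : ℝ} (hr : r ≤ h * a)
    (I : Ideal (𝓞 M)) : ‖tm s lam χ I‖ ≤ (Ideal.absNorm I : ℝ) ^ (-r) := by
  unfold tm
  split_ifs
  · rw [norm_mul]
    exact (mul_le_of_le_one_left (norm_nonneg _) (h1 I)).trans (Cm.la_le B L hr I)
  · rw [norm_zero]; positivity

theorem tm_rn (L : La J h a lam) (I : Ideal (𝓞 N)) :
    tm s lam χ (Ideal.relNorm (𝓞 M) I) = tm s lam (fun I => χ (Ideal.relNorm (𝓞 M) I)) I := by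
  by_cases z : I = ⊥
  · rw [z, Ideal.relNorm_bot, tm_bot L, tm_bot L]
  unfold tm
  rw [Ideal.relNorm_relNorm]
  refine if_congr ?_ rfl rfl
  rw [cop_rn _ I z, Ideal.map_span, Set.image_singleton, ← IsScalarTower.algebraMap_apply]

theorem two_le (hh : 0 < h) (ha : 1 ≤ a) : (2 : ℝ) ≤ h * ((3 ^ a : ℕ) : ℝ) := by
  have : 1 * 3 ^ 1 ≤ h * 3 ^ a := Nat.mul_le_mul hh (Nat.pow_le_pow_right three_pos ha)
  exact_mod_cast (show 2 ≤ h * 3 ^ a by omega)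

/-- **cyclic extensions**: `ψ` cuts out `N / M` -/
theorem cyc (B : Base ι J Ω) [IsGalois M N] {d : ℕ} (hd : finrank M N = d) (hh : 0 < h)
    (ha : 1 ≤ a) (L : La J h (3 ^ a) lam) (hχ : P004C.Al.Cm χ) (hψ : P004C.Al.Cm ψ)
    (h1 : ∀ I, ‖χ I‖ ≤ 1) (h2 : ∀ I, ‖ψ I‖ ≤ 1)
    (g : ∀ P : Ideal (𝓞 M), P.IsMaximal → χ P ≠ 0 → Gp N ψ P) :
    (Ls s lam fun I : Ideal (𝓞 N) => χ (Ideal.relNorm (𝓞 M) I)) =
      ∏ i ∈ Finset.range d, Ls s lam fun I => χ I * ψ I ^ i := by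
  have := (eul_cyc (M' := N) hd hψ h2 (tm_cm (s := s) B L hχ) (tm_bot L) one_lt_two
    (tm_le B L h1 (two_le hh ha)) fun P hP n => g P hP (tm_ne n)).2.2
  rw [ls_eq, ← tsum_congr (tm_rn L), this]
  exact Finset.prod_congr rfl fun i _ => tsum_congr (tm_mul fun I => ψ I ^ i)

section

variable {j : M →+* Qb} {c k : ℕ} {e : GQ → ZMod (3 * 3 ^ k)}

/-- the layer as a homomorphism -/
def eh (W : Lw j c k e) : GK j →* Multiplicative (ZMod (3 * 3 ^ k)) :=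
  MonoidHom.mk' (fun g => .ofAdd (e g)) fun g h => congrArg Multiplicative.ofAdd (W.add _ g.2 _ h.2)

theorem e_one (W : Lw j c k e) : e 1 = 0 := map_one (eh W)

theorem e_pow (W : Lw j c k e) {g : GQ} (hg : g ∈ GK j) (n : ℕ) : e (g ^ n) = n * e g := by
  rw [← nsmul_eq_mul]
  exact map_pow (eh W) ⟨g, hg⟩ n

theorem ex_one (W : Lw j c k e) : ∃ t ∈ GK j, e t = 1 := by
  obtain ⟨l, hl, d⟩ := Nat.exists_prime_and_dvd W.one.ne'
  obtain ⟨P, hP⟩ := GW.Pl.ex_ov hl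
  obtain ⟨t, a, -, b⟩ := W.ram l P hP d
  exact ⟨t, a, b⟩

theorem third_ne : ((3 ^ k : ℕ) : ZMod (3 * 3 ^ k)) ≠ 0 := fun z => by
  have := Nat.le_of_dvd (by positivity) ((ZMod.natCast_eq_zero_iff _ _).1 z)
  have : 0 < 3 ^ k := by positivity
  omega

theorem three_pw (x : ZMod (3 * 3 ^ k)) : 3 * (((3 ^ k : ℕ) : ZMod (3 * 3 ^ k)) * x) = 0 := by
  have := ZMod.natCast_self (3 * 3 ^ k)
  rw [Nat.cast_mul, Nat.cast_ofNat] at this
  rw [← mul_assoc, this, zero_mul]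

theorem cb_eq (W : Lw j c k e) (g : GK j) :
    (powMonoidHom 3).comp (eh W) g = .ofAdd (3 * e g) := by
  rw [show 3 * e g = 3 • e g by rw [nsmul_eq_mul, Nat.cast_ofNat], ofAdd_nsmul]; rfl

theorem card_cb (W : Lw j c k e) : Nat.card ((powMonoidHom 3).comp (eh W)).range = 3 ^ k := by
  have : NeZero (3 * 3 ^ k) := ⟨by positivity⟩
  obtain ⟨t, a, b⟩ := ex_one W
  have : ((powMonoidHom 3).comp (eh W)).range =
      Subgroup.zpowers (Multiplicative.ofAdd ((3 : ℕ) : ZMod (3 * 3 ^ k))) := by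
    refine le_antisymm ?_ (Subgroup.zpowers_le_of_mem ⟨⟨t, a⟩, by
      rw [cb_eq, b, mul_one, Nat.cast_ofNat]⟩)
    rintro _ ⟨g, rfl⟩
    rw [cb_eq, ← ZMod.natCast_zmod_val (e g), mul_comm (3 : ZMod _), ← nsmul_eq_mul,
      ofAdd_nsmul, Nat.cast_ofNat]
    exact pow_mem (Subgroup.mem_zpowers _) _
  rw [this, Nat.card_zpowers, orderOf_ofAdd_eq_addOrderOf, ZMod.addOrderOf_coe _ (NeZero.ne _),
    Nat.gcd_mul_right_left, Nat.mul_div_cancel_left _ three_pos]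

/-- the character of the layer -/
theorem gc (W : Lw j c k e) : Gc j (fun g => ze (3 * 3 ^ k) (e g).val) (3 * 3 ^ k) := by
  have : NeZero (3 * 3 ^ k) := ⟨by positivity⟩
  refine ⟨fun g a t b => by rw [W.add g a t b, ze_add], by positivity, fun g _ => ?_,
    W.opn.imp fun U u => ⟨u.1, fun g a b => (ze_one _ _).2 (u.2 g a b)⟩⟩
  refine (ze_prim _ _).pow_eq_one_iff_dvd _ |>.2 ?_
  simpa using orderOf_dvd_card (x := Multiplicative.ofAdd (e g))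

variable {j' : N →+* Qb} (hj : ∀ x, j' (algebraMap M N x) = j x) (W : Lw j c k e)
  (hk : ∀ g, g ∈ GK j' ↔ g ∈ GK j ∧ 3 * e g = 0)

include hj W hk

theorem rk : IsGalois M N ∧ finrank M N = 3 ^ k :=
  card_cb W ▸ deg hj fun g => by rw [cb_eq, hk, and_iff_right g.2]; rfl

/-- the character of the last step -/
theorem res_e {η : Ideal (𝓞 N) → ℂ} (hχ : Ic j (fun g => ze (3 * 3 ^ k) (e g).val) χ)
    (hη : Ic j' (fun g => ze (3 * 3 ^ k) (e g).val) η) (I : Ideal (𝓞 N)) :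
    η I = χ (Ideal.relNorm (𝓞 M) I) := by
  have : NeZero (3 * 3 ^ k) := ⟨by positivity⟩
  refine res hj (gc W).mul (gc W).one (fun l P hP ⟨g, a, b, n⟩ => ?_) hχ hη I
  obtain ⟨t, a', b', n'⟩ := W.ram l P hP
    (by_contra fun z => n ((ze_one _ _).2 (W.unr l P hP z g a b)))
  have p : e (t ^ 3 ^ k) = (3 ^ k : ℕ) := by rw [e_pow W a', n', mul_one]
  exact ⟨t ^ 3 ^ k, (hk _).2 ⟨pow_mem a' _, by rw [e_pow W a', three_pw]⟩,
    pow_mem (S := P022.H443.inP P) b' _, fun z => third_ne (p ▸ (ze_one _ _).1 z)⟩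

/-- sign characters -/
theorem res_s {θ : GQ → ℂ} (G : Gc j θ 2) {ψ' : Ideal (𝓞 N) → ℂ} (hψ : Ic j θ ψ) (hψ' : Ic j' θ ψ')
    (I : Ideal (𝓞 N)) : ψ' I = ψ (Ideal.relNorm (𝓞 M) I) := by
  refine res hj G.mul G.one (fun l P hP ⟨g, a, b, n⟩ => ⟨g ^ 3 ^ k, (hk _).2 ⟨pow_mem a _, by
    rw [e_pow W a, three_pw]⟩, pow_mem (S := P022.H443.inP P) b _, ?_⟩) hψ hψ' I
  rw [P004C.Al.Lf.th_pow G.mul G.one a, (sq_eq_one_iff.1 (G.pow g a)).resolve_left n,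
    (Odd.pow (by decide)).neg_one_pow]
  norm_num

/-- **one coset of characters** -/
theorem lf1 (B : Base ι J Ω) (hχ : Ic j (fun g => ze (3 * 3 ^ k) (e g).val) χ)
    (p : P004C.Al.Cm ψ) (p1 : ∀ I, ‖ψ I‖ ≤ 1) (hh : 0 < h) (ha : 1 ≤ a) (L : La J h (3 ^ a) lam)
    {r : ℕ} (hr : r ≠ 0) :
    (Ls s lam fun I : Ideal (𝓞 N) => χ (Ideal.relNorm (𝓞 M) I) ^ r * ψ (Ideal.relNorm (𝓞 M) I)) =
      ∏ i ∈ Finset.range (3 ^ k), Ls s lam fun I => χ I ^ (3 * i + r) * ψ I := by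
  have : NeZero (3 * 3 ^ k) := ⟨by positivity⟩
  have hk' : ∀ g, (powMonoidHom 3).comp (eh W) g = 1 ↔ g.1 ∈ GK j' := fun g => by
    rw [cb_eq, hk, and_iff_right g.2]; rfl
  obtain ⟨_, hd⟩ := rk hj W hk
  have h1 := hχ.le (gc W)
  have h2 : ∀ n I, ‖χ I ^ n‖ ≤ 1 := fun n I =>
    (norm_pow _ _).trans_le (pow_le_one₀ (norm_nonneg _) (h1 I))
  rw [cyc (χ := fun I => χ I ^ r * ψ I) B hd hh ha L ⟨by rw [hχ.cm.one, p.one, one_pow, one_mul],
      fun I I' => by rw [hχ.cm.mul, p.mul]; ring⟩ (hχ.cm.npow 3) (fun I => by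
      rw [norm_mul]; exact mul_le_one₀ (h2 r I) (norm_nonneg _) (p1 I)) (h2 3) fun q hp n => ?_]
  · exact Finset.prod_congr rfl fun i _ => congrArg (Ls s lam) (funext fun I => by ring)
  obtain ⟨l, P, hP, rfl⟩ := ex_pl j hp
  have u : ¬ Rm j (fun g => ze (3 * 3 ^ k) (e g).val) P := fun z => n (by
    rw [hχ.ram l P hP z, zero_pow hr, zero_mul])
  obtain ⟨g, hg, fg⟩ := ex_fr j hP
  refine gp hj hk' hP hp (fun t ht => ?_) (g := ⟨g, hg⟩) fg ?_
  · have : e t = 0 := (ze_one _ _).1 (by_contra fun z => u ⟨t, t.2, ht, z⟩)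
    rw [cb_eq, this, mul_zero]; rfl
  · rw [hχ.unr l P hP u g hg fg, cb_eq, pow_succ, pow_two, ← ze_add, ← ze_add,
      show e g + e g + e g = 3 * e g by ring]
    exact ze_prim _ _

omit hj W hk in
theorem prod_fa {R : Type} [CommMonoid R] (f : ℕ → R) (n : ℕ) :
    ∏ i ∈ (Finset.range (3 * n)).filter fun i => ¬ 3 ∣ i, f i =
      (∏ i ∈ Finset.range n, f (3 * i + 1)) * ∏ i ∈ Finset.range n, f (3 * i + 2) := by
  rw [Finset.prod_filter, ← Finset.prod_mul_distrib]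
  induction n with
  | zero => rfl
  | succ n ih =>
    rw [Nat.mul_succ, Finset.prod_range_succ, Finset.prod_range_succ, Finset.prod_range_succ, ih,
      Finset.prod_range_succ, if_neg (by omega), if_pos (by omega), if_pos (by omega), mul_one,
      mul_assoc]

/-- **the faithful characters of a layer** -/
theorem lf (B : Base ι J Ω) {θ : GQ → ℂ} (G : Gc j θ 2) {η ψ' : Ideal (𝓞 N) → ℂ}
    (hχ : Ic j (fun g => ze (3 * 3 ^ k) (e g).val) χ)
    (hη : Ic j' (fun g => ze (3 * 3 ^ k) (e g).val) η) (hψ : Ic j θ ψ) (hψ' : Ic j' θ ψ')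
    (hh : 0 < h) (ha : 1 ≤ a) (L : La J h (3 ^ a) lam) :
    (Ls s lam fun I => η I * ψ' I) * (Ls s lam fun I => η I ^ 2 * ψ' I) =
      ∏ i ∈ Fa k, Ls s lam fun I => χ I ^ i * ψ I := by
  rw [Fa, prod_fa, ← lf1 hj W hk B hχ hψ.cm (hψ.le G) hh ha L one_ne_zero,
    ← lf1 hj W hk B hχ hψ.cm (hψ.le G) hh ha L two_ne_zero]
  simp only [res_e hj W hk hχ hη, res_s hj W hk G hψ hψ', pow_one]

end

theorem card_fa (k : ℕ) : (Fa k).card = 2 * 3 ^ k := by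
  have := prod_fa (fun _ => Multiplicative.ofAdd (1 : ℕ)) (3 ^ k)
  simp only [Finset.prod_const, Finset.card_range, ← ofAdd_nsmul, ← ofAdd_add, smul_eq_mul,
    mul_one] at this
  exact (Multiplicative.ofAdd.injective this).trans (two_mul _).symm

end Vale.Agent.P014Y.C.Al.Lf
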