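import Vale.Agent.P014Y.C.Al.Trc
import Vale.Agent.P014Y.C.Al.Lf

/-!
# P014 Y, block AL: characters and discriminants of the four fields (row CHR)
-/

set_option linter.all false

open NumberField Module
open scoped Classical

noncomputable section

namespace Vale.Agent.P014Y.C.Al

namespace Ch

open Vale.Agent.P022 (Qb GQ GK below)
open Vale.Agent.P027M.S (Inert)
open Vale.Agent.P004C.Al (Gc Ic Rm)
open Tp

variable {K : Type} [Field K] [NumberField K] {ι : ℂ →+* ℂ_[3]} {J : K →+* ℂ}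
  {L : Type} [Field L] [NumberField L] [Algebra K L] {j : L →+* Qb} {ε : GQ → ZMod 3} {c k : ℕ}
  {e : GQ → ZMod (3 * 3 ^ k)} {S : Finset ℕ} {s : 𝓞 K}

theorem sg_one (x : ZMod 3) : (x.valMinAbs : ℂ) = 1 ↔ x = 1 := by
  rw [← Int.cast_one, Int.cast_inj]
  revert x
  decide

/-- the sign character on a subgroup -/
theorem gc2 (T : Ts ι J j ε c k e S s) {M : Type} [Field M] [NumberField M] {j' : M →+* Qb}
    (h : ∀ g ∈ GK j', g ∈ GK j) : Gc j' (fun g => ((ε g).valMinAbs : ℂ)) 2 := by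
  refine ⟨fun g a t b => ?_, two_pos, fun g a => ?_,
    T.opn.imp fun U u => ⟨u.1, fun g a b => (sg_one _).2 (u.2 g (h g a) b)⟩⟩
  · rw [T.mul g (h g a) t (h t b), ← Int.cast_mul]
    exact congrArg _ ((by decide : ∀ x y : ZMod 3,
      (x * y).valMinAbs = x.valMinAbs * y.valMinAbs) _ _)
  · rw [← Int.cast_pow, (by decide : ∀ x : ZMod 3, x ≠ 0 → x.valMinAbs ^ 2 = 1) _ (T.ne g (h g a)),
      Int.cast_one]

theorem un3 (W : Lw j c k e) {j₀ : K →+* Qb} {P : Ideal (𝓞 Qb)} (a : Ab ι J j₀ P) {g : GQ}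
    (hg : g ∈ GK j) (i : Inert P g) : e g = 0 :=
  W.unr 3 P a.1 (fun d => absurd (Nat.dvd_one.1 (W.cop ▸ Nat.dvd_gcd d (by norm_num)))
    (by norm_num)) g hg i

theorem sc_pow (Ω : ℝ) {d : ℝ} (h : 0 ≤ d) (n m κ : ℕ) :
    sc Ω (d ^ m) (n * m) κ = sc Ω d n κ ^ m := by
  have : √(d ^ m) = √d ^ m := by
    rw [← Real.sqrt_sq (pow_nonneg (Real.sqrt_nonneg d) m), ← pow_mul, mul_comm, pow_mul,
      Real.sq_sqrt h]
  rw [sc, sc, this, mul_pow, div_pow (d ^ κ), ← pow_mul d, ← pow_mul d, mul_comm m κ, pow_mul _ n]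

end Ch

open Ch Ds Vale.Agent.P022 in
theorem chr (qcx : QCX) : CHR := by
  intro K L _ _ _ _ _ ι J Ω B j ε c k e S s q _ _ jA γ W T G ψ₀ ψ h₀ h n₀ b₀ n b v₀ v
  have cN : (jA.comp (algebraMap q.N q.A)).comp (algebraMap q.M q.N) =
      jA.comp (algebraMap q.M q.A) := by rw [RingHom.comp_assoc, ← IsScalarTower.algebraMap_eq]
  have cE : (jA.comp (algebraMap q.E q.A)).comp (algebraMap q.M q.E) =
      jA.comp (algebraMap q.M q.A) := by rw [RingHom.comp_assoc, ← IsScalarTower.algebraMap_eq]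
  have eN : ∀ x, (jA.comp (algebraMap q.N q.A)) (algebraMap q.M q.N x) =
      (jA.comp (algebraMap q.M q.A)) x := RingHom.congr_fun cN
  have eE : ∀ x, (jA.comp (algebraMap q.E q.A)) (algebraMap q.M q.E x) =
      (jA.comp (algebraMap q.M q.A)) x := RingHom.congr_fun cE
  have eA : ∀ x, jA (algebraMap q.E q.A x) = (jA.comp (algebraMap q.E q.A)) x := fun _ => rfl
  have eL : ∀ x, (jA.comp (algebraMap q.M q.A)) (algebraMap L q.M x) = j x := G.cL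
  have cL : (jA.comp (algebraMap q.M q.A)).comp (algebraMap L q.M) = j := RingHom.ext G.cL
  have gM := gc2 T fun g a => ((G.gM g).1 a).1
  have gE := gc2 T fun g a => ((G.gE g).1 a).1
  have kN : ∀ g, g ∈ GK (jA.comp (algebraMap q.N q.A)) ↔ g ∈ GK (jA.comp (algebraMap q.M q.A)) ∧
      ((ε g).valMinAbs : ℂ) = 1 := fun g => by rw [G.gN, G.gM, sg_one]; tauto
  have kA : ∀ g, g ∈ GK jA ↔ g ∈ GK (jA.comp (algebraMap q.E q.A)) ∧
      ((ε g).valMinAbs : ℂ) = 1 := fun g => by rw [G.gA, G.gE, sg_one]; tauto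
  have uE := fun P (a : Tp.Ab ι J ((jA.comp (algebraMap q.E q.A)).comp (algebraMap K q.E)) P) g
    (hg : g ∈ GK ((jA.comp (algebraMap q.E q.A)).comp (algebraMap q.M q.E))) i =>
      (G.gE g).2 ⟨((G.gM g).1 (cE ▸ hg)).1, un3 W a ((G.gM g).1 (cE ▸ hg)).1 i⟩
  have uA := fun P (a : Tp.Ab ι J (jA.comp (algebraMap K q.A)) P) g
    (hg : g ∈ GK (jA.comp (algebraMap q.N q.A))) i =>
      (G.gA g).2 ⟨((G.gN g).1 hg).1, ((G.gN g).1 hg).2.1, un3 W a ((G.gN g).1 hg).1 i⟩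
  have uM := fun P (a : Tp.Ab ι J ((jA.comp (algebraMap q.M q.A)).comp (algebraMap K q.M)) P) g
    (hg : g ∈ GK ((jA.comp (algebraMap q.M q.A)).comp (algebraMap L q.M))) i =>
      (G.gM g).2 ⟨cL ▸ hg, by rw [un3 W a (cL ▸ hg) i, mul_zero]⟩
  have dN : ∀ (n' : ℕ) (b' : Basis (Fin n') K q.N), Vb ι J b' →
      dv ι J b' = dv ι J b ^ 2 * Tp.cf ι J ψ := fun _ _ v' =>
    ds3 B eN q.d2 gM kN h v v'
  obtain ⟨ψE, hE⟩ := (P004C.Al.icx _ _ _ _ gE).1
  have pE : ψE = fun I => ψ (Ideal.relNorm (𝓞 q.M) I) := funext (P004C.Al.Lf.res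
    eE gM.mul gM.one (fun l P hP ⟨g, a, i, n⟩ => ⟨g ^ 3, (G.gE _).2
      ⟨pow_mem ((G.gM g).1 a).1 3, (Lf.e_pow W ((G.gM g).1 a).1 3).trans ((G.gM g).1 a).2⟩,
      pow_mem (S := P022.H443.inP P) i _, (P004C.Al.Lf.th_pow (θ := fun g => ((ε g).valMinAbs : ℂ))
        gM.mul gM.one a 3).trans_ne (by
          rw [(sq_eq_one_iff.1 (gM.pow g a)).resolve_left n]
          norm_num)⟩) h hE)
  refine ⟨qcx K ι J Ω B _ _ _ _ _ _ eN q.d2 gM kN h,
    pE ▸ qcx K ι J Ω B _ _ _ jA _ _ eA q.d2' gE kA hE, dN,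
    fun _ _ v' => q.d3 ▸ dis _ uE v v', fun _ _ v' => ?_, q.d3 ▸ cf_norm _ uE h.cm, fun κ => ?_⟩
  · obtain ⟨b', v''⟩ := Gx.vb_ex (ι := ι) (J := J) (M := q.N) rfl
    rw [dis jA uA v'' v', q.d3', dN _ _ v'']
  have r := (Lf.rk eL W G.gM).2
  have e1 : n = n₀ * 3 ^ k := by
    rw [← r, ← Fintype.card_fin n, ← Fintype.card_fin n₀, ← finrank_eq_card_basis b,
      ← finrank_eq_card_basis b₀, finrank_mul_finrank]
  rw [dis _ uM v₀ v, funext (Lf.res_s eL W G.gM (gc2 T fun _ a => a) h₀ h), cf_norm _ uM h₀.cm, r,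
    ← mul_pow, e1]
  exact sc_pow Ω (mul_nonneg (norm_nonneg _) (finprod_nonneg fun _ =>
    finprod_nonneg fun _ => norm_nonneg _)) _ _ _

end Vale.Agent.P014Y.C.Al
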