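import Vale.Agent.P014Y.C.Al.St2

/-!
# P014 Y, block AL: row COR
-/

open NumberField Module Ideal IsDedekindDomain
open scoped Classical

set_option linter.all false

noncomputable section

namespace Vale.Agent.P014Y.C.Al

namespace Co

theorem sc_pow {Ω d : ℝ} (h : 0 ≤ d) (n q κ : ℕ) : sc Ω (d ^ q) (n * q) κ = sc Ω d n κ ^ q := by
  have : √(d ^ q) = √d ^ q := by
    rw [Real.sqrt_eq_iff_mul_self_eq (by positivity) (by positivity), ← mul_pow,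
      Real.mul_self_sqrt h]
  rw [sc, sc, this, mul_pow, ← pow_mul, div_pow (d ^ κ), ← pow_mul, ← pow_mul, mul_comm q]

theorem gal3 {M E : Type} [Field M] [NumberField M] [Field E] [NumberField E] [Algebra M E]
    (ω : E ≃ₐ[M] E) (d : finrank M E = 3) (o : orderOf ω = 3) : IsGalois M E :=
  IsGalois.of_card_aut_eq_finrank M E (le_antisymm
    (Nat.card_eq_fintype_card.trans_le AlgEquiv.card_le) (by rw [d, ← o]; exact orderOf_le_card))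

theorem cf_ge {K : Type} [Field K] [NumberField K] (ι : ℂ →+* ℂ_[3]) (J : K →+* ℂ) {M : Type}
    [Field M] [NumberField M] [Algebra K M] (ψ : Ideal (𝓞 M) → ℂ) : 0 ≤ Tp.cf ι J ψ :=
  finprod_nonneg fun _ => finprod_nonneg fun _ => norm_nonneg _

theorem mono {ι : ℂ →+* ℂ_[3]} {B s : ℕ} {σ C C' ε x : ℝ} {θ : ZMod (3 ^ B) → ℂ}
    (h : Mo ι σ θ s C ε x) (c : C ≤ C') : Mo ι σ θ s C' ε x :=
  ⟨fun y => (h.bd y).trans c, h.sm, h.ld⟩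

theorem fin {x : ℝ} {s u a jA jN : ℕ} (e : jA + u ≤ jN + s + a) (x0 : 0 ≤ x)
    (h : 9 * ((1 / 3 : ℝ) ^ jA * 3 ^ s) ≤ 10 * ((1 / 3) ^ jN * 3 ^ u * x)) :
    4 < 5 * (3 ^ a * x) := by
  have k : (3 : ℝ) ^ jA * 3 ^ u ≤ 3 ^ jN * 3 ^ s * 3 ^ a := by
    rw [← pow_add, ← pow_add, ← pow_add]
    exact pow_le_pow_right₀ (by norm_num) e
  have p : (0 : ℝ) < 3 ^ jN * 3 ^ s := by positivity
  have h' : 9 * ((3 : ℝ) ^ jN * 3 ^ s) ≤ 10 * (3 ^ jA * 3 ^ u * x) := by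
    have := mul_le_mul_of_nonneg_left h (by positivity : (0 : ℝ) ≤ 3 ^ jA * 3 ^ jN)
    simp only [one_div, inv_pow] at this
    refine le_of_eq_of_le ?_ (this.trans_eq ?_) <;> field_simp
  have := mul_le_mul_of_nonneg_right k x0
  by_contra c
  nlinarith [mul_le_mul_of_nonneg_left (not_lt.1 c) p.le]

variable {A L : Type} [Field A] [Field L] [Algebra L A] {s B : ℕ}

/-- the characters on the ambient group -/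
def ff (A : Type) [Field A] [Algebra L A] (f : Fin s → L → ZMod (3 ^ B)) (j : ℕ) (x : Aˣ) :
    Multiplicative (Fin s → ZMod (3 ^ j)) :=
  .ofAdd fun i => (f i (Function.invFun (algebraMap L A) x)).cast

theorem ff_ap (f : Fin s → L → ZMod (3 ^ B)) (j : ℕ) (x : Lˣ) (i : Fin s) :
    (ff A f j (Units.map (algebraMap L A : L →* A) x)).toAdd i = (f i x).cast :=
  congrArg (fun y => ((f i y).cast : ZMod (3 ^ j)))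
    (Function.leftInverse_invFun (algebraMap L A).injective (x : L))

end Co

open Co

theorem cor (gbx : GBX) (cpl : CPL) (mjx : MJX) (bup : BUP) (pc : PC) (jm : JM) (pra : PRA)
    (prn : PRN) (cb3 : CB3) (cnt : CNT) : COR := by
  intro K _ _ ι J Ω Bs q jA hy n b ψ η vb Q Q' T dN dE dA cE s hs iM iN Z hZ h h0
  have := gal3 q.ω q.d3 q.o3
  have := gal3 q.ω' q.d3' q.o3'
  obtain ⟨⟨bN, vN⟩, -⟩ := gbx K ι J Ω Bs q.N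
  obtain ⟨⟨bE, vE⟩, -⟩ := gbx K ι J Ω Bs q.E
  obtain ⟨⟨bA, vA⟩, -⟩ := gbx K ι J Ω Bs q.A
  have rE : ∃ w : q.E, w ^ 2 + w + 1 = 0 := q.rt.elim fun w e =>
    ⟨algebraMap q.M q.E w, by simpa using congrArg (algebraMap q.M q.E) e⟩
  obtain ⟨t₁, l₁, C₁, t1, u1, P₁⟩ := prn K ι J Ω Bs q.M q.N q.τ q.d2 q.ne q.rt n b _ bN ψ vb vN Q
    (dN _ _ vN) h h0
  obtain ⟨t₂, l₂, C₂, t2, u2, P₂⟩ := prn K ι J Ω Bs q.E q.A q.τ' q.d2' q.ne' rE _ bE _ bA _ vE vA Q'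
    (by rw [dA _ _ vA, dE _ _ vE, cE]; ring) h h0
  obtain ⟨t₃, t3, H⟩ := cb3 K ι J Ω Bs q.M q.N q.E q.d2 q.d3 q.rt n b ψ η vb Q T s hs iM h h0
  obtain ⟨s₁, c, MJ⟩ := mjx K ι J Ω Bs q.A q.M q.N q.τ q.σ jA q.d2 q.ne q.ct hy
  obtain ⟨d₁, X₁⟩ := cpl K ι J Ω Bs q.M q.N q.τ q.d2 q.ne q.rt
  obtain ⟨d₂, X₂⟩ := cpl K ι J Ω Bs q.E q.A q.τ' q.d2' q.ne' rE
  obtain ⟨ε, ε0, B₃, H⟩ := H s₁ (max C₁ C₂) ((1 / 3) ^ (c + s₁ + Z)) (by positivity)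
  obtain ⟨j₁, P₁⟩ := P₁ s₁ d₁ ε ε0
  obtain ⟨j₂, P₂⟩ := P₂ s₁ d₂ ε ε0
  obtain ⟨j, k1, k2, k3⟩ : ∃ j, j₁ ≤ j ∧ j₂ ≤ j ∧ c + s₁ + Z < j :=
    ⟨j₁ + j₂ + (c + s₁ + Z) + 1, by omega, by omega, by omega⟩
  obtain ⟨c₁, X₁⟩ := X₁ s₁ c j
  obtain ⟨c₂, X₂⟩ := X₂ s₁ c j
  obtain ⟨m₁, P₁⟩ := P₁ j k1 ((1 / 3) ^ (c₁ + c₁ * (d₁ + s₁))) (by positivity)
  obtain ⟨m₂, P₂⟩ := P₂ j k2 ((1 / 3) ^ (c₂ + c₂ * (d₂ + s₁))) (by positivity)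
  obtain ⟨a, a1, a2⟩ : ∃ a, c₁ + c₁ * (d₁ + s₁) + j ≤ a ∧ c₂ + c₂ * (d₂ + s₁) + j ≤ a :=
    ⟨_, le_max_left _ _, le_max_right _ _⟩
  obtain ⟨m, n1, n2, n3', n4⟩ : ∃ m, m₁ ≤ m ∧ m₂ ≤ m ∧ a ≤ m ∧ 3 ≤ m :=
    ⟨m₁ + m₂ + a + 3, by omega, by omega, by omega, by omega⟩
  obtain ⟨B₁, P₁⟩ := P₁ m n1
  obtain ⟨B₂, P₂⟩ := P₂ m n2
  obtain ⟨B, b1, b2, b3, b4⟩ : ∃ B, B₁ ≤ B ∧ B₂ ≤ B ∧ B₃ ≤ B ∧ m + a ≤ B :=
    ⟨B₁ + B₂ + B₃ + (m + a), by omega, by omega, by omega, by omega⟩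
  obtain ⟨t, t0, e1, e2, e3⟩ : ∃ t : ℕ, t ≠ 0 ∧ t₁ ∣ t ∧ t₂ ∣ t ∧ t₃ ∣ t :=
    ⟨t₁ * t₂ * t₃, by positivity, ⟨t₂ * t₃, by ring⟩, ⟨t₁ * t₃, by ring⟩, dvd_mul_left _ _⟩
  have cs : ∀ (L : Type) [Field L] [NumberField L] {x y : ℕ}, x ∣ y → (x : 𝓞 L) ∣ y :=
    fun L _ _ _ _ k => Nat.cast_dvd_cast k
  have c3 : ∀ (L : Type) [Field L] [NumberField L] {x y : ℕ}, 3 * x ∣ y → (3 * x : 𝓞 L) ∣ y :=
    fun L _ _ _ _ k => by exact_mod_cast cs L k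
  have ne : ∀ (L : Type) [Field L] [NumberField L] {x y : ℕ}, 3 * x ∣ y → y ≠ 0 →
      (3 * x : 𝓞 L) ≠ 0 := fun L _ _ _ _ k y => ne_zero_of_dvd_ne_zero (Nat.cast_ne_zero.2 y) (c3 L k)
  have tM : (t : 𝓞 q.M) ≠ 0 := Nat.cast_ne_zero.2 t0
  have tE : (t : 𝓞 q.E) ≠ 0 := Nat.cast_ne_zero.2 t0
  have v1 := u1.trans e1
  have v2 := u2.trans e2
  obtain ⟨w, Φ, f, bm, iw, MJ⟩ := MJ t tM (m + a) B (by omega) b4
  obtain ⟨bm', iw'⟩ := bup K ι J q.M q.N q.E q.A q.τ q.τ' q.d2 q.d2' q.d3 q.ne q.ct s₁ B (m + a) c t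
    w Φ f bm iw
  rw [map_natCast] at bm'
  obtain ⟨p, Ψ, g₀, g, f', pk⟩ := X₁ t tM ((dvd_mul_right _ _).trans (c3 _ v1)) (m + a) B (by omega)
    b4 w Φ f bm
  obtain ⟨p', Ψ', g₀', g', f'', pk'⟩ := X₂ t tE ((dvd_mul_right _ _).trans (c3 _ v2)) (m + a) B
    (by omega) b4 _ _ _ bm'
  have ex : ∀ (L : Type) [Field L] [NumberField L] [Algebra K L] (r l : ℕ)
      (W : Fin (r + 1) → Ideal (𝓞 L)) Φ φ, 3 * l ∣ t → Aux (t : 𝓞 L) B W Φ φ →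
      (∃ γ : Fin (finrank K L) ⊕ Fin r → L, Gb ι J W m γ) ∧ ∃ R, Rp ι J W m (3 * l) R :=
    fun L _ _ _ r l W Φ φ k X => ((gbx K ι J Ω Bs L).2 r m W (by omega) (fun i => ⟨X.max i, fun y =>
      X.cop i (mem_of_dvd _ ((dvd_mul_right _ _).trans (c3 L k)) y)⟩) X.inj).imp_right fun y =>
        y _ (ne L k t0) (dvd_mul_right _ _)
  obtain rfl : n = finrank K q.M := by rw [finrank_eq_card_basis b, Fintype.card_fin]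
  obtain ⟨⟨γ₁, g1⟩, R₁, r1⟩ := ex _ _ l₁ _ _ _ v1 pk.dn
  obtain ⟨⟨γ₂, g2⟩, R₂, r2⟩ := ex _ _ l₁ _ _ _ v1 (map_natCast (algebraMap (𝓞 q.M) (𝓞 q.N)) t ▸ pk.up)
  obtain ⟨⟨γ₃, g3⟩, R₃, r3⟩ := ex _ _ l₂ _ _ _ v2 pk'.dn
  obtain ⟨⟨γ₄, g4⟩, R₄, r4⟩ := ex _ _ l₂ _ _ _ v2 (map_natCast (algebraMap (𝓞 q.E) (𝓞 q.A)) t ▸ pk'.up)
  have jB : j ≤ B := by omega
  obtain ⟨J0, J1⟩ := MJ j jB (ff q.A f j) (ff_ap f j)
  have mu : Mu (ff q.A f j) (q.Un ι J (m + a)) := by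
    rintro _ ⟨⟨-, x, rfl⟩, -⟩ _ ⟨⟨-, y, rfl⟩, -⟩
    rw [← map_mul]
    funext i
    change (ff q.A f j _).toAdd i = (ff q.A f j _).toAdd i + (ff q.A f j _).toAdd i
    rw [ff_ap, ff_ap, ff_ap, Units.val_mul, bm.loc i _ _ x.ne_zero y.ne_zero]
    exact ZMod.cast_add (pow_dvd_pow 3 jB) _ _
  have w3 : ∀ i, (3 : 𝓞 q.N) ∉ w i := fun i k => bm.sy.cop i (mem_of_dvd _
    ((dvd_mul_right _ _).trans (c3 _ v1)) (by rwa [under_def, mem_comap, map_ofNat]))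
  obtain ⟨J2, J3⟩ := jm K ι J Ω Bs q s hs iM iN s₁ w _ bm.sy.inj
    (fun i => ⟨bm.max i, w3 i, iw i, (iw' i).1⟩) rfl (m + a) (by omega) _ _ mu J0
  have s0 : s ≠ 0 := by rintro rfl; simp at hs
  obtain ⟨N1, N2⟩ := cnt K q.M q.N ψ q.d2 Q.gp
  have N3 := N1 s s0
  have hz := hZ (m + a) (by omega)
  have hz' := (Nat.lt_pow_self (by norm_num : 1 < 3)).le.trans hz
  change v3 (Jx _ _ (q.Un ι J (m + a)) (IM ι J q.σ q.N _)) ≤ c at J1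
  have eW : (fun i => ((w i).map (algebraMap (𝓞 q.N) (𝓞 q.A))).under (𝓞 q.E)) =
      fun i => ((w i).under (𝓞 q.M)).map (algebraMap (𝓞 q.M) (𝓞 q.E)) := funext fun i => (iw' i).2
  obtain ⟨D1, D2⟩ := pra K ι J Ω Bs q.A q.M q.N q.τ q.σ q.d2 q.ne q.ct d₁ s₁ B m a c c₁ j t (3 * l₁)
    w Φ f p Ψ g₀ g f' tM (dvd_mul_right _ _) (c3 _ v1) bm pk (by omega) n3' (by omega) a1 _ _
    (ff_ap f j) rfl J0 (J1.trans_lt (by omega)) _ b _ bN γ₁ R₁ γ₂ R₂ vb vN g1 r1 g2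
    (by rwa [map_mul, map_ofNat, map_natCast])
  obtain ⟨D3, D4⟩ := pra K ι J Ω Bs q.A q.E q.A q.τ' q.σ q.d2' q.ne' (fun _ => rfl) d₂ s₁ B m a c c₂
    j t (3 * l₂) _ _ _ p' Ψ' g₀' g' f'' tE (dvd_mul_right _ _) (c3 _ v2) bm' pk' (by omega) n3'
    (by omega) a2 (ff q.A f j ∘ n3 (ua q.ρ)) (Sw ι J q.A fun i => (w i).under (𝓞 q.M))
    (fun x i => by
      rw [Function.comp, (pc K ι J Ω Bs q.A q.N q.A q.ω' q.ρ q.d3' q.o3' (fun _ => rfl) m).2.1,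
        ff_ap]; rfl)
    (by rw [eW]; simp only [Sw, Ideal.map_map, ← IsScalarTower.algebraMap_eq]) J2
    (lt_of_le_of_lt (by change v3 (Jx _ _ (q.Ua ι J (m + a)) _) ≤ _; omega) k3) _ bE _ bA γ₃ R₃ γ₄
    R₄ vE vA g3 r3 g4 (by rwa [map_mul, map_ofNat, map_natCast])
  refine ⟨_, B, hz, fun e he lam La => ?_⟩
  have M1 := P₁ e B (by omega) b1 lam La t _ _ _ w Φ f p Ψ g₀ g f' (cs _ e1) bm pk _ _ _ _ g1 r1 g2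
    r2 D1 _ D2
  have M2 := P₂ e B (by omega) b2 lam La t _ _ _ _ _ _ p' Ψ' g₀' g' f'' (cs _ e2) bm' pk' _ _ _ _ g3
    r3 g4 r4 D3 _ D4
  rw [eW, dE _ _ vE, cE, ← mul_pow, ← finrank_mul_finrank K q.M q.E, q.d3,
    sc_pow (d := dv ι J b * Tp.cf ι J ψ) (mul_nonneg (norm_nonneg _) (cf_ge ι J ψ))] at M2
  have k := H e B (by omega) b3 lam La t _ Φ _ (cs _ e3) bm.sy
    (fun i => ⟨(iw' i).1, N2 q.τ _ (bm.max i) (bm.ne i)⟩) _ _ _ rfl (mono M1 (le_max_left _ _))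
    (mono M2 (le_max_right _ _)) (pow_le_pow_of_le_one (by norm_num) (by norm_num)
      (by change v3 (Jx _ _ (q.Ua ι J (m + a)) _) ≤ _; omega))
  refine fin ?_ ?_ k
  · change v3 (Jx _ _ (q.Ua ι J (m + a)) _) + _ ≤ v3 (Jx _ _ (q.Un ι J (m + a)) _) + _ + _
    omega
  · rw [mul_mul_mul_comm]
    exact mul_nonneg (mul_self_nonneg _) (by positivity)

end Vale.Agent.P014Y.C.Al
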