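import Vale.Agent.P014Y.Tp.St0

/-!
# P014 Y, block AL: algebra for the dictionary
-/

set_option linter.all false

open PowerSeries
open scoped Classical

noncomputable section

namespace Vale.Agent.P014Y.C.Al.Dc

open Tp (Rb c3)

/-! ### cube roots close to one -/

section val

variable {F : Type} [Field F] [CharZero F] (O : ValuationSubring F) {m : ℕ} {a b c a' b' w : F}

/-- `y ≡ 1` modulo `3 ^ m` -/
def Nr (m : ℕ) (y : F) : Prop := (y - 1) / 3 ^ m ∈ O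

variable {O}

theorem Nr.one : Nr O m 1 := by simp [Nr]

theorem Nr.mul (h : Nr O m a) (k : Nr O m b) : Nr O m (a * b) := by
  have := add_mem (mul_mem h (add_mem (one_mem O) (mul_mem (pow_mem (ofNat_mem O 3) m) k))) k
  rwa [show (a - 1) / 3 ^ m * (1 + 3 ^ m * ((b - 1) / 3 ^ m)) + (b - 1) / 3 ^ m =
    (a * b - 1) / 3 ^ m by field_simp; ring] at this

theorem Nr.uq (h3 : (3 : F)⁻¹ ∉ O) (hm : 1 ≤ m) (h : Nr O m a) (k : Nr O m b) (e : a ^ 3 = b ^ 3) :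
    a = b := by
  have e' : (a - b) * (a ^ 2 + a * b + b ^ 2) = 0 := by linear_combination e
  refine sub_eq_zero.1 ((mul_eq_zero.1 e').resolve_right fun e => h3 ?_)
  obtain ⟨n, rfl⟩ := Nat.exists_eq_add_of_le hm
  unfold Nr at h k
  generalize ha : (a - 1) / 3 ^ (1 + n) = α at h
  generalize hb : (b - 1) / 3 ^ (1 + n) = β at k
  obtain rfl : a = 1 + 3 * 3 ^ n * α := by rw [← ha]; field_simp; ring
  obtain rfl : b = 1 + 3 * 3 ^ n * β := by rw [← hb]; field_simp; ring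
  have t := pow_mem (ofNat_mem O 3) n
  have := neg_mem (add_mem (mul_mem t (add_mem h k)) (mul_mem (mul_mem t t)
    (add_mem (add_mem (mul_mem h h) (mul_mem h k)) (mul_mem k k))))
  rwa [show -((3 : F) ^ n * (α + β) + 3 ^ n * 3 ^ n * (α * α + α * β + β * β)) = 3⁻¹ by
    linear_combination (-1 / 9 : F) * e] at this

theorem Nr.ex (hw : w ^ 2 + w + 1 = 0) (h : Nr O (m + 1) (a ^ 3)) :
    Nr O m a ∨ Nr O m (w * a) ∨ Nr O m (w ^ 2 * a) := by
  by_contra n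
  simp only [not_or] at n
  have z : ∀ {y : F}, ¬ Nr O m y → y - 1 ≠ 0 ∧ O.valuation ((y - 1) / 3 ^ m)⁻¹ < 1 := fun {y} k =>
    ⟨fun e => k (by simp [Nr, e]), by
      rw [map_inv₀]
      exact inv_lt_one_of_one_lt₀ (not_le.1 fun q => k ((O.valuation_le_one_iff _).1 q))⟩
  obtain ⟨a0, a1⟩ := z n.1
  obtain ⟨b0, b1⟩ := z n.2.1
  obtain ⟨c0, c1⟩ := z n.2.2
  have s := O.valuation.map_add_lt (O.valuation.map_add_lt a1 b1) c1
  have t := mul_lt_one_of_nonneg_of_lt_one_right ((O.valuation_le_one_iff _).2 h) zero_le' s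
  have e : a ^ 3 - 1 = (a - 1) * (w * a - 1) * (w ^ 2 * a - 1) := by
    linear_combination ((1 - w) * a ^ 3 + w * a ^ 2 - a) * hw
  have i : ∀ x y z : F, x ≠ 0 → y ≠ 0 → z ≠ 0 → y * z + x * z + x * y = 3 → x * y * z / 3 ^ (m + 1) *
      ((x / 3 ^ m)⁻¹ + (y / 3 ^ m)⁻¹ + (z / 3 ^ m)⁻¹) = 1 := fun x y z _ _ _ q => by
    field_simp
    linear_combination 3 ^ m * q
  rw [← map_mul, e, i _ _ _ a0 b0 c0 (by linear_combination (w * a ^ 2 - 2 * a) * hw), map_one] at t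
  exact lt_irrefl _ t

/-- powers of `w` -/
def ee (w : F) (n : ZMod 3) : F := w ^ n.val

theorem w3 (hw : w ^ 2 + w + 1 = 0) : w ^ 3 = 1 := by linear_combination (w - 1) * hw

theorem ee_add (hw : w ^ 2 + w + 1 = 0) (n n' : ZMod 3) : ee w (n + n') = ee w n * ee w n' := by
  rw [ee, ZMod.val_add, ← pow_eq_pow_mod _ (w3 hw), pow_add, ee, ee]

theorem ee_zero : ee w 0 = 1 := pow_zero w

theorem ex_ee (hw : w ^ 2 + w + 1 = 0) (e : a ^ 3 = b ^ 3) : ∃ n, a = ee w n * b := by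
  have : (a - b) * ((a - w * b) * (a - w ^ 2 * b)) = 0 := by
    linear_combination e + (-(a ^ 2 * b) + w * a * b ^ 2 + (1 - w) * b ^ 3) * hw
  rcases mul_eq_zero.1 this with e | e
  · exact ⟨0, by rw [ee_zero, one_mul, sub_eq_zero.1 e]⟩
  rcases mul_eq_zero.1 e with e | e
  · exact ⟨1, by rw [sub_eq_zero.1 e]; exact congrArg (· * b) (pow_one w).symm⟩
  · exact ⟨2, sub_eq_zero.1 e⟩

/-- the logarithm of `a / b` -/
def lw (w a b : F) : ZMod 3 := if a = b then 0 else if a = w * b then 1 else 2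

theorem lw_zero : lw w a b = 0 ↔ a = b := by
  unfold lw
  split_ifs with p q
  · exact iff_of_true rfl p
  · exact iff_of_false (by decide) p
  · exact iff_of_false (by decide) p

theorem lw_ee (hw : w ^ 2 + w + 1 = 0) (h : b ≠ 0) (n : ZMod 3) : lw w (ee w n * b) b = n := by
  have w1 : w ≠ 1 := fun e => by rw [e] at hw; norm_num at hw
  have w0 : w ≠ 0 := fun e => by rw [e] at hw; norm_num at hw
  have w2 : w ^ 2 ≠ 1 := fun e => w1 (by rw [← w3 hw, pow_succ, e, one_mul])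
  have : ∀ n : ZMod 3, n = 0 ∨ n = 1 ∨ n = 2 := by decide
  rcases this n with rfl | rfl | rfl
  · rw [lw_zero, ee_zero, one_mul]
  · rw [show ee w 1 = w from pow_one w, lw, if_neg fun e => w1 ((mul_eq_right₀ h).1 e), if_pos rfl]
  · rw [show ee w 2 = w ^ 2 from rfl, lw, if_neg fun e => w2 ((mul_eq_right₀ h).1 e),
      if_neg fun e => w1 (by simpa [sq, w0, h] using e)]

theorem lw_mul (hw : w ^ 2 + w + 1 = 0) (e : a ^ 3 = b ^ 3) (e' : a' ^ 3 = b' ^ 3) (h : b ≠ 0)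
    (h' : b' ≠ 0) : lw w (a * a') (b * b') = lw w a b + lw w a' b' := by
  obtain ⟨n, rfl⟩ := ex_ee hw e
  obtain ⟨n', rfl⟩ := ex_ee hw e'
  rw [mul_mul_mul_comm, ← ee_add hw, lw_ee hw h, lw_ee hw h', lw_ee hw (mul_ne_zero h h')]

theorem lw_tr (hw : w ^ 2 + w + 1 = 0) (e : a ^ 3 = b ^ 3) (e' : b ^ 3 = c ^ 3) (h : c ≠ 0) :
    lw w a c = lw w b c + lw w a b := by
  have b0 : b ≠ 0 := fun z => pow_ne_zero 3 h (by rw [← e', z, zero_pow three_ne_zero])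
  obtain ⟨n, rfl⟩ := ex_ee hw e
  rw [lw_ee hw b0]
  obtain ⟨n', rfl⟩ := ex_ee hw e'
  rw [← mul_assoc, ← ee_add hw, lw_ee hw h, lw_ee hw h, add_comm]

end val

/-! ### the group ring -/

/-- the generator -/
abbrev tt (N : ℕ) : Rb N := Ideal.Quotient.mk _ (1 + X)

theorem tt_pow (k : ℕ) : tt (3 * 3 ^ k) ^ (3 * 3 ^ k) = 1 := by
  haveI : CharP (PowerSeries (ZMod 3)) 3 := charP_of_injective_ringHom C_injective 3
  haveI : Fact (Nat.Prime 3) := ⟨Nat.prime_three⟩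
  rw [← map_pow, ← pow_succ', add_pow_char_pow, one_pow, map_add, map_one, add_eq_left, pow_succ']
  exact Ideal.Quotient.eq_zero_iff_mem.2 (Ideal.mem_span_singleton_self _)

theorem tt_add {k : ℕ} (a b : ZMod (3 * 3 ^ k)) :
    tt (3 * 3 ^ k) ^ (a + b).val = tt _ ^ a.val * tt _ ^ b.val := by
  rw [ZMod.val_add, ← pow_add]
  exact (pow_eq_pow_mod _ (tt_pow k)).symm

theorem ex_fun (k : ℕ) : ∃ f : Rb (3 * 3 ^ k) →+ ZMod 3, ∀ (c : ZMod 3) (n : ZMod (3 * 3 ^ k)),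
    f (c3 _ c * tt _ ^ n.val) = if n = 0 then c else 0 := by
  obtain ⟨N, hN⟩ : ∃ N, 3 * 3 ^ k = N + 1 := Nat.exists_eq_succ_of_ne_zero (by positivity)
  have v : (-1 : ZMod (3 * 3 ^ k)).val = N := by rw [hN]; exact ZMod.val_neg_one N
  let f : Rb (3 * 3 ^ k) →+ ZMod 3 := QuotientAddGroup.lift
    (Ideal.span {(X : PowerSeries (ZMod 3)) ^ (3 * 3 ^ k)}).toAddSubgroup
    (coeff N).toAddMonoidHom fun x hx =>
      X_pow_dvd_iff.1 (Ideal.mem_span_singleton.1 hx) N (by omega)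
  refine ⟨f.comp (AddMonoidHom.mulLeft (tt _ ^ (-1 : ZMod (3 * 3 ^ k)).val)), fun c n => ?_⟩
  have e : f (c3 _ c * tt _ ^ (-1 + n).val) = c * ((-1 + n).val.choose N : ZMod 3) := by
    rw [← map_pow, c3, RingHom.comp_apply, ← map_mul]
    refine (coeff_C_mul _ _ _).trans (congrArg _ ?_)
    rw [← Polynomial.coeff_one_add_X_pow, ← Polynomial.coeff_coe]
    simp
  rw [AddMonoidHom.comp_apply, AddMonoidHom.coe_mulLeft, mul_left_comm, ← tt_add, e]
  split_ifs with h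
  · rw [h, add_zero, v, Nat.choose_self, Nat.cast_one, mul_one]
  · rw [Nat.choose_eq_zero_of_lt, Nat.cast_zero, mul_zero]
    exact (Nat.lt_succ_iff.1 ((ZMod.val_lt _).trans_eq hN)).lt_of_ne fun z =>
      h (add_eq_left.1 (ZMod.val_injective _ (z.trans v.symm)))

/-! ### sums over the layer -/

variable {G R A : Type} [Group G] [CommRing R] [AddCommGroup A] [Fintype A] {Γ : Subgroup G}
  {ε : G → ZMod 3} {e : G → A} {c : ZMod 3 →+* R} {t : A → R} {a : G → R} {γ : A → G}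

/-- the group data -/
structure Gr (Γ : Subgroup G) (c : ZMod 3 →+* R) (t : A → R) (ε : G → ZMod 3) (e : G → A)
    (a : G → R) (γ : A → G) : Prop where
  ta : ∀ a b, t (a + b) = t a * t b
  fn : ∃ f : R →+ ZMod 3, ∀ x n, f (c x * t n) = if n = 0 then x else 0
  eq : ∀ g, a g = c (ε g) * t (e g)
  mul : ∀ g ∈ Γ, ∀ h ∈ Γ, ε (g * h) = ε g * ε h
  ne : ∀ g ∈ Γ, ε g ≠ 0
  add : ∀ g ∈ Γ, ∀ h ∈ Γ, e (g * h) = e g + e h
  mem : ∀ n, γ n ∈ Γ
  sec : ∀ n, e (γ n) = n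

/-- the sum -/
def sm (c : ZMod 3 →+* R) (a : G → R) (γ : A → G) (z : G → ZMod 3) : R :=
  ∑ n, c (z (γ n)) * a (γ n)

/-- functions of type `ε` -/
def Ty (Γ : Subgroup G) (ε : G → ZMod 3) (e : G → A) (z : G → ZMod 3) : Prop :=
  ∀ σ ∈ Γ, ∀ h ∈ Γ, e h = 0 → z (σ * h) * ε h = z σ

namespace Gr

variable (r : Gr Γ c t ε e a γ) {g h σ σ' : G} {z z' z'' : G → ZMod 3}
include r

theorem e1 : e 1 = 0 := by simpa using r.add 1 (one_mem _) 1 (one_mem _)

theorem o1 : ε 1 = 1 := by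
  simpa [r.ne 1 (one_mem _)] using r.mul 1 (one_mem _) 1 (one_mem _)

theorem einv (hg : g ∈ Γ) : e g⁻¹ = -e g :=
  eq_neg_of_add_eq_zero_left (by rw [← r.add _ (inv_mem hg) _ hg, inv_mul_cancel, r.e1])

theorem amul (hg : g ∈ Γ) (hh : h ∈ Γ) : a (g * h) = a g * a h := by
  rw [r.eq, r.eq, r.eq, r.add g hg h hh, r.ta, r.mul g hg h hh, map_mul, mul_mul_mul_comm]

theorem sm_add (hz : ∀ σ ∈ Γ, z σ = z' σ + z'' σ) : sm c a γ z = sm c a γ z' + sm c a γ z'' := by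
  rw [sm, sm, sm, ← Finset.sum_add_distrib]
  exact Finset.sum_congr rfl fun n _ => by rw [hz _ (r.mem n), map_add, add_mul]

theorem sm_congr (hz : ∀ σ ∈ Γ, z σ = z' σ) : sm c a γ z = sm c a γ z' :=
  Finset.sum_congr rfl fun n _ => by rw [hz _ (r.mem n)]

theorem sm_zero (hz : ∀ σ ∈ Γ, z σ = 0) : sm c a γ z = 0 :=
  Finset.sum_eq_zero fun n _ => by rw [hz _ (r.mem n), map_zero, zero_mul]

theorem ty (hz : Ty Γ ε e z) (hσ : σ ∈ Γ) (hσ' : σ' ∈ Γ) (q : e σ = e σ') :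
    z σ' * ε σ' = z σ * ε σ := by
  have m := mul_mem (inv_mem hσ) hσ'
  have p := hz σ hσ _ m (by rw [r.add _ (inv_mem hσ) _ hσ', r.einv hσ, q, neg_add_cancel])
  have p' := r.mul σ hσ _ m
  rw [mul_inv_cancel_left] at p p'
  rw [← p, p']
  ring

theorem sh (hz : Ty Γ ε e z) (hg : g ∈ Γ) :
    sm c a γ (fun σ => z (g⁻¹ * σ)) = a g * sm c a γ z := by
  rw [sm, sm, Finset.mul_sum, ← Equiv.sum_comp (Equiv.addLeft (e g))]
  refine Finset.sum_congr rfl fun n _ => ?_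
  have m := mul_mem (inv_mem hg) (r.mem (e g + n))
  have q : e (γ n) = e (g⁻¹ * γ (e g + n)) := by
    rw [r.add _ (inv_mem hg) _ (r.mem _), r.einv hg, r.sec, r.sec, neg_add_cancel_left]
  have p := r.amul hg m
  rw [mul_inv_cancel_left] at p
  rw [Equiv.coe_addLeft, p, mul_left_comm, r.eq (_ * _), r.eq (γ n), ← q, ← mul_assoc (c _),
    ← mul_assoc (c _), ← map_mul, ← map_mul, r.ty hz (r.mem n) m q]

theorem inj (hz : Ty Γ ε e z) (h0 : sm c a γ z = 0) : z 1 = 0 := by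
  obtain ⟨f, hf⟩ := r.fn
  have := congrArg f h0
  simp only [sm, map_sum, r.eq, ← mul_assoc, ← map_mul, hf, r.sec, Finset.sum_ite_eq',
    Finset.mem_univ, if_true, map_zero] at this
  rwa [r.ty hz (one_mem _) (r.mem 0) (by rw [r.e1, r.sec]), r.o1, mul_one] at this

end Gr

end Vale.Agent.P014Y.C.Al.Dc
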