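import Vale.Agent.P014Y.C.Al.Amb
import Vale.Agent.P014Y.C.Al.Gb0
import Vale.Agent.P014Y.C.Al.Dcz
import Vale.Agent.P004C.Al.Dic

/-!
# P014 Y, block AL: the dictionary between units modulo cubes and cocycles with trivialisations
-/

set_option linter.all false

open NumberField
open scoped Classical Pointwise

noncomputable section

namespace Vale.Agent.P014Y.C.Al

open Vale.Agent.P022 (Qb GQ GK below)
open Vale.Agent.P022.H916 (isOpen_GK fixed exists_smul)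
open Vale.Agent.P027M.S (Pr Inert)
open Vale.Agent.P022D.W (dec)
open Vale.Agent.P022E.GW (Ov)
open Vale.Agent.P022K.G2 (In)
open Vale.Agent.P022K.GW.Pl (mem_smul inert_conj core_open dn cpt)
open Vale.Agent.P022K.Exi
open Vale.Agent.P004C.Al.Dc (Lo ex_O)
open Tp (Rb c3 Zq Ab Lw Ts ax)

namespace Dc

variable {P : Ideal (𝓞 Qb)} {O : ValuationSubring Qb} {l m : ℕ} {g h σ d : GQ} {u v w : Qb}
  {Γ₀ Γ : Subgroup GQ}

theorem third (o : Lo P O) (h : Ov 3 P) : (3 : Qb)⁻¹ ∉ O := fun k => by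
  obtain ⟨s, t, a, b⟩ := (o _).1 k
  refine a ((show ((3 : ℕ) : 𝓞 Qb) * t = s from RingOfIntegers.ext ?_) ▸ P.mul_mem_right t h.2.2)
  change (3 : Qb) * t = s
  rw [← b, mul_comm, inv_mul_cancel_right₀ three_ne_zero]

theorem lo_nr (o : Lo P O) (hg : g ∈ dec P) (k : Nr O m u) : Nr O m (g u) := by
  obtain ⟨s, t, a, b⟩ := (o _).1 k
  refine (o _).2 ⟨g • s, g • t, fun c => a ((hg s).1 c), ?_⟩
  have := congrArg g b
  simp only [map_mul, map_div₀, map_sub, map_one, map_pow, map_ofNat] at this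
  exact this

/-- the cube root which is close to one -/
def rt (O : ValuationSubring Qb) (m : ℕ) (u : Qb) : Qb :=
  if h : ∃ y, y ^ 3 = u ∧ Nr O m y then h.choose else 0

theorem rt_spec (hw : w ^ 2 + w + 1 = 0) (k : Nr O (m + 1) u) :
    rt O m u ^ 3 = u ∧ Nr O m (rt O m u) := by
  have : ∃ y, y ^ 3 = u ∧ Nr O m y := by
    obtain ⟨y, rfl⟩ := ex_root 3 u
    rcases k.ex hw with a | a | a
    · exact ⟨y, rfl, a⟩
    · exact ⟨_, by rw [mul_pow, w3 hw, one_mul], a⟩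
    · exact ⟨_, by rw [mul_pow, ← pow_mul, mul_comm 2, pow_mul, w3 hw, one_pow, one_mul], a⟩
  rw [rt, dif_pos this]
  exact this.choose_spec

/-- the Kummer symbols -/
def zs (w : Qb) (O : ValuationSubring Qb) (m : ℕ) (u : Qb) (g σ : GQ) : ZMod 3 :=
  lw w (g (rt O m ((g⁻¹ * σ) u))) (rt O m (σ u))

/-- admissible elements -/
structure Ok (w : Qb) (O : ValuationSubring Qb) (m : ℕ) (Γ : Subgroup GQ) (u : Qb) : Prop where
  third : (3 : Qb)⁻¹ ∉ O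
  le : 1 ≤ m
  hw : w ^ 2 + w + 1 = 0
  ne : u ≠ 0
  nr : ∀ σ ∈ Γ, Nr O (m + 1) (σ u)

theorem zs_rt (e : d (rt O m ((d⁻¹ * (g⁻¹ * σ)) u)) = rt O m ((g⁻¹ * σ) u)) :
    zs w O m u (g * d) σ = zs w O m u g σ := by
  rw [zs, _root_.mul_inv_rev, mul_assoc, AlgEquiv.mul_apply g, e, zs]

theorem zs_sh (g σ h : GQ) : zs w O m u g (σ * h) = zs w O m (h u) g σ := by
  simp only [zs, ← mul_assoc, AlgEquiv.mul_apply _ h]

namespace Ok

variable (k : Ok w O m Γ₀ u)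
include k

theorem cb (hσ : σ ∈ Γ₀) : rt O m (σ u) ^ 3 = σ u := (rt_spec k.hw (k.nr σ hσ)).1

theorem near (hσ : σ ∈ Γ₀) : Nr O m (rt O m (σ u)) := (rt_spec k.hw (k.nr σ hσ)).2

theorem ne0 (hσ : σ ∈ Γ₀) : rt O m (σ u) ≠ 0 := fun e =>
  (map_ne_zero σ).2 k.ne (by rw [← k.cb hσ, e, zero_pow three_ne_zero])

theorem cb' (hg : g ∈ Γ₀) (hσ : σ ∈ Γ₀) :
    g (rt O m ((g⁻¹ * σ) u)) ^ 3 = rt O m (σ u) ^ 3 := by
  rw [← map_pow, k.cb (mul_mem (inv_mem hg) hσ), ← AlgEquiv.mul_apply, mul_inv_cancel_left, k.cb hσ]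

theorem act (hh : h ∈ Γ₀) : Ok w O m Γ₀ (h u) :=
  ⟨k.third, k.le, k.hw, (map_ne_zero h).2 k.ne, fun σ hσ => k.nr _ (mul_mem hσ hh)⟩

theorem coc (hh : h ∈ Γ₀) (e : h w = w) (hg : g ∈ Γ₀) (hσ : σ ∈ Γ₀) :
    zs w O m u (h * g) σ = zs w O m u h σ + zs w O m u g (h⁻¹ * σ) := by
  have a := k.cb' hg (mul_mem (inv_mem hh) hσ)
  rw [zs, _root_.mul_inv_rev, mul_assoc, AlgEquiv.mul_apply,
    lw_tr k.hw (by rw [← map_pow, a, map_pow]) (k.cb' hh hσ) (k.ne0 hσ)]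
  refine congrArg _ ?_
  rw [zs, lw, lw, ← e, ← map_mul, e]
  simp only [EmbeddingLike.apply_eq_iff_eq]

theorem rt_mul (k' : Ok w O m Γ₀ v) (k'' : Ok w O m Γ₀ (u * v)) (hσ : σ ∈ Γ₀) :
    rt O m (σ (u * v)) = rt O m (σ u) * rt O m (σ v) :=
  (k''.near hσ).uq k.third k.le ((k.near hσ).mul (k'.near hσ)) (by
    rw [mul_pow, k.cb hσ, k'.cb hσ, k''.cb hσ, map_mul])

theorem mul (k' : Ok w O m Γ₀ v) (k'' : Ok w O m Γ₀ (u * v)) (hg : g ∈ Γ₀) (hσ : σ ∈ Γ₀) :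
    zs w O m (u * v) g σ = zs w O m u g σ + zs w O m v g σ := by
  rw [zs, k.rt_mul k' k'' hσ, k.rt_mul k' k'' (mul_mem (inv_mem hg) hσ), map_mul,
    lw_mul k.hw (k.cb' hg hσ) (k'.cb' hg hσ) (k.ne0 hσ) (k'.ne0 hσ), zs, zs]

theorem one : Ok w O m Γ₀ 1 :=
  ⟨k.third, k.le, k.hw, one_ne_zero, fun σ _ => by rw [map_one]; exact Nr.one⟩

theorem rt_one : rt O m 1 = 1 :=
  (k.one.near (one_mem _)).uq k.third k.le Nr.one (by rw [one_pow]; exact k.one.cb (one_mem _))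

theorem neg (hh : h ∈ Γ₀) (e : u * h u = 1) (hg : g ∈ Γ₀) (hσ : σ ∈ Γ₀) :
    zs w O m (h u) g σ = -zs w O m u g σ := by
  refine eq_neg_of_add_eq_zero_right ?_
  rw [← k.mul (k.act hh) (e ▸ k.one) hg hσ, e, zs, lw_zero, map_one, map_one, k.rt_one, map_one]

theorem fix (hσ : σ ∈ Γ₀) (b : ∀ y, y ^ 3 = u → (σ⁻¹ * g * σ) y = y) :
    g (rt O m ((g⁻¹ * σ) u)) = rt O m (σ u) := by
  have a : (σ⁻¹ * g * σ)⁻¹ u = u := by
    obtain ⟨y, rfl⟩ := ex_root 3 u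
    rw [map_pow, show (σ⁻¹ * g * σ)⁻¹ y = y from (AlgEquiv.symm_apply_eq _).2 (b y rfl).symm]
  have := b (σ⁻¹ (rt O m (σ u))) (by rw [← map_pow, k.cb hσ]; exact σ.symm_apply_apply u)
  rw [← AlgEquiv.mul_apply, mul_inv_cancel_right, AlgEquiv.mul_apply] at this
  rw [show g⁻¹ * σ = σ * (σ⁻¹ * g * σ)⁻¹ by group, AlgEquiv.mul_apply, a, σ⁻¹.injective this]

end Ok

section

variable {R A : Type} [CommRing R] [AddCommGroup A] [Fintype A] {ε : GQ → ZMod 3} {e : GQ → A}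
  {c : ZMod 3 →+* R} {t : A → R} {a : GQ → R} {γ : A → GQ} {T : Finset ℕ}

/-- elements of type `ε` -/
def Mi (Γ : Subgroup GQ) (ε : GQ → ZMod 3) (e : GQ → A) (u : Qb) : Prop :=
  ∀ h ∈ Γ, e h = 0 → (ε h = 1 → h u = u) ∧ (ε h ≠ 1 → u * h u = 1)

/-- the cocycle -/
def co (w : Qb) (O : ValuationSubring Qb) (m : ℕ) (Γ₀ : Subgroup GQ) (c : ZMod 3 →+* R) (a : GQ → R)
    (γ : A → GQ) (u : Qb) (g : GQ) : R := if g ∈ Γ₀ then sm c a γ (zs w O m u g) else 0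

theorem ty (r : Gr Γ c t ε e a γ) (le : Γ ≤ Γ₀) (k : Ok w O m Γ₀ u) (mi : Mi Γ ε e u)
    (hg : g ∈ Γ₀) : Ty Γ ε e (zs w O m u g) := fun σ hσ h hh z => by
  rw [zs_sh]
  by_cases q : ε h = 1
  · rw [(mi h hh z).1 q, q, mul_one]
  · have : ∀ x : ZMod 3, x ≠ 0 → x ≠ 1 → x = -1 := by decide
    rw [k.neg (le hh) ((mi h hh z).2 q) hg (le hσ), this _ (r.ne h hh) q, neg_mul_neg, mul_one]

theorem co_zq (r : Gr Γ c t ε e a γ) (le : Γ ≤ Γ₀) (k : Ok w O m Γ₀ u) (mi : Mi Γ ε e u)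
    (o : Lo P O) (op : IsOpen (Γ₀ : Set GQ)) (fw : ∀ h ∈ Γ, h w = w)
    (ur : ∀ g ∈ Γ, g ∈ In T → ∀ y, y ^ 3 = u → g y = y) :
    Zq Γ₀ Γ T a P (co w O m Γ₀ c a γ u) := by
  obtain ⟨y, hy⟩ := ex_root 3 u
  refine ⟨fun h hh g hg => ?_, fun g hg => if_neg hg,
    ⟨_, core_open (W := Γ₀ ⊓ MulAction.stabilizer GQ y ⊓ MulAction.stabilizer GQ w)
      ((op.inter (P022E.GW.Kc.stab_open y)).inter (P022E.GW.Kc.stab_open w)), fun g x hx => ?_⟩,
    fun g hg m => ?_, fun g hg d hd m => ?_⟩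
  · simp only [co, if_pos hg, if_pos (le hh), if_pos (mul_mem (le hh) hg)]
    rw [r.sm_add fun σ hσ => k.coc (le hh) (fw h hh) hg (le hσ), r.sh (ty r le k mi hg) hh]
  · have x0 : x ∈ Γ₀ := (Subgroup.normalCore_le _ hx).1.1
    by_cases hg : g ∈ Γ₀
    · simp only [co, if_pos hg, if_pos (mul_mem hg x0)]
      refine r.sm_congr fun σ hσ => zs_rt (k.fix (mul_mem (inv_mem hg) (le hσ)) fun z hz => ?_)
      have := hx (g⁻¹ * σ)⁻¹
      rw [inv_inv] at this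
      obtain ⟨n, rfl⟩ := ex_ee k.hw (hz.trans hy.symm)
      rw [map_mul, ee, map_pow]
      exact congrArg₂ (· ^ n.val * ·) this.2 this.1.2
    · simp only [co, if_neg hg, if_neg fun q => hg ((Γ₀.mul_mem_cancel_right x0).1 q)]
  · rw [co, if_pos (le m)]
    refine r.sm_zero fun σ hσ => lw_zero.2 (k.fix (le hσ) ?_)
    obtain ⟨l, h1, Q, h2, h3⟩ := hg
    exact ur _ (mul_mem (mul_mem (inv_mem hσ) m) hσ) ⟨l, h1, σ⁻¹ • Q, P022K.GW.ov_smul h2 _, by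
      simpa using inert_conj h3 σ⁻¹⟩
  · simp only [co, if_pos hg, if_pos (mul_mem hg m)]
    refine r.sm_congr fun σ hσ => zs_rt ?_
    have q := mul_mem (inv_mem hg) (le hσ)
    exact (lo_nr o hd (k.near (mul_mem (inv_mem m) q))).uq k.third k.le (k.near q) (k.cb' m q)

end

variable {K A : Type} [Field K] [NumberField K] [Field A] [NumberField A] [Algebra K A]
  {ι : ℂ →+* ℂ_[3]} {J : K →+* ℂ} {j : K →+* Qb} {jA : A →+* Qb}

theorem vi_iff (hj : ∀ x, jA (algebraMap K A x) = j x) (hP : Ab ι J j P) (o : Lo P O) (u : A) :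
    Vi ι J u ↔ ∀ g ∈ GK j, g (jA u) ∈ O := by
  have nv : ∀ s : 𝓞 K, s ∉ below j P ↔ ‖ι (J s)‖ = 1 := fun s => (hP.2 s).not.trans Gx.not_vv
  refine ⟨fun ⟨s, a, b⟩ g hg => (o _).2 ⟨RingOfIntegers.mapRingHom j s,
    g • RingOfIntegers.mapRingHom jA ⟨_, b⟩, (nv s).2 a, ?_⟩, fun h => by_contra fun k => ?_⟩
  · change j s * _ = g (jA (_ * _))
    rw [map_mul, map_mul, hj, hg]
  let _ := (RingOfIntegers.mapRingHom j).toAlgebra
  have : Algebra.IsIntegral (𝓞 K) (𝓞 Qb) := Algebra.IsIntegral.tower_top ℤ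
  have := P022.H20.below_prime j hP.1.2.1
  let D : Ideal (𝓞 Qb) :=
    { carrier := {a | IsIntegral ℤ ((a : Qb) * jA u)}
      add_mem' := fun {a b} x y => by simpa [add_mul] using IsIntegral.add x y
      zero_mem' := by simpa using isIntegral_zero
      smul_mem' := fun a b x => by
        have := a.isIntegral_coe.mul x
        rw [← mul_assoc] at this
        exact this }
  obtain ⟨Q, a, b, c⟩ := Ideal.exists_ideal_over_prime_of_isIntegral (below j P) D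
    fun s hs => by_contra fun n => k ⟨s, (nv s).1 n, (isIntegral_algHom_iff jA.toIntAlgHom
      jA.injective).1 (by
        change IsIntegral ℤ (jA (_ * _))
        rw [map_mul, hj]; exact hs)⟩
  obtain ⟨g, rfl⟩ := exists_smul j b hP.1.2.1 c
  obtain ⟨s, t, x, y⟩ := (o _).1 (h g g.2)
  refine x ((mem_smul _ _ _).2 (a ?_))
  have := congrArg (g.1⁻¹ : GQ) y
  rw [map_mul, show (g.1⁻¹ : GQ) (g.1 (jA u)) = _ from g.1.symm_apply_apply _] at this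
  change IsIntegral ℤ ((g.1⁻¹ : GQ) s * jA u)
  exact this ▸ (g.1⁻¹ • t).isIntegral_coe

theorem um_iff (hj : ∀ x, jA (algebraMap K A x) = j x) (hP : Ab ι J j P) (o : Lo P O) (hm : 1 ≤ m)
    (x : Aˣ) : x ∈ Um ι J A m ↔ ∀ g ∈ GK j, Nr O m (g (jA x)) := by
  have : x ∈ Um ι J A m ↔ V1 ι J m (x : A) :=
    ⟨fun h => Subgroup.closure_induction (p := fun (x : Aˣ) _ => V1 ι J m (x : A)) (fun _ => id)
      Gx.v1_one (fun _ _ _ _ => Gx.v1_mul) (fun x _ k => by simpa using Gx.v1_inv hm k) h,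
      fun h => Subgroup.subset_closure h⟩
  simp only [this, V1, vi_iff hj hP o, Nr, map_div₀, map_sub, map_one, map_pow, map_ofNat]

/-- order divisible by three: the cube roots are fixed by inertia -/
theorem unr {S : Set (Pr A)} {x : Aˣ} {I : Subgroup (Dv A)} (hx : dd S x ∈ cb I)
    (hw : w ^ 2 + w + 1 = 0) (fw : ∀ g ∈ GK jA, g w = w) (ho : Ov l P) (h3 : l ≠ 3)
    (hS : dn jA l P ho ∉ S) (hg : g ∈ GK jA) (i : Inert P g) (y : Qb) (hy : y ^ 3 = jA x) :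
    g y = y := by
  obtain ⟨f, -, e⟩ := hx
  obtain ⟨π, hπ⟩ := ex_ord {dn jA l P ho} fun v => (f v).toAdd
  have e1 : f (dn jA l P ho) ^ 3 = od (dn jA l P ho) x := by
    simpa [dd, pj, hS] using congrFun e (dn jA l P ho)
  haveI : Fact (Nat.Prime 3) := ⟨Nat.prime_three⟩
  have z : IsPrimitiveRoot w 3 := (orderOf_eq_prime (w3 hw) fun e => by
    rw [e] at hw; norm_num at hw) ▸ IsPrimitiveRoot.orderOf w
  have hz : ∀ g : GK jA, g.1 w = w := fun g => fw g g.2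
  have := ka_unr z hz ho (fun d => h3 ((Nat.prime_dvd_prime_iff_eq ho.1 Nat.prime_three).1 d)) rfl
    (b := x * π⁻¹ ^ 3) (g := ⟨g, hg⟩) (by
      rw [map_mul, map_pow, map_inv, hπ _ (Finset.mem_singleton_self _), ← e1]; simp) i
  rw [map_mul, ka_pow, mul_one] at this
  exact (ka_one z hz hy).1 this

end Dc

open Dc in
/-- **the dictionary** -/
theorem dic0 {K M A : Type} [Field K] [NumberField K] [Field M] [NumberField M] [Field A]
    [NumberField A] [Algebra K M] [Algebra K A] {ι : ℂ →+* ℂ_[3]} {J : K →+* ℂ} {j : K →+* Qb}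
    {jM : M →+* Qb} {jA : A →+* Qb} {P : Ideal (𝓞 Qb)} {ε : GQ → ZMod 3} {c k : ℕ}
    {e : GQ → ZMod (3 * 3 ^ k)} {S : Finset ℕ} {s : 𝓞 K} (hM : ∀ x, jM (algebraMap K M x) = j x)
    (hj : ∀ x, jA (algebraMap K A x) = j x) (hP : Ab ι J j P) (hw : ∃ w : M, w ^ 2 + w + 1 = 0)
    (hL : Lw jM c k e) (hT : Ts ι J jM ε c k e S s)
    (hA : ∀ g, g ∈ GK jA ↔ g ∈ GK jM ∧ ε g = 1 ∧ e g = 0) {m : ℕ} (hm : 1 ≤ m) :
    ∃ κ : Aˣ → {F // Zq (GK j) (GK jM) (S ∪ c.primeFactors)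
      (ax (3 * 3 ^ k) ε fun g => (e g).val) P F},
      ∀ x ∈ Um ι J A (m + 1), ∀ y ∈ Um ι J A (m + 1),
        (∀ h ∈ GK jM, e h = 0 → ε h ≠ 1 → jA x * h (jA x) = 1) →
        (∀ h ∈ GK jM, e h = 0 → ε h ≠ 1 → jA y * h (jA y) = 1) →
        ∀ I I' : Subgroup (Dv A), dd (Ss ι J A s) x ∈ cb I → dd (Ss ι J A s) y ∈ cb I' →
        κ x = κ y → ∃ z ∈ Um ι J A m, z ^ 3 = x / y ∧
          ∀ h ∈ GK jM, e h = 0 → ε h ≠ 1 → jA z * h (jA z) = 1 := by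
  obtain ⟨O, o⟩ := ex_O hP.1
  obtain ⟨w, hw⟩ := hw
  replace hw : jM w ^ 2 + jM w + 1 = 0 := by simpa using congrArg jM hw
  have um := fun n a => um_iff (m := n) hj hP o a
  have le : GK jM ≤ GK j := fun g hg x => by rw [← hM, hg]
  obtain ⟨t, ht, t1⟩ : ∃ t ∈ GK jM, e t = 1 := by
    obtain ⟨l, hl, d⟩ := Nat.exists_prime_and_dvd hL.one.ne'
    obtain ⟨Q, q⟩ := P022K.GW.Pl.ex_ov hl
    obtain ⟨t, a, -, b⟩ := hL.ram l Q q d
    exact ⟨t, a, b⟩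
  have e1 : e 1 = 0 := by simpa using hL.add 1 (one_mem _) 1 (one_mem _)
  have tp : ∀ n : ℕ, e (t ^ n) = n := fun n => by
    induction n with
    | zero => simpa using e1
    | succ n ih => rw [pow_succ, hL.add _ (pow_mem ht n) t ht, ih, t1, Nat.cast_succ]
  have r : Gr (GK jM) (c3 (3 * 3 ^ k)) (fun n => tt (3 * 3 ^ k) ^ n.val) ε e
      (ax (3 * 3 ^ k) ε fun g => (e g).val) fun n => t ^ n.val :=
    ⟨tt_add, (ex_fun k).imp fun f h x n => (h x n).trans (by split_ifs <;> rfl),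
      fun g => by rw [ax, map_mul, map_pow]; rfl, hT.mul, hT.ne, hL.add, fun n => pow_mem ht _,
      fun n => by rw [tp, ZMod.natCast_zmod_val]⟩
  have ok : ∀ x ∈ Um ι J A (m + 1), Ok (jM w) O m (GK j) (jA x) := fun x hx =>
    ⟨third o hP.1, hm, hw, (map_ne_zero jA).2 x.ne_zero, (um _ (by omega) x).1 hx⟩
  have mi : ∀ x : Aˣ, (∀ h ∈ GK jM, e h = 0 → ε h ≠ 1 → jA x * h (jA x) = 1) →
      Mi (GK jM) ε e (jA x) := fun x a h hh z => ⟨fun q => (hA h).2 ⟨hh, q, z⟩ _, a h hh z⟩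
  let X : Aˣ → GQ → Rb (3 * 3 ^ k) := fun x => co (jM w) O m (GK j) (c3 _)
    (ax (3 * 3 ^ k) ε fun g => (e g).val) (fun n : ZMod (3 * 3 ^ k) => t ^ n.val) (jA x)
  have mem : ∀ x ∈ Um ι J A (m + 1), (∀ h ∈ GK jM, e h = 0 → ε h ≠ 1 → jA x * h (jA x) = 1) →
      ∀ I, dd (Ss ι J A s) x ∈ cb I → Zq (GK j) (GK jM) (S ∪ c.primeFactors)
        (ax (3 * 3 ^ k) ε fun g => (e g).val) P (X x) := fun x hx b I a =>
    co_zq r le (ok x hx) (mi x b) o (isOpen_GK j) (fun h hh => hh w) fun g hg ⟨l, h1, Q, h2, h3⟩ => by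
      have lS : l ∉ S := fun q => h1 (Finset.mem_union_left _ q)
      have l3 : l ≠ 3 := fun q => lS (q ▸ hT.three)
      have m := (hA g).2 ⟨hg, hT.unr g ⟨l, lS, Q, h2, h3⟩ hg, hL.unr l Q h2 (fun q => h1
        (Finset.mem_union_right _ (Nat.mem_primeFactors.2 ⟨h2.1, q, by have := hL.one; omega⟩)))
          g hg h3⟩
      refine unr a hw (fun g hg => ((hA g).1 hg).1 w) h2 l3 ?_ m h3
      rintro (⟨-, q⟩ | q)
      · obtain ⟨u, v, hn⟩ := Nat.isCoprime_iff_coprime.2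
          ((Nat.coprime_primes h2.1 Nat.prime_three).2 l3)
        exact q (Gx.pv_two ((Ideal.eq_top_iff_one _).2 (Submodule.mem_sup.2 ⟨u * l,
          Ideal.mul_mem_left _ _ (P022.H20.l_mem_below jA h2.2.2), v * 3,
          Ideal.mem_span_singleton'.2 ⟨_, rfl⟩, by exact_mod_cast congrArg (Int.cast : ℤ → 𝓞 A) hn⟩)))
      · refine lS (hT.ine l Q h2 (show _ ∈ Q from (show RingOfIntegers.mapRingHom jA
          (algebraMap _ _ s) = RingOfIntegers.mapRingHom _ s from RingOfIntegers.ext ?_) ▸ q)).1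
        exact (hj s).trans (hM s).symm
  refine ⟨fun x => if h : Zq _ _ _ _ _ (X x) then ⟨_, h⟩ else ⟨_, mem 1 (one_mem _) (by simp) ⊤ (by
    rw [map_one]; exact one_mem _)⟩, fun x hx y hy x0 y0 I I' x1 y1 hk => ?_⟩
  have hz := div_mem hx hy
  have z0 : ∀ h ∈ GK jM, e h = 0 → ε h ≠ 1 → jA (x / y : Aˣ) * h (jA (x / y : Aˣ)) = 1 :=
    fun h a b q => by
      rw [Units.val_div_eq_div_val, map_div₀, map_div₀, div_mul_div_comm, x0 h a b q, y0 h a b q,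
        div_one]
  beta_reduce at hk
  rw [dif_pos (mem _ hx x0 _ x1), dif_pos (mem _ hy y0 _ y1)] at hk
  obtain ⟨z, rfl⟩ : ∃ z, x = z * y := ⟨x / y, (div_mul_cancel x y).symm⟩
  rw [mul_div_cancel_right] at hz z0 ⊢
  have kz := ok z hz
  have a : ∀ g ∈ GK j, g (rt O m ((g⁻¹ * 1) (jA z))) = rt O m (jA z) := fun g hg => by
    have b := congrFun (congrArg Subtype.val hk) g
    have e := ok _ hx
    simp only [X, co, if_pos hg, Units.val_mul, map_mul] at b e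
    rw [r.sm_add fun σ hσ => kz.mul (ok y hy) e hg (le hσ)] at b
    exact lw_zero.1 (r.inj (ty r le kz (mi z z0) hg) (add_eq_right.1 b))
  have a' : ∀ g ∈ GK j, g (rt O m (jA z)) = rt O m (g (jA z)) := fun g hg => by
    have := a g⁻¹ (inv_mem hg)
    rw [inv_inv, mul_one] at this
    rw [← this, show ∀ y, g (g⁻¹ y) = y from g.apply_symm_apply]
  obtain ⟨v, hv⟩ := fixed jA (x := rt O m (jA z)) fun g => by
    rw [a' g (le ((hA g).1 g.2).1), g.2]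
  have v2 : v ^ 3 = z := jA.injective (by rw [map_pow, hv]; exact kz.cb (one_mem _))
  refine ⟨Units.mk0 v fun q => z.ne_zero (by rw [← v2, q, zero_pow three_ne_zero]),
    (um _ hm _).2 fun g hg => ?_, Units.ext v2, fun h b q p => ?_⟩
  · rw [Units.val_mk0, hv, a' g hg]
    exact kz.near hg
  · have := kz.rt_mul (kz.act (le b)) (z0 h b q p ▸ kz.one) (one_mem _)
    rw [z0 h b q p, map_one, kz.rt_one] at this
    rw [Units.val_mk0, hv, a' h (le b)]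
    exact this.symm

section

variable {K M A : Type} [Field K] [NumberField K] [Field M] [NumberField M] [Field A]
  [NumberField A] [Algebra K M] [Algebra K A] {ι : ℂ →+* ℂ_[3]} {J : K →+* ℂ} {j : K →+* Qb}
  {jM : M →+* Qb} {jA : A →+* Qb} {P : Ideal (𝓞 Qb)} {ε : GQ → ZMod 3} {c k : ℕ}
  {e : GQ → ZMod (3 * 3 ^ k)} {S : Finset ℕ} {s : 𝓞 K} (hM : ∀ x, jM (algebraMap K M x) = j x)
  (hj : ∀ x, jA (algebraMap K A x) = j x) (hP : Ab ι J j P) (hw : ∃ w : M, w ^ 2 + w + 1 = 0)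
  (hL : Lw jM c k e) (hT : Ts ι J jM ε c k e S s)
  (hA : ∀ g, g ∈ GK jA ↔ g ∈ GK jM ∧ ε g = 1 ∧ e g = 0) {m : ℕ} (hm : 1 ≤ m)

include hM hj hP hw hL hT hA hm

/-- the dictionary for a sign character which is not trivial -/
theorem dic1 (τ : A ≃ₐ[K] A) {h : GQ} (hh : h ∈ GK jM) (h0 : e h = 0) (h1 : ε h ≠ 1)
    (hτ : ∀ x, jA (τ x) = h (jA x)) :
    ∃ κ : Aˣ → {F // Zq (GK j) (GK jM) (S ∪ c.primeFactors)
      (ax (3 * 3 ^ k) ε fun g => (e g).val) P F}, ∀ I : Subgroup (Dv A),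
      ∀ x ∈ Um ι J A (m + 1) ⊓ (nm (ua τ)).ker, ∀ y ∈ Um ι J A (m + 1) ⊓ (nm (ua τ)).ker,
        dd (Ss ι J A s) x ∈ cb I → dd (Ss ι J A s) y ∈ cb I → κ x = κ y →
        x / y ∈ cb (Um ι J A m ⊓ (nm (ua τ)).ker) := by
  obtain ⟨κ, hκ⟩ := dic0 hM hj hP hw hL hT hA hm
  have n : ∀ x : Aˣ, x ∈ (nm (ua τ)).ker ↔ jA x * h (jA x) = 1 := fun x => by
    rw [← hτ, ← map_mul, ← map_one jA, jA.injective.eq_iff]
    exact Units.ext_iff
  have a : ∀ x : Aˣ, x ∈ (nm (ua τ)).ker → ∀ g ∈ GK jM, e g = 0 → ε g ≠ 1 →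
      jA x * g (jA x) = 1 := fun x hx g hg g0 g1 => by
    have m := mul_mem (inv_mem hh) hg
    have p := hT.mul h hh _ m
    have q := hL.add h hh _ m
    rw [mul_inv_cancel_left] at p q
    rw [h0, g0, zero_add] at q
    have f : ∀ a b c : ZMod 3, a ≠ 0 → a ≠ 1 → b ≠ 0 → b ≠ 1 → a = b * c → c = 1 := by decide
    rw [← mul_inv_cancel_left h g, AlgEquiv.mul_apply,
      (hA _).2 ⟨m, f _ _ _ (hT.ne g hg) g1 (hT.ne h hh) h1 p, q.symm⟩ _, (n x).1 hx]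
  refine ⟨κ, fun I x hx y hy x1 y1 e => ?_⟩
  obtain ⟨z, z1, z2, z3⟩ := hκ x hx.1 y hy.1 (a x hx.2) (a y hy.2) I I x1 y1 e
  exact ⟨z, ⟨z1, (n z).2 (z3 h hh h0 h1)⟩, z2⟩

/-- the dictionary for the trivial sign character -/
theorem dic2 (h1 : ∀ g ∈ GK jM, e g = 0 → ε g = 1) :
    ∃ κ : Aˣ → {F // Zq (GK j) (GK jM) (S ∪ c.primeFactors)
      (ax (3 * 3 ^ k) ε fun g => (e g).val) P F}, ∀ I : Subgroup (Dv A),
      ∀ x ∈ Um ι J A (m + 1), ∀ y ∈ Um ι J A (m + 1),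
        dd (Ss ι J A s) x ∈ cb I → dd (Ss ι J A s) y ∈ cb I → κ x = κ y →
        x / y ∈ cb (Um ι J A m) := by
  obtain ⟨κ, hκ⟩ := dic0 hM hj hP hw hL hT hA hm
  refine ⟨κ, fun I x hx y hy x1 y1 e => ?_⟩
  obtain ⟨z, z1, z2, -⟩ := hκ x hx y hy (fun g a b c => absurd (h1 g a b) c)
    (fun g a b c => absurd (h1 g a b) c) I I x1 y1 e
  exact ⟨z, z1, z2⟩

end

end Vale.Agent.P014Y.C.Al
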