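import Vale.Agent.P014Y.C.Al.St2
import Vale.Agent.P014Y.C.Al.Dic0

/-!
# P014 Y, block AL: row DIC
-/

namespace Vale.Agent.P014Y.C.Al

/-- **the dictionary** -/
theorem dic : DIC := by
  intro K L A _ _ _ _ _ _ _ _ ι J Ω _ j₀ j jA P ε c k e S s a b hP hw hL hT hA σ t ht t1 t0 hσ m hm
  obtain ⟨κ, h⟩ := dic1 a b hP hw hL hT hA (m := m) (by omega) σ ht t0 t1 hσ
  exact ⟨κ, fun x hx y hy p q r => Subgroup.map_mono inf_le_left (h _ x hx y hy p q r)⟩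

end Vale.Agent.P014Y.C.Al
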