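import Vale.Agent.P014Y.C.Al.St2
import Vale.Agent.P014Y.C.Al.Lf
import Vale.Agent.P004C.Al.Alx0

/-!
# P014 Y, block AL: row FLD
-/

set_option linter.all false

open NumberField Module
open scoped Classical

noncomputable section

namespace Vale.Agent.P014Y.C.Al

open Vale.Agent.P022 Vale.Agent.P022.H916 Vale.Agent.P004R.Gl
open Vale.Agent.P027M.S (Inert)
open Vale.Agent.P022E.GW (Ov)
open Vale.Agent.P004C.Al.Fx (Co No ex_alg tw cyc pres)
open Tp (Lw Ts)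
open Lf (e_one e_pow eh third_ne three_pw)

namespace Fl

theorem sg2 : ∀ a : ZMod 3, a ≠ 0 → a ≠ 1 → a = -1 := by decide

theorem sg_inv : ∀ a b : ZMod 3, a * b = 1 → a = b := by decide

theorem sg_sq : ∀ a : ZMod 3, a ≠ 0 → a * a = 1 := by decide

theorem sg_one : ∀ a : ZMod 3, a ≠ 0 → a = a * a → a = 1 := by decide

theorem neg_pw (i : ℕ) : (-1 : ZMod 3) ^ i = 1 ↔ 2 ∣ i := by
  rw [neg_one_pow_eq_one_iff_even (by decide), even_iff_two_dvd]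

theorem third {k : ℕ} (a : ZMod (3 * 3 ^ k)) (h : 3 * a = 0) : ∃ i : ℕ, a = i * (3 ^ k : ℕ) := by
  have : NeZero (3 * 3 ^ k) := ⟨by positivity⟩
  obtain ⟨u, hu⟩ : 3 ^ k ∣ a.val := Nat.dvd_of_mul_dvd_mul_left three_pos
    ((ZMod.natCast_eq_zero_iff (3 * a.val) _).1 (by simpa using h))
  exact ⟨u, by rw [← a.natCast_zmod_val, hu, Nat.cast_mul]; exact mul_comm _ _⟩

theorem third_iff {k : ℕ} (i : ℕ) :
    (i : ZMod (3 * 3 ^ k)) * (3 ^ k : ℕ) = 0 ↔ 3 ∣ i := by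
  rw [← Nat.cast_mul, ZMod.natCast_eq_zero_iff]
  exact Nat.mul_dvd_mul_iff_right (by positivity)

variable {K L : Type} [Field K] [NumberField K] [Field L] [NumberField L] [Algebra K L]
  {ι : ℂ →+* ℂ_[3]} {J : K →+* ℂ} {j : L →+* Qb} {ε : GQ → ZMod 3} {c k : ℕ}
  {e : GQ → ZMod (3 * 3 ^ k)} {S : Finset ℕ} {s : 𝓞 K} {g t : GQ}

theorem e_inv (W : Lw j c k e) (m : g ∈ GK j) : e g⁻¹ = -e g := map_inv (eh W) ⟨g, m⟩

theorem e_cj (W : Lw j c k e) (m : g ∈ GK j) (m' : t ∈ GK j) : e (g * t * g⁻¹) = e t := by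
  rw [W.add _ (mul_mem m m') _ (inv_mem m), W.add _ m _ m', e_inv W m]
  ring

theorem s_one (T : Ts ι J j ε c k e S s) : ε 1 = 1 :=
  sg_one _ (T.ne 1 (one_mem _)) (by simpa using T.mul 1 (one_mem _) 1 (one_mem _))

theorem s_inv (T : Ts ι J j ε c k e S s) (m : g ∈ GK j) : ε g⁻¹ = ε g :=
  sg_inv _ _ (by rw [← T.mul _ (inv_mem m) _ m, inv_mul_cancel, s_one T])

theorem s_pow (T : Ts ι J j ε c k e S s) (m : g ∈ GK j) (i : ℕ) : ε (g ^ i) = ε g ^ i := by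
  induction i with
  | zero => rw [pow_zero, pow_zero, s_one T]
  | succ i ih => rw [pow_succ, pow_succ, T.mul _ (pow_mem m i) _ m, ih]

theorem s_cj (T : Ts ι J j ε c k e S s) (m : g ∈ GK j) (m' : t ∈ GK j) :
    ε (g * t * g⁻¹) = ε t := by
  rw [T.mul _ (mul_mem m m') _ (inv_mem m), T.mul _ m _ m', s_inv T m, mul_right_comm,
    sg_sq _ (T.ne g m), one_mul]

/-- a generator of the layer which is an inertia element above `l` -/
theorem ex_t (W : Lw j c k e) (T : Ts ι J j ε c k e S s) {l : ℕ} {P : Ideal (𝓞 Qb)} (o : Ov l P)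
    (d : l ∣ c) : ∃ t ∈ GK j, Inert P t ∧ e t = 1 ∧ ε t = 1 := by
  obtain ⟨t, a, b, f⟩ := W.ram l P o d
  exact ⟨t, a, b, f, T.unr t ⟨l, fun h => T.cop l h d, P, o, b⟩ a⟩

theorem ex_l (W : Lw j c k e) : ∃ l P, Ov l P ∧ l ∣ c := by
  obtain ⟨l, hl, d⟩ := Nat.exists_prime_and_dvd W.one.ne'
  obtain ⟨P, hP⟩ := P022K.GW.Pl.ex_ov hl
  exact ⟨l, P, hP, d⟩

/-- the fields of the layer -/
theorem ex_F (W : Lw j c k e) (T : Ts ι J j ε c k e S s) (p : Prop) (a : ZMod (3 * 3 ^ k)) :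
    ∃ (F : Type) (_ : Field F) (_ : NumberField F) (jF : F →+* Qb),
      ∀ g, g ∈ GK jF ↔ g ∈ GK j ∧ (p → ε g = 1) ∧ a * e g = 0 := by
  let U : Subgroup GQ :=
    { carrier := {g | g ∈ GK j ∧ (p → ε g = 1) ∧ a * e g = 0}
      mul_mem' := fun {x y} u v => ⟨mul_mem u.1 v.1, fun h => by
        rw [T.mul _ u.1 _ v.1, u.2.1 h, v.2.1 h, one_mul], by
        rw [W.add _ u.1 _ v.1, mul_add, u.2.2, v.2.2, add_zero]⟩
      one_mem' := ⟨one_mem _, fun _ => s_one T, by rw [e_one W, mul_zero]⟩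
      inv_mem' := fun {x} u => ⟨inv_mem u.1, fun h => by rw [s_inv T u.1, u.2.1 h], by
        rw [e_inv W u.1, mul_neg, u.2.2, neg_zero]⟩ }
  obtain ⟨V, o, hV⟩ := W.opn
  obtain ⟨V', o', hV'⟩ := T.opn
  obtain ⟨F, i1, i2, jF, hF⟩ := P022E.GW.Hy.ex_fld (U := U)
    (Subgroup.isOpen_mono (H₁ := GK j ⊓ (V ⊓ V')) (fun g u => ⟨u.1, fun _ => hV' g u.1 u.2.2, by
      rw [hV g u.1 u.2.1, mul_zero]⟩) ((isOpen_GK j).inter (o.inter o')))
  exact ⟨F, i1, i2, jF, fun g => by rw [hF]; rfl⟩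

theorem no_F (W : Lw j c k e) (T : Ts ι J j ε c k e S s) {p : Prop} {a : ZMod (3 * 3 ^ k)}
    {F : Type} [Field F] {jF : F →+* Qb}
    (hF : ∀ g, g ∈ GK jF ↔ g ∈ GK j ∧ (p → ε g = 1) ∧ a * e g = 0) (m : g ∈ GK j)
    (u : t ∈ GK jF) : g * t * g⁻¹ ∈ GK jF := by
  obtain ⟨p1, p2, p3⟩ := (hF t).1 u
  exact (hF _).2 ⟨mul_mem (mul_mem m p1) (inv_mem m), fun h => by rw [s_cj T m p1, p2 h], by
    rw [e_cj W m p1, p3]⟩

/-- the quadratic steps -/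
theorem two (W : Lw j c k e) (T : Ts ι J j ε c k e S s) {a : ZMod (3 * 3 ^ k)}
    {F F' : Type} [Field F] [NumberField F] [Field F'] [NumberField F'] [Algebra F F']
    {jF : F →+* Qb} {jF' : F' →+* Qb} (co : Co jF jF')
    (hF : ∀ g, g ∈ GK jF ↔ g ∈ GK j ∧ (False → ε g = 1) ∧ a * e g = 0)
    (hF' : ∀ g, g ∈ GK jF' ↔ g ∈ GK j ∧ (True → ε g = 1) ∧ a * e g = 0) (m : t ∈ GK j)
    (h1 : ε t ≠ 1) (h0 : e t = 0) :
    finrank F F' = 2 ∧ ∃ σ : F' ≃ₐ[F] F', orderOf σ = 2 ∧ ∀ x, jF' (σ x) = t (jF' x) := by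
  have n := sg2 _ (T.ne t m) h1
  refine cyc co (fun g u v => no_F W T hF' ((hF g).1 u).1) ((hF t).2 ⟨m, False.elim, by
    rw [h0, mul_zero]⟩) (fun i => ?_) fun g u => ?_
  · rw [hF', s_pow T m, e_pow W m, n, h0, mul_zero, mul_zero, neg_pw]
    simp [pow_mem m i]
  · obtain ⟨u1, -, u3⟩ := (hF g).1 u
    by_cases z : ε g = 1
    · exact ⟨0, (hF' _).2 ⟨by simpa using u1, fun _ => by
        rw [pow_zero, mul_one, s_inv T u1, z], by
        rw [pow_zero, mul_one, e_inv W u1, mul_neg, u3, neg_zero]⟩⟩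
    · exact ⟨1, (hF' _).2 ⟨by simpa using mul_mem (inv_mem u1) m, fun _ => by
        rw [pow_one, T.mul _ (inv_mem u1) _ m, s_inv T u1, n, sg2 _ (T.ne g u1) z]; rfl, by
        rw [pow_one, W.add _ (inv_mem u1) _ m, h0, add_zero, e_inv W u1, mul_neg, u3, neg_zero]⟩⟩

/-- the cubic steps -/
theorem three (W : Lw j c k e) (T : Ts ι J j ε c k e S s) {p : Prop}
    {F F' : Type} [Field F] [NumberField F] [Field F'] [NumberField F'] [Algebra F F']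
    {jF : F →+* Qb} {jF' : F' →+* Qb} (co : Co jF jF')
    (hF : ∀ g, g ∈ GK jF ↔ g ∈ GK j ∧ (p → ε g = 1) ∧ 3 * e g = 0)
    (hF' : ∀ g, g ∈ GK jF' ↔ g ∈ GK j ∧ (p → ε g = 1) ∧ 1 * e g = 0) (m : t ∈ GK j)
    (h1 : ε t = 1) (h0 : e t = (3 ^ k : ℕ)) :
    finrank F F' = 3 ∧ ∃ σ : F' ≃ₐ[F] F', orderOf σ = 3 ∧ ∀ x, jF' (σ x) = t (jF' x) := by
  refine cyc co (fun g u v => no_F W T hF' ((hF g).1 u).1) ((hF t).2 ⟨m, fun _ => h1, by
    simpa only [h0, mul_one] using three_pw (k := k) 1⟩) (fun i => ?_) fun g u => ?_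
  · rw [hF', s_pow T m, e_pow W m, h1, h0, one_mul, one_pow, third_iff]
    simp [pow_mem m i]
  · obtain ⟨u1, u2, u3⟩ := (hF g).1 u
    obtain ⟨i, hi⟩ := third _ u3
    exact ⟨i, (hF' _).2 ⟨mul_mem (inv_mem u1) (pow_mem m i), fun h => by
      rw [T.mul _ (inv_mem u1) _ (pow_mem m i), s_inv T u1, s_pow T m, u2 h, h1, one_pow,
        one_mul], by
      rw [W.add _ (inv_mem u1) _ (pow_mem m i), e_inv W u1, e_pow W m, h0, hi, neg_add_cancel,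
        mul_zero]⟩⟩

theorem comm (W : Lw j c k e) (T : Ts ι J j ε c k e S s) {A : Type} [Field A] {jA : A →+* Qb}
    (hA : ∀ g, g ∈ GK jA ↔ g ∈ GK j ∧ (True → ε g = 1) ∧ 1 * e g = 0) (m : g ∈ GK j)
    (m' : t ∈ GK j) (x : A) : g (t (jA x)) = t (g (jA x)) := by
  have a := inv_mem (mul_mem m' m)
  have b := mul_mem m m'
  have := (hA ((t * g)⁻¹ * (g * t))).2 ⟨mul_mem a b, fun _ => by
    rw [T.mul _ a _ b, s_inv T (mul_mem m' m), T.mul _ m' _ m, T.mul _ m _ m', mul_comm (ε t),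
      ← T.mul _ m _ m', sg_sq _ (T.ne _ b)], by
    rw [W.add _ a _ b, e_inv W (mul_mem m' m), W.add _ m' _ m, W.add _ m _ m']
    ring⟩ x
  rw [← AlgEquiv.mul_apply, ← AlgEquiv.mul_apply]
  conv_rhs => rw [← this]
  rw [← AlgEquiv.mul_apply, mul_inv_cancel_left]

end Fl

open Fl in
theorem fld : FLD := by
  intro K L _ _ _ _ _ ι J j ε c k e S s ⟨w, hw⟩ W T ⟨g, mg, hg⟩
  have : NeZero (3 * 3 ^ k) := ⟨by positivity⟩
  obtain ⟨l, P, o, d⟩ := ex_l W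
  obtain ⟨t, mt, -, et, st⟩ := ex_t W T o d
  obtain ⟨M, _, _, jM, hM⟩ := ex_F W T False 3
  obtain ⟨N, _, _, jN, hN⟩ := ex_F W T True 3
  obtain ⟨E, _, _, jE, hE⟩ := ex_F W T False 1
  obtain ⟨A, _, _, jA, hA⟩ := ex_F W T True 1
  have z : ∀ {x : ZMod (3 * 3 ^ k)}, 1 * x = 0 → 3 * x = 0 := fun h => by
    rw [one_mul] at h; rw [h, mul_zero]
  have lL : GK j ≤ GK (j.comp (algebraMap K L)) := fun g h x => h _
  have lM : GK jM ≤ GK j := fun g h => ((hM g).1 h).1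
  have lN : GK jN ≤ GK jM := fun g h =>
    (hM g).2 ⟨((hN g).1 h).1, False.elim, ((hN g).1 h).2.2⟩
  have lE : GK jE ≤ GK jM := fun g h =>
    (hM g).2 ⟨((hE g).1 h).1, False.elim, z ((hE g).1 h).2.2⟩
  have lA : GK jA ≤ GK jN := fun g h =>
    (hN g).2 ⟨((hA g).1 h).1, ((hA g).1 h).2.1, z ((hA g).1 h).2.2⟩
  have lA' : GK jA ≤ GK jE := fun g h =>
    (hE g).2 ⟨((hA g).1 h).1, False.elim, ((hA g).1 h).2.2⟩
  obtain ⟨_, kM⟩ := ex_alg (lM.trans lL)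
  obtain ⟨_, kN⟩ := ex_alg ((lN.trans lM).trans lL)
  obtain ⟨_, kE⟩ := ex_alg ((lE.trans lM).trans lL)
  obtain ⟨_, kA⟩ := ex_alg (((lA.trans lN).trans lM).trans lL)
  obtain ⟨_, mN⟩ := ex_alg lN
  obtain ⟨_, mE⟩ := ex_alg lE
  obtain ⟨_, mA⟩ := ex_alg (lA.trans lN)
  obtain ⟨_, nA⟩ := ex_alg lA
  obtain ⟨_, eA⟩ := ex_alg lA'
  obtain ⟨iM, aM⟩ := ex_alg lM
  obtain ⟨_, aA⟩ := ex_alg ((lA.trans lN).trans lM)
  have kL : Co (j.comp (algebraMap K L)) j := fun _ => rfl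
  have := tw kM mN kN
  have := tw kM mE kE
  have := tw kM mA kA
  have := tw kN nA kA
  have := tw kE eA kA
  have := tw mN nA mA
  have := tw mE eA mA
  have iT := tw kL aM kM
  have := tw kL aA kA
  have m0 : g * t ^ (-e g).val ∈ GK j := mul_mem mg (pow_mem mt _)
  have s0 : ε (g * t ^ (-e g).val) ≠ 1 := by
    rwa [T.mul _ mg _ (pow_mem mt _), s_pow T mt, st, one_pow, mul_one]
  have e0 : e (g * t ^ (-e g).val) = 0 := by
    rw [W.add _ mg _ (pow_mem mt _), e_pow W mt, et, mul_one, ZMod.natCast_zmod_val,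
      add_neg_cancel]
  generalize g * t ^ (-e g).val = u at m0 s0 e0
  have m1 : t ^ 3 ^ k ∈ GK j := pow_mem mt _
  have s1 : ε (t ^ 3 ^ k) = 1 := by rw [s_pow T mt, st, one_pow]
  have e1 : e (t ^ 3 ^ k) = (3 ^ k : ℕ) := by rw [e_pow W mt, et, mul_one]
  obtain ⟨d2, τ, o2, hτ⟩ := two W T mN hM hN m0 s0 e0
  obtain ⟨d2', τ', o2', hτ'⟩ := two W T eA hE hA m0 s0 e0
  obtain ⟨d3, ω, o3, hω⟩ := three W T mE hM hE m1 s1 e1
  obtain ⟨d3', ω', o3', hω'⟩ := three W T nA hN hA m1 s1 e1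
  obtain ⟨_, r, D⟩ := ex_dict aA fun g m v => no_F W T hA m
  have hr : ∀ (i : ℕ) x, jA ((((r ⟨t, mt⟩).restrictScalars K) ^ i) x) = (t ^ i) (jA x) :=
    fun i => by
    induction i with
    | zero => exact fun _ => rfl
    | succ i ih =>
      intro x
      rw [pow_succ, pow_succ, AlgEquiv.mul_apply, AlgEquiv.mul_apply, ih]
      exact congrArg _ (D.act ⟨t, mt⟩ x).symm
  have h1 : ∀ x, jA (r ⟨t, mt⟩ x) = t (jA x) := fun x => (D.act ⟨t, mt⟩ x).symm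
  let q : Sq K :=
    { M := M, N := N, E := E, A := A, τ := τ, τ' := τ', ω := ω, ω' := ω', d2 := d2, d2' := d2'
      d3 := d3, d3' := d3'
      ne := fun h => by rw [h, orderOf_one] at o2; omega
      ne' := fun h => by rw [h, orderOf_one] at o2'; omega
      o3 := o3, o3' := o3'
      ct := fun x => jA.injective (by rw [nA, hτ, hτ', nA])
      co := fun x => jA.injective (by rw [eA, hω, hω', eA])
      cm := fun x => jA.injective (by rw [hτ', hω', hω', hτ', comm W T hA m0 m1])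
      rt := ⟨algebraMap L M w, by rw [← map_pow, ← map_one (algebraMap L M), ← map_add, ← map_add,
        hw, map_zero]⟩ }
  have cM : jA.comp (algebraMap M A) = jM := RingHom.ext mA
  have cN : jA.comp (algebraMap N A) = jN := RingHom.ext nA
  have cE : jA.comp (algebraMap E A) = jE := RingHom.ext eA
  refine ⟨q, iM, iT, jA, (r ⟨t, mt⟩).restrictScalars K, fun x => (mA _).trans (aM x),
    fun g => ?_, fun g => ?_, fun g => ?_, fun g => ?_, ⟨u, m0, s0, e0, hτ'⟩,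
    AlgEquiv.ext fun x => jA.injective ?_, AlgEquiv.ext fun x => jA.injective ?_,
    pres (j := j) nA (fun g m v => no_F W T hN m) mt h1⟩
  · exact (cM ▸ hM g).trans (by simp)
  · exact (cN ▸ hN g).trans (by simp)
  · exact (cE ▸ hE g).trans (by simp)
  · exact (hA g).trans (by simp)
  · show jA (r ⟨t, mt⟩ (τ' x)) = jA (τ' (r ⟨t, mt⟩ x))
    rw [h1, hτ', hτ', h1, comm W T hA mt m0]
  · exact (hr _ x).trans (hω' x).symm

end Vale.Agent.P014Y.C.Al
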