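import Vale.Agent.P014Y.C.Al.St2
import Vale.Agent.P014Y.C.Al.Lf

/-!
# P014 Y, block AL: ramification in the four fields
-/

set_option linter.all false

open NumberField Module Ideal
open scoped Classical

noncomputable section

namespace Vale.Agent.P014Y.C.Al

open Vale.Agent.P022 Vale.Agent.P022K
open Vale.Agent.P027M.S (Inert)
open Vale.Agent.P027M.M (ze)
open Vale.Agent.P022D.W (dec)
open Vale.Agent.P022E.GW (Ov)
open P004C.Al (Gc Ic Rm)
open P004C.Al.Rc (bl mx ex_ab nat_mem ine_map gk_le)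
open P004C.Al.Lf (ze_one)
open Tp Lf

namespace Gl

variable {L M E : Type} [Field L] [NumberField L] [Field M] [NumberField M] [Field E]
  [NumberField E] [Algebra M E] {j : L →+* Qb} {jM : M →+* Qb} {jE : E →+* Qb} {c k l : ℕ}
  {e : GQ → ZMod (3 * 3 ^ k)} {P : Ideal (𝓞 Qb)}

theorem third {x : ZMod (3 * 3 ^ k)} (h : 3 * x = 0) : ∃ i : ℕ, x = i * 3 ^ k := by
  have : NeZero (3 * 3 ^ k) := ⟨by positivity⟩
  obtain ⟨i, h⟩ := (Nat.mul_dvd_mul_iff_left three_pos).1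
    ((ZMod.natCast_eq_zero_iff (3 * x.val) (3 * 3 ^ k)).1 (by simpa using h))
  exact ⟨i, by rw [← ZMod.natCast_zmod_val x, h]; push_cast; ring⟩

theorem not3 (W : Lw j c k e) : ¬ 3 ∣ c := fun h =>
  absurd (Nat.eq_one_of_dvd_coprimes W.cop h (by decide)) (by decide)

theorem tp : (3 : ZMod (3 * 3 ^ k)) * 3 ^ k = 0 := by simpa using three_pw (k := k) 1

/-- inert primes -/
theorem ine (W : Lw j c k e) (hj : ∀ x, jE (algebraMap M E x) = jM x)
    (le : ∀ g ∈ GK jM, g ∈ GK j ∧ 3 * e g = 0) (hk : ∀ g ∈ GK jM, e g = 0 ↔ g ∈ GK jE) (o : Ov l P)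
    (n : ¬ l ∣ c) {g : GQ} (d : g ∈ dec P) (m : g ∈ GK jM) (h : e g = 3 ^ k) :
    Ine E (below jM P) := by
  have := ine_map (v := bl jM o) (φ := (eh W).comp (Subgroup.inclusion fun g h => (le g h).1)) hj
    (fun g => hk g g.2) o.2.1 rfl (fun g m => W.unr l P o n g (le g g.2).1 m) fun t => by
      obtain ⟨i, a⟩ := third (le t t.2).2
      exact ⟨⟨g ^ i, pow_mem m i⟩, pow_mem d i, (e_pow W (le g m).1 i).trans (by rw [h, ← a]; rfl)⟩
  exact (congrArg Ideal.IsMaximal this).mpr (bl jE o).isMaximal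

variable (W : Lw j c k e) (hM : ∀ g, g ∈ GK jM ↔ g ∈ GK j ∧ 3 * e g = 0)

include W hM

theorem gc' : Gc jM (fun g => ze (3 * 3 ^ k) (e g).val) (3 * 3 ^ k) :=
  ⟨fun g a t b => (gc W).mul g ((hM g).1 a).1 t ((hM t).1 b).1, (gc W).pos,
    fun g a => (gc W).pow g ((hM g).1 a).1,
    (gc W).opn.imp fun U u => ⟨u.1, fun g a => u.2 g ((hM g).1 a).1⟩⟩

theorem onto (o : Ov l P) (d : l ∣ c) {x : ZMod (3 * 3 ^ k)} (h : 3 * x = 0) :
    ∃ t ∈ GK jM, Inert P t ∧ e t = x := by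
  have : NeZero (3 * 3 ^ k) := ⟨by positivity⟩
  obtain ⟨t, a, b, n⟩ := W.ram l P o d
  have p : e (t ^ x.val) = x := by rw [e_pow W a, n, mul_one, ZMod.natCast_zmod_val]
  exact ⟨_, (hM _).2 ⟨pow_mem a _, p.symm ▸ h⟩, pow_mem (S := P022.H443.inP P) b _, p⟩

theorem rm (o : Ov l P) : Rm jM (fun g => ze (3 * 3 ^ k) (e g).val) P ↔ l ∣ c := by
  have : NeZero (3 * 3 ^ k) := ⟨by positivity⟩
  refine ⟨fun ⟨g, a, b, n⟩ => by_contra fun z =>
    n ((ze_one _ _).2 (W.unr l P o z g ((hM g).1 a).1 b)), fun d => ?_⟩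
  obtain ⟨t, a, b, p⟩ := onto W hM o d tp
  exact ⟨t, a, b, fun z => third_ne (by simpa [p] using (ze_one _ _).1 z)⟩

variable {K : Type} [Field K] [NumberField K] [Algebra K M] {ι : ℂ →+* ℂ_[3]} {J : K →+* ℂ}

/-- the cubic character -/
theorem tc (im : IsEmpty (K →+* ℝ)) (hj : ∀ x, jE (algebraMap M E x) = jM x)
    (hE : ∀ g, g ∈ GK jE ↔ g ∈ GK j ∧ e g = 0) {η : Ideal (𝓞 M) → ℂ}
    (h : Ic jM (fun g => ze (3 * 3 ^ k) (e g).val) η) : Tc ι J E η := by
  have : NeZero (3 * 3 ^ k) := ⟨by positivity⟩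
  have : IsEmpty (M →+* ℝ) := ⟨fun f => im.false (f.comp (algebraMap K M))⟩
  have G := gc' W hM
  have z : ∀ p : Ideal (𝓞 M), p.IsMaximal → (η p = 0 ↔ (c : 𝓞 M) ∈ p) := fun p m => by
    obtain ⟨l, P, o, b⟩ := ex_ab jM (mx m)
    obtain rfl : below jM P = p := b
    rw [h.zero G o, rm W hM o, nat_mem o]
  refine ⟨h.le G, fun p m => ?_, span {(c : 𝓞 M)}, ⟨c, ?_, ?_⟩, ⟨h.cm.one, h.cm.mul, fun I => ?_,
    fun x x0 d => ?_⟩, ?_⟩
  · obtain ⟨l, P, o, b⟩ := ex_ab jM (mx m)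
    obtain rfl : below jM P = p := b
    refine h.gp G hj (fun g => ?_) o fun r g a => ?_
    · rw [hE, hM, ze_one, and_assoc, and_congr_right_iff, iff_and_self]
      exact fun _ a => by rw [a, mul_zero]
    · obtain ⟨t, x, y, p⟩ := onto W hM o ((rm W hM o).1 r) ((hM g).1 a).2
      exact ⟨t, x, y, by simp only [p]⟩
  · have := Cm.nm_cop (not3 W)
    simpa using this
  · rw [map_natCast]
    exact mem_span_singleton_self _
  · induction I using UniqueFactorizationMonoid.induction_on_prime with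
    | h₁ => simp [h.bot]
    | h₂ I u =>
      have k := h.cm.one
      rw [one_eq_top] at k
      simp [isUnit_iff.1 u, k]
    | h₃ I P i p ih =>
      have m := P004C.Al.Eu.prime_iff.1 p
      have k : P ⊔ span {(c : 𝓞 M)} = ⊤ ↔ (c : 𝓞 M) ∉ P :=
        ⟨fun k k' => m.ne_top (by rwa [sup_of_le_left ((span_singleton_le_iff_mem _).2 k')] at k),
          fun k => m.out.2 _ (left_lt_sup.2 (mt (span_singleton_le_iff_mem _).1 k))⟩
      rw [h.cm.mul, mul_eq_zero, ih, z P m, ne_eq, ne_eq, Cm.mul_cop, k, Ideal.mul_eq_bot]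
      have := p.ne_zero
      tauto
  · rw [pow_zero]
    refine h.law G x0 fun v l P o b r => ?_
    have d1 := (rm W hM o).1 r
    have d2 : ((3 * 3 ^ k : ℕ) : 𝓞 M) ∉ v.asIdeal := fun z => not3 W (by
      have := (nat_mem o).1 (b ▸ z)
      rw [← pow_succ'] at this
      exact (Nat.prime_dvd_prime_iff_eq o.1 Nat.prime_three).1 (o.1.dvd_of_dvd_pow this) ▸ d1)
    rw [map_pow, Sh.Tor.val_nat d2, one_pow]
    exact_mod_cast (Sh.Tor.mem_iff v (x - 1)).1
      (Ideal.mem_of_dvd _ (mem_span_singleton.1 d) (b ▸ (nat_mem o).2 d1))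
  · obtain ⟨l, hl, d⟩ := Nat.exists_prime_and_dvd W.one.ne'
    obtain ⟨P, o⟩ := GW.Pl.ex_ov hl
    exact ⟨_, (bl jM o).isMaximal, (span_singleton_le_iff_mem _).2 ((nat_mem o).2 d), fun z =>
      not3 W ((Nat.prime_dvd_prime_iff_eq hl Nat.prime_three).1 ((nat_mem (c := 3) o).1 z) ▸ d)⟩

end Gl

open Gl

theorem gal (trc : TRC) : GAL := by
  intro K L _ _ _ _ _ ι J Ω B j ε c k e S s q _ _ jA γ W T G
  have cK : jA.comp (algebraMap K q.A) = j.comp (algebraMap K L) := RingHom.ext fun x => by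
    rw [RingHom.comp_apply, RingHom.comp_apply, ← G.cL, ← IsScalarTower.algebraMap_apply K L q.M,
      ← IsScalarTower.algebraMap_apply]
  have hN : ∀ g ∈ GK (jA.comp (algebraMap q.N q.A)), e g = 0 ↔ g ∈ GK jA := fun g a => by
    have := (G.gN g).1 a
    rw [G.gA, and_iff_right this.1, and_iff_right this.2.1]
  have key : ∀ (F : Type) [Field F] [NumberField F] [Algebra K F] [Algebra F q.A]
      [IsScalarTower K F q.A], ∀ p ∈ Ps F s, ∃ l P g, Ov l P ∧
      below (jA.comp (algebraMap F q.A)) P = p ∧ ¬ l ∣ c ∧ g ∈ dec P ∧ g ∈ GK j ∧ ε g = 1 ∧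
      e g = 3 ^ k := fun F _ _ _ _ _ p m => by
    obtain ⟨l, P, o, b⟩ := ex_ab (jA.comp (algebraMap F q.A)) (mx m.1)
    obtain rfl : below _ P = p := b
    obtain ⟨a, g, d⟩ := T.ine l P o (by
      rw [← cK, P004C.Al.Rc.below_dw (j' := jA.comp (algebraMap F q.A)) fun x => by
        rw [RingHom.comp_apply, RingHom.comp_apply, ← IsScalarTower.algebraMap_apply]]
      exact m.2)
    exact ⟨l, P, g, o, rfl, T.cop l a, d⟩
  refine ⟨⟨?_, ?_, .inr ⟨q.d3', ?_⟩⟩, fun p m => ?_, fun p m => ?_,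
    trc K q.N q.A ι J Ω B jA fun P a g b i => (hN g b).1
      (W.unr 3 P a.1 (not3 W) g ((G.gN g).1 b).1 i), fun η h => tc W G.gM B.im
        (jE := jA.comp (algebraMap q.E q.A)) (fun x => ?_) G.gE h⟩
  · obtain ⟨w, h⟩ := q.rt
    exact ⟨algebraMap q.M q.N w, by rw [← map_pow, ← map_add, ← map_one (algebraMap q.M q.N),
      ← map_add, h, map_zero]⟩
  · refine IsGalois.of_card_aut_eq_finrank _ _ (le_antisymm ?_ ?_)
    · rw [Nat.card_eq_fintype_card]
      exact AlgEquiv.card_le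
    · rw [q.d3', ← q.o3']
      exact Nat.le_of_dvd Nat.card_pos (orderOf_dvd_natCard _)
  · obtain ⟨l, hl, d⟩ := Nat.exists_prime_and_dvd W.one.ne'
    obtain ⟨P, o⟩ := GW.Pl.ex_ov hl
    obtain ⟨t, a, b, p⟩ := onto W G.gM o d tp
    have a' := (G.gM t).1 a
    exact ⟨l, P, t, fun z => not3 W (z ▸ d), o, b, (G.gN t).2 ⟨a'.1,
      T.unr t ⟨l, fun z => T.cop l z d, P, o, b⟩ a'.1, a'.2⟩,
      fun z => third_ne (by simpa [p] using ((G.gA t).1 z).2.2)⟩
  · obtain ⟨l, P, g, o, rfl, n, d, a, b, h⟩ := key q.M p m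
    refine ine W (jE := jA.comp (algebraMap q.E q.A)) (fun x => ?_) (fun g => (G.gM g).1)
      (fun g a => by rw [G.gE, and_iff_right ((G.gM g).1 a).1]) o n d
      ((G.gM g).2 ⟨a, h ▸ tp⟩) h
    rw [RingHom.comp_apply, RingHom.comp_apply, ← IsScalarTower.algebraMap_apply]
  · obtain ⟨l, P, g, o, rfl, n, d, a, b, h⟩ := key q.N p m
    exact ine W (jE := jA) (fun x => rfl) (fun g a => ⟨((G.gN g).1 a).1, ((G.gN g).1 a).2.2⟩) hN o n d
      ((G.gN g).2 ⟨a, b, h ▸ tp⟩) h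
  · rw [RingHom.comp_apply, RingHom.comp_apply, ← IsScalarTower.algebraMap_apply]

end Vale.Agent.P014Y.C.Al
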