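import Vale.Agent.P014Y.C.Al.A0
import Vale.Agent.P014Y.Ol
import Vale.Agent.P004C.Al.A3

/-! # P014 Y, block AL: rows OL and A3 -/

set_option autoImplicit false
set_option linter.all false

open Subgroup

noncomputable section

namespace Vale.Agent.P014Y.C.Al

open Vale.Agent.P004C.Al.T3 (rel_congr rel_map rel_le n3_cm)

namespace R3

open R0

variable {X D : Type} [CommGroup X] [CommGroup D] {d : X →* D} {s g : X →* X}
  {t g' : D →* D} {U' U U₀ : Subgroup X} {I' I : Subgroup D}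

theorem cb_inj {A : Subgroup X} (tf : ∀ x ∈ A, x ^ 3 = 1 → x = 1) {x y : X} (hx : x ∈ A)
    (hy : y ∈ A) (e : x ^ 3 = y ^ 3) : x = y :=
  div_eq_one.1 (tf _ (A.div_mem hx hy) (by rw [div_pow, e, div_self']))

variable (d s U' U I) in
/-- the elements whose divisor and norm are cubes -/
def YY : Subgroup X := U ⊓ (cb I).comap d ⊓ (cb U').comap (n3 s)

theorem a4 (P : P3 d s t U' U I' I) (L : Lv d s U' U U₀ I) :
    ic (Em d s U) * (Hd d s U).relIndex (Hn d t U' I ⊓ (Hd d s U).comap (powMonoidHom 3)) =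
      bb s U' U U₀ * (cb U₀).relIndex (YY d s U' U I) := by
  have u0 : U' ≤ U₀ := P.le.trans L.le
  have l1 : cb U ≤ YY d s U' U I := by
    rintro _ ⟨y, hy, rfl⟩
    exact ⟨⟨U.pow_mem hy 3, d y, P.dv ⟨y, hy, rfl⟩, (map_pow d y 3).symm⟩, n3 s y, (P.st y hy).2.2,
      (map_pow (n3 s) y 3).symm⟩
  have l2 : Em d s U ≤ YY d s U' U I := fun y hy =>
    ⟨⟨hy.1.1, 1, I.one_mem, by rw [map_one]; exact hy.1.2.symm⟩, 1, U'.one_mem,
      by rw [map_one]; exact hy.2.symm⟩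
  have e1 : (Hd d s U).relIndex (Hn d t U' I ⊓ (Hd d s U).comap (powMonoidHom 3)) =
      (cb U ⊔ Em d s U).relIndex (YY d s U' U I) := by
    rw [← rel_map (powMonoidHom 3) (le_inf (Hd_le P) fun x hx => (Hd d s U).pow_mem hx 3)
      fun x hx e => ?_, ← rel_map (d.prod (n3 s)) (sup_le l1 l2) fun x hx e =>
        mem_sup_right ⟨⟨hx.1.1, congrArg Prod.fst e⟩, congrArg Prod.snd e⟩]
    · congr 1
      · refine le_antisymm ?_ (map_le_iff_le_comap.2 (sup_le ?_ fun y hy => ?_))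
        · rintro _ ⟨_, ⟨y, hy, rfl⟩, rfl⟩
          exact ⟨y ^ 3, mem_sup_left ⟨y, hy, rfl⟩, map_pow _ _ _⟩
        · rintro _ ⟨y, hy, rfl⟩
          exact ⟨_, ⟨y, hy, rfl⟩, (map_pow (d.prod (n3 s)) _ _).symm⟩
        · exact ⟨1, one_mem _, by rw [map_one]; exact Prod.ext hy.1.2.symm hy.2.symm⟩
      · refine le_antisymm ?_ ?_
        · rintro _ ⟨h, ⟨h1, y, hy, e⟩, rfl⟩
          obtain ⟨⟨k1, k2⟩, -⟩ := mem_Hn.1 h1
          exact ⟨y, ⟨⟨hy, h.1, k1, (congrArg Prod.fst e).symm⟩, h.2, k2,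
            (congrArg Prod.snd e).symm⟩, e⟩
        · rintro _ ⟨y, ⟨⟨hy, p, hp, e1⟩, x, hx, e2⟩, rfl⟩
          simp only [powMonoidHom_apply] at e1 e2
          refine ⟨(p, x), ⟨mem_Hn.2 ⟨⟨hp, hx⟩, cb_inj P.tf (P.le' (P.st' p hp).2.2)
            (P.le' (P.dv' ⟨x, hx, rfl⟩)) ?_⟩, y, hy, Prod.ext e1.symm e2.symm⟩, Prod.ext e1 e2⟩
          rw [← map_pow, ← map_pow, e1, e2, d_nm P]
    · obtain ⟨⟨k1, k2⟩, -⟩ := mem_Hn.1 hx.1
      rw [show x = 1 from Prod.ext (P.tf _ k1 (congrArg Prod.fst e))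
        (L.tf _ (u0 k2) (congrArg Prod.snd e))]
      exact one_mem _
  have e2 : (cb U).relIndex (cb U ⊔ Em d s U) = ic (Em d s U) := by
    rw [relIndex_sup_left]
    refine rel_congr fun x hx => ⟨?_, fun k => map_mono (inf_le_left.trans inf_le_left) k⟩
    rintro ⟨y, hy, rfl⟩
    exact ⟨y, ⟨⟨hy, P.tf _ (P.dv ⟨y, hy, rfl⟩) ((map_pow d y 3).symm.trans hx.1.2)⟩,
      L.tf _ (u0 (P.st y hy).2.2) ((map_pow (n3 s) y 3).symm.trans hx.2)⟩, rfl⟩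
  have e3 : (cb U).relIndex (cb U₀ ⊓ YY d s U' U I) = bb s U' U U₀ := by
    rw [bb, ← rel_map (powMonoidHom 3) (le_inf L.le fun y hy => (P.st y hy).2.2)
      fun x hx e => by rw [L.tf x hx.1 e]; exact one_mem _]
    congr 1
    refine le_antisymm ?_ ?_
    · rintro _ ⟨⟨y, hy, rfl⟩, -, z, hz, e⟩
      have k : z = n3 s y := cb_inj L.tf (u0 hz) 
        (U₀.mul_mem (U₀.mul_mem hy (L.st y hy)) (L.st _ (L.st y hy)))
        (e.trans (map_pow (n3 s) y 3))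
      exact ⟨y, ⟨hy, mem_comap.2 (k ▸ hz)⟩, rfl⟩
    · rintro _ ⟨y, hy, rfl⟩
      exact ⟨⟨y, hy.1, rfl⟩, ⟨L.cb ⟨y, hy.1, rfl⟩, d y, L.dv ⟨y, hy.1, rfl⟩, (map_pow d y 3).symm⟩,
        n3 s y, hy.2, (map_pow (n3 s) y 3).symm⟩
  rw [e1, ← inf_relIndex_right (cb U₀), ← e2, ← e3, relIndex_mul_relIndex _ _ _ le_sup_left (sup_le l1 l2),
    relIndex_mul_relIndex _ _ _ (le_inf (map_mono L.le) l1) inf_le_right]

theorem main : A3 := by
  intro X D _ _ d s t g g' U' U U₀ I' I k P L Γ h1 Z _ κ hκ hZ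
  obtain ⟨g1, g2, g3⟩ := Γ.st
  set γ : D × X →* D × X := g'.prodMap g with hγ
  have m3 : (Hd d s U).relIndex (Hn d t U' I ⊓ (Hd d s U).comap (powMonoidHom 3)) ≤ Nat.card Z := by
    refine Nat.le_of_mul_le_mul_left ?_ (Nat.pos_of_ne_zero L.n1)
    rw [a4 P L]
    exact Nat.mul_le_mul L.ge (rel_le κ fun x hx y hy e => hκ x hx.1.1 y hy.1.1 hx.1.2 hy.1.2 e)
  have it : ∀ (h : D × X) i, γ^[i] h = (g'^[i] h.1, g^[i] h.2) := fun h i => by
    induction i with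
    | zero => rfl
    | succ i ih => simp only [Function.iterate_succ_apply', ih]; rfl
  obtain ⟨b, b1, b2⟩ := P014Y.Ol.olem3 (H := Hd d s U) (K := Hn d t U' I) γ (by
    rintro _ ⟨y, hy, rfl⟩
    exact ⟨_, g2 ⟨y, hy, rfl⟩, Prod.ext (Γ.eq y) (n3_cm (fun x => (Γ.cu x).symm) y).symm⟩)
    (fun h hh => by
      obtain ⟨⟨k1, k2⟩, k3⟩ := mem_Hn.1 hh
      exact mem_Hn.2 ⟨⟨g3 ⟨_, k1, rfl⟩, g1 ⟨_, k2, rfl⟩⟩,
        (n3_cm (fun x => (Γ.cu' x).symm) _).symm.trans ((congrArg _ k3).trans (Γ.eq _).symm)⟩) k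
    (fun h hh => by
      obtain ⟨⟨k1, k2⟩, k3⟩ := mem_Hn.1 hh
      rw [it, it, Γ.pw _ (P.le k2), Γ.pw' _ k1, Γ.pw _ (P.st _ (P.le k2)).1,
        Γ.pw' _ (P.st' _ k1).1]
      exact ⟨h.2, P.le k2, Prod.ext k3.symm rfl⟩) h1 (m3.trans_lt hZ)
  rw [show v3 (hh d s t U' U I) = b from b2, ← b1]
  exact m3

end R3

/-- **row OL** -/
theorem ol : OL := by
  intro B _ _ g k hs hi
  have e : (cb (⊤ : Subgroup B)) = P014Y.Ol.pw 3 B := (MonoidHom.range_eq_map _).symm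
  rw [e] at hi ⊢
  obtain ⟨b, o, ho, k1, k2⟩ := P014Y.Ol.olem3' g k (fun x => by
    rw [← Function.iterate_add_apply, ← two_mul]
    exact hs x) hi
  haveI := Fact.mk Nat.prime_three
  rw [k1, k2, v3, padicValNat.mul (by positivity) (by rintro rfl; exact ho (dvd_zero 3)),
    padicValNat.prime_pow, padicValNat.eq_zero_of_not_dvd ho, add_zero]

/-- **row A3** -/
theorem a3 : A3 := R3.main

end Vale.Agent.P014Y.C.Al
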