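import Vale.Agent.P014Y.C.Al.St0

/-!
# P014 Y, block AL: plus and minus parts of indices, the level below (rows PMI, LVA)
-/

set_option linter.all false

namespace Vale.Agent.P014Y.C.Al

open Subgroup

namespace Pmi

variable {X Y : Type} [CommGroup X] [CommGroup Y]

/-- the index is the product of the index of the images and the index in the kernel -/
theorem ix (φ : X →* Y) {R P : Subgroup X} (h : R ≤ P) :
    R.relIndex P = (R.map φ).relIndex (P.map φ) * (R ⊓ φ.ker).relIndex (P ⊓ φ.ker) := by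
  rw [← relIndex_mul_relIndex R ((R ⊔ φ.ker) ⊓ P) P (le_inf le_sup_left h) inf_le_right,
    inf_relIndex_right, sup_inf_assoc_of_le _ h, relIndex_sup_left, ← comap_map_eq, relIndex_comap,
    mul_comm, inf_comm φ.ker, ← inf_relIndex_right R, ← inf_assoc, inf_eq_left.2 h]

theorem dvd_right (R : Subgroup X) {Q P : Subgroup X} (h : Q ≤ P) :
    R.relIndex Q ∣ R.relIndex P := by
  rw [← inf_relIndex_right R P, ← relIndex_mul_relIndex (R ⊓ P) (Q ⊔ R ⊓ P) P le_sup_right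
    (sup_le h inf_le_right), relIndex_sup_right, ← inf_relIndex_right (R ⊓ P), inf_assoc,
    inf_eq_right.2 h, inf_relIndex_right]
  exact dvd_mul_right _ _

theorem mem_cb {A : Subgroup X} {x : X} (h : x ∈ A) : x ^ 3 ∈ cb A := mem_map_of_mem _ h

theorem cb_le (A : Subgroup X) : cb A ≤ A := by
  rintro _ ⟨x, h, rfl⟩
  exact pow_mem h 3

theorem four {A : Subgroup X} {y : X} (h : y ^ 4 ∈ A) (k : y ^ 3 ∈ A) : y ∈ A := by
  have := div_mem h k
  rwa [pow_succ', mul_div_cancel_right] at this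

theorem nm_ap (s : X →* X) (x : X) : nm s x = x * s x := rfl

theorem pm {s : X →* X} {B' B C : Subgroup X} (l : B' ≤ B) (f : ∀ x ∈ B', s x = x)
    (n : ∀ x ∈ B, x * s x ∈ B') (c : C ≤ B) (st : ∀ x ∈ C, s x ∈ C) (k : cb B ≤ C) :
    C.relIndex B = (C ⊓ B').relIndex B' * (mn s C).relIndex (mn s B) := by
  have q : ∀ y ∈ B', y ^ 4 = nm s (y ^ 2) := fun y a => by
    rw [nm_ap, map_pow, f y a, ← pow_add]
  have e1 : B' = B.map (nm s) ⊔ C ⊓ B' := le_antisymm (fun y a => four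
    (mem_sup_left (q y a ▸ mem_map_of_mem _ (pow_mem (l a) 2)))
    (mem_sup_right (mem_inf.2 ⟨k (mem_cb (l a)), pow_mem a 3⟩)))
    (sup_le (map_le_iff_le_comap.2 n) inf_le_right)
  have e2 : C ⊓ B' ⊓ B.map (nm s) = C.map (nm s) := le_antisymm (by
    rintro _ ⟨⟨a, b⟩, x, m, rfl⟩
    exact four (q _ b ▸ mem_map_of_mem _ (pow_mem a 2))
      (map_pow (nm s) x 3 ▸ mem_map_of_mem _ (k (mem_cb m))))
    (le_inf (map_le_iff_le_comap.2 fun x a => ⟨mul_mem a (st x a), n x (c a)⟩) (map_mono c))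
  rw [ix (nm s) c, ← e2, inf_relIndex_right, ← relIndex_sup_right, ← e1]
  rfl

/-- a subgroup of finite index of a group without elements of order three -/
theorem ic_eq {N E : Subgroup X} (l : N ≤ E) (t : ∀ x ∈ E, x ^ 3 = 1 → x = 1)
    (n : N.relIndex E ≠ 0) : ic N = ic E := by
  have a := ix (powMonoidHom 3) l
  rw [show E ⊓ (powMonoidHom 3).ker = ⊥ from eq_bot_iff.2 fun x m => t x m.1 m.2,
    relIndex_bot_right, mul_one] at a
  refine mul_right_cancel₀ n ?_
  rw [relIndex_mul_relIndex _ _ _ (cb_le N) l, a, mul_comm,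
    relIndex_mul_relIndex _ _ _ (map_mono l) (cb_le E)]

end Pmi

open Pmi

theorem pmi : PMI := by
  intro X _ s B' B C' C l f h
  refine ⟨?_, fun c e st k => e ▸ pm l f (fun x a => (h x a).2.2) c st k⟩
  have e1 : cb B ⊓ B' = cb B' := le_antisymm (by
    rintro _ ⟨⟨x, m, rfl⟩, b⟩
    refine four ⟨(x * s x) ^ 2, pow_mem (h x m).2.2 2, ?_⟩ (mem_cb b)
    have := f _ b
    simp only [powMonoidHom_apply, map_pow] at this ⊢
    rw [mul_pow x _ 3, this, ← sq, ← pow_mul])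
    (le_inf (map_mono l) (cb_le B'))
  have e2 : mn s (cb B) = cb (mn s B) := le_antisymm (by
    rintro _ ⟨⟨x, m, rfl⟩, b⟩
    have z : x / s x ∈ mn s B := ⟨B.div_mem m (h x m).1, show x / s x * s (x / s x) = 1 by
      rw [map_div, (h x m).2.1, div_mul_div_cancel, div_self']⟩
    refine four ⟨(x / s x) ^ 2, pow_mem z 2, ?_⟩ (mem_cb ⟨pow_mem m 3, b⟩)
    have : x ^ 3 * s (x ^ 3) = 1 := b
    simp only [powMonoidHom_apply, map_pow] at this ⊢
    rw [div_pow x _ 3, eq_inv_of_mul_eq_one_right this, div_inv_eq_mul, ← sq,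
      ← pow_mul])
    (le_inf (map_mono inf_le_left) ((cb_le _).trans inf_le_right))
  rw [ic, pm l f (fun x a => (h x a).2.2) (cb_le B) (by
    rintro _ ⟨x, m, rfl⟩
    exact ⟨s x, (h x m).1, (map_pow s x 3).symm⟩) le_rfl, e1, e2]

theorem lva : LVA := by
  intro X _ u U' U U₀' U₀ E' E E₁ n l' l m₀ m s i i' le f mE t c c' l₁ r n₁
  have p : ∀ k, 3 ^ k ≠ 0 := fun k => pow_ne_zero k three_ne_zero
  have a : bb u U' U U₀ = 3 ^ (2 * n) := by
    have := relIndex_mul_relIndex U (U₀ ⊓ U'.comap (n3 u)) U₀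
      (le_inf l (map_le_iff_le_comap.1 m)) inf_le_left
    rw [inf_comm U₀ (comap _ _), inf_relIndex_right, relIndex_comap, ← relIndex_sup_right (U₀.map _),
      ← le_antisymm s (sup_le m₀ l'), i, i', inf_comm] at this
    exact mul_right_cancel₀ (p n) (this.trans (by ring))
  have k : cb E' ≤ E.map (n3 u) := by
    rintro _ ⟨x, b, rfl⟩
    refine ⟨x, le b, ?_⟩
    show x * u x * u (u x) = x ^ 3
    rw [f x b, f x b, pow_three']
  have e1 : cb E ⊓ (n3 u).ker = cb (E ⊓ (n3 u).ker) := le_antisymm (by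
    rintro _ ⟨⟨x, b, rfl⟩, d⟩
    exact ⟨x, ⟨b, t _ (le (mE (mem_map_of_mem _ b))) ((map_pow _ x 3).symm.trans d)⟩, rfl⟩)
    (le_inf (map_mono inf_le_left) ((cb_le _).trans inf_le_right))
  have e2 : (cb E).map (n3 u) = cb (E.map (n3 u)) := by
    rw [cb, cb, map_map, map_map]
    exact congrArg E.map (MonoidHom.ext fun x => map_pow (n3 u) x 3)
  have b := ix (n3 u) (cb_le E)
  rw [e1, e2, ← ic, ← ic, ← ic, c, ic_eq mE (fun x b => t x (le b)) (fun z => p n (by
    rw [← c', ic, ← relIndex_mul_relIndex _ _ _ k mE, z, mul_zero])), c'] at b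
  have b : ic (E ⊓ (n3 u).ker) = 3 ^ (2 * n) := mul_left_cancel₀ (p n) (b.symm.trans (by ring))
  refine ⟨a ▸ p _, a ▸ b ▸ Nat.le_of_dvd (Nat.pos_of_ne_zero n₁) ?_⟩
  have e3 : cb E₁ ⊓ (E ⊓ (n3 u).ker) = cb (E ⊓ (n3 u).ker) := le_antisymm (by
    rintro _ ⟨⟨x, b, rfl⟩, d⟩
    exact mem_cb (r x b d)) (le_inf (map_mono l₁) (cb_le _))
  have := dvd_right (cb E₁) l₁
  rwa [← inf_relIndex_right, e3] at this

end Vale.Agent.P014Y.C.Al
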