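import Vale.Agent.P014Y.C.Al.St1
import Vale.Agent.P014Y.C.Al.A3
import Vale.Agent.P014Y.C.Al.Pmi
import Vale.Agent.P014Y.C.Al.Umf
import Vale.Agent.P014Y.C.Al.Dvf
import Vale.Agent.P004C.Al.Cub0

/-!
# P014 Y, block AL: the bound for the new minus class number (row HB)
-/

set_option linter.all false

open NumberField Module IsDedekindDomain
open scoped Classical

noncomputable section

namespace Vale.Agent.P014Y.C.Al

open Vale.Agent.P027M.S (Pr)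
open P004C.Al.Cb (ua_pow ta_pow ua_cm ta_cm pj_emp dd_eq il_eq)

namespace Hb

theorem fi_tf {X : Type} [CommGroup X] {F : ℕ → Subgroup X} (h : Fi F) {m : ℕ} (hm : 2 ≤ m) {x : X}
    (hx : x ∈ F m) (e : x ^ 3 = 1) : x = 1 :=
  h.sep x fun n => h.rt n x (antitone_nat_of_succ_le h.le hm hx) (e ▸ one_mem _)

theorem mi_map {X : Type} [CommGroup X] {s g : X →* X} {U : Subgroup X} (c : ∀ x, s (g x) = g (s x))
    (h : U.map g ≤ U) : (mi s U).map g ≤ mi s U := by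
  rintro _ ⟨x, ⟨a, b⟩, rfl⟩
  refine ⟨h ⟨x, a, rfl⟩, ?_⟩
  show g x * s (g x) = 1
  rw [c, ← map_mul, show x * s x = 1 from b, map_one]

variable {K : Type} [Field K] [NumberField K] {ι : ℂ →+* ℂ_[3]} {J : K →+* ℂ} {Ω : ℝ}
  {A : Type} [Field A] [NumberField A] [Algebra K A] {m : ℕ}

theorem ul_top (m : ℕ) : UL ι J A m = Um ι J A m := inf_eq_left.2 fun x _ => ⟨x, rfl⟩

theorem ul_st (B : Base ι J Ω) {L : Type} [Field L] [Algebra L A] {σ : A ≃ₐ[K] A}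
    (h : Pres L σ) (m : ℕ) : (UL ι J L m).map (ua σ) ≤ UL ι J L m := by
  rintro _ ⟨_, ⟨a, x, rfl⟩, rfl⟩
  obtain ⟨y, e⟩ := h x
  refine ⟨(umf K ι J Ω B A).2.2.1 m σ ⟨_, a, rfl⟩, Units.mk0 y fun k => ?_, Units.ext e.symm⟩
  rw [k, map_zero, map_eq_zero, map_eq_zero] at e
  exact x.ne_zero e

theorem dd_ua (B : Base ι J Ω) (σ : A ≃ₐ[K] A) (s : 𝓞 K) (x : Aˣ) :
    dd (Ss ι J A s) (ua σ x) = ta σ (dd (Ss ι J A s) x) := by
  rw [dd_eq, (dvf K ι J Ω B A).1, (dvf K ι J Ω B A).2.1, ← dd_eq]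

theorem il_st (B : Base ι J Ω) (σ : A ≃ₐ[K] A) (s : 𝓞 K) :
    (IL A (Ss ι J A s)).map (ta σ) ≤ IL A (Ss ι J A s) := by
  rw [il_eq]
  rintro _ ⟨_, ⟨p, a, rfl⟩, rfl⟩
  exact ⟨_, ((dvf K ι J Ω B A).2.2 A).2.2.1 σ (fun x => ⟨σ x, rfl⟩) ⟨p, a, rfl⟩,
    (dvf K ι J Ω B A).2.1 σ s p⟩

theorem ss_le (s : 𝓞 K) : Ss ι J A 1 ⊆ Ss ι J A s := fun P h => h.elim .inl fun h =>
  absurd (by simpa using h) P.isPrime.one_notMem

theorem im_le (σ : A ≃ₐ[K] A) (s : 𝓞 K) : IM ι J σ A (Ss ι J A s) ≤ IL A (Ss ι J A s) := by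
  rintro _ ⟨_, ⟨⟨p, a, rfl⟩, -⟩, rfl⟩
  refine ⟨p, a, funext fun P => ?_⟩
  by_cases k : P ∈ Ss ι J A s
  · simp [pj, k]
  · simp [pj, k, mt (@ss_le K _ _ ι J A _ _ _ s P) k]

theorem ul_le (B : Base ι J Ω) {L : Type} [Field L] [Algebra L A] (m : ℕ) :
    (UL ι J L (m + 1) : Subgroup Aˣ) ≤ UL ι J L m :=
  inf_le_inf_right _ ((umf K ι J Ω B A).1.le m)

theorem ul_cb (B : Base ι J Ω) {L : Type} [Field L] [Algebra L A] (hm : 2 ≤ m) {x : Aˣ}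
    (h : x ∈ UL ι J L m) : x ^ 3 ∈ UL ι J L (m + 1) :=
  ⟨(umf K ι J Ω B A).1.cb m hm ⟨x, h.1, rfl⟩, pow_mem h.2 3⟩

/-- the two indices of the minus part -/
theorem two (pq : PQ) (rku : RKU) (B : Base ι J Ω) (L L₂ : Type) [Field L] [NumberField L] [Field L₂]
    [NumberField L₂] [Algebra K L] [Algebra K L₂] [Algebra L L₂] [Algebra L A] [Algebra L₂ A]
    [IsScalarTower K L L₂] [IsScalarTower K L₂ A] [IsScalarTower L L₂ A] [IsScalarTower K L A]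
    {τ : L₂ ≃ₐ[L] L₂} {σ : A ≃ₐ[K] A} (d : finrank L L₂ = 2) (ne : τ ≠ 1)
    (c : ∀ x, algebraMap L₂ A (τ x) = σ (algebraMap L₂ A x)) (hm : 2 ≤ m) :
    (mi (ua σ) (UL ι J L₂ (m + 1))).relIndex (mi (ua σ) (UL ι J L₂ m)) = 3 ^ finrank K L ∧
    ic (mi (ua σ) (UL ι J L₂ m) ⊓ (dd (∅ : Set (Pr A))).ker) = 3 ^ finrank K L := by
  have p (n : ℕ) := pq K ι J Ω B A L L₂ τ σ d ne c n ∅ fun p => by rw [pj_emp, pj_emp]
  have r : finrank K L₂ = finrank K L + finrank K L := by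
    rw [← finrank_mul_finrank K L L₂, d, mul_two]
  constructor
  · have := (pmi _ (ua σ) _ _ (UL ι J L (m + 1)) (UL ι J L₂ (m + 1)) (p m).le (p m).fx (p m).st).2
      (ul_le B m) (le_antisymm (le_inf (p _).le (ul_le B m)) fun x h => ⟨h.1.1, h.2.2⟩)
      (fun x h => ((p _).st x h).1) (by rintro _ ⟨x, a, rfl⟩; exact ul_cb B hm a)
    rw [((umf K ι J Ω B A).2.2.2 L₂).2 m 1 (by omega), ((umf K ι J Ω B A).2.2.2 L).2 m 1 (by omega),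
      mul_one, mul_one, r, pow_add] at this
    exact (Nat.eq_of_mul_eq_mul_left (by positivity) this).symm
  · have := (pmi _ (ua σ) (UL ι J L m ⊓ (dd (∅ : Set (Pr A))).ker) (UL ι J L₂ m ⊓ (dd ∅).ker) ⊥ ⊥
      (inf_le_inf_right _ (p m).le) (fun x h => (p m).fx x h.1) fun x h =>
        have e : dd ∅ (ua σ x) = 1 := by rw [(p m).eq, show dd ∅ x = 1 from h.2, map_one]
        ⟨⟨((p m).st x h.1).1, e⟩, ((p m).st x h.1).2.1, ((p m).st x h.1).2.2, mul_mem h.2 e⟩).1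
    have a := rku K ι J Ω B A L₂ m hm
    rw [this, ← mul_assoc, rku K ι J Ω B A L m hm, r, pow_add, mn, inf_right_comm] at a
    exact Nat.eq_of_mul_eq_mul_left (by positivity) a

end Hb

open Hb

/-- **row HB** -/
theorem hb (pq : PQ) (pc : PC) (rku : RKU) (mp3 : MP3) : HB := by
  intro K _ _ ι J Ω B q γ k s c hγ pN hθ s0 m hm Z _ κ hκ hZ
  have hm' : 2 ≤ m + 1 := hm.trans m.le_succ
  have fi := (umf K ι J Ω B q.A).1
  have pj' := (dvf K ι J Ω B q.A).2.1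
  have p3 (n : ℕ) (h : 2 ≤ n) := mp3 K ι J Ω B q n _ h (ss_le s) (Df.fin_S s0) (pj' q.ρ s)
  have c1 : q.ρ * γ = γ * q.ρ := hγ ▸ (Commute.pow_self γ _ :)
  have c2 : q.σ * q.ρ = q.ρ * q.σ := AlgEquiv.ext q.cm
  have tA (n : ℕ) (h : 2 ≤ n) := two pq rku B q.E q.A (σ := q.σ) q.d2' q.ne' (fun _ => rfl) h
  have tN (n : ℕ) (h : 2 ≤ n) := two pq rku B q.M q.N (σ := q.σ) q.d2 q.ne q.ct h
  have rE : finrank K q.E = 3 * finrank K q.M := by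
    rw [← finrank_mul_finrank K q.M q.E, q.d3, mul_comm]
  rw [rE] at tA
  have pA := pq K ι J Ω B q.A q.E q.A q.τ' q.σ q.d2' q.ne' (fun _ => rfl) m ∅
    fun p => by rw [pj_emp, pj_emp]
  have pN' := pq K ι J Ω B q.A q.M q.N q.τ q.σ q.d2 q.ne q.ct (m + 1) ∅
    fun p => by rw [pj_emp, pj_emp]
  have e0 := (dvf K ι J Ω B q.A).1 q.ρ
  have n1 : ic (Em (dd (Ss ι J q.A s)) (ua q.ρ) (q.Ua ι J (m + 1))) ≠ 0 := by
    rw [Em, inf_right_comm]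
    exact Df.i2_fin (Df.fin_S s0) _
  have lv := lva _ (ua q.ρ) (q.Un ι J (m + 1)) (q.Ua ι J (m + 1)) (q.Un ι J m) (q.Ua ι J m)
    (q.Un ι J (m + 1) ⊓ (dd ∅).ker) (q.Ua ι J (m + 1) ⊓ (dd ∅).ker)
    (Em (dd (Ss ι J q.A s)) (ua q.ρ) (q.Ua ι J (m + 1))) (finrank K q.M)
    (inf_le_inf_right _ (ul_le B m)) (inf_le_inf_right _ (ul_le B m))
    (by rintro _ ⟨x, a, rfl⟩; exact ((p3 m hm).1.st x a).2.2)
    (by rintro _ ⟨x, a, rfl⟩; exact ((p3 _ hm').1.st x a).2.2) (fun x a => ?_) (tA m hm).1 (tN m hm).1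
    (inf_le_inf_right _ (p3 _ hm').1.le) (fun x a => (p3 _ hm').1.fx x a.1) ?_
    (fun x a => fi_tf fi hm' a.1.1.1) (tA _ hm').2 (tN _ hm').2
    (fun x a => ⟨⟨a.1.1, show _ = _ by rw [dd_eq, show dd ∅ x = 1 from a.1.2, map_one]⟩, a.2⟩)
    (fun x a b => ⟨⟨a.1.1, ?_⟩, a.2⟩) n1
  · refine a3 _ _ _ _ _ (ua γ) (ta γ) _ _ (q.Ua ι J m) _ _ k (p3 _ hm').1
      ⟨inf_le_inf_right _ (ul_le B m), ?_, (p3 m hm).1.dv, fun x a => ((p3 m hm).1.st x a).1,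
        fun x a => fi_tf fi hm a.1.1, lv.1, n1, lv.2⟩
      ⟨dd_ua B γ s, ua_cm c1, ta_cm c1, ⟨mi_map (ua_cm c.symm) (ul_st B pN _),
        mi_map (ua_cm c.symm) (ul_st B (fun x => ⟨γ x, rfl⟩) _), ?_⟩,
        fun x _ => by rw [ua_pow, hγ], fun p _ => by rw [ta_pow, hγ]⟩ (p3 _ hm').2.1 Z κ
      (fun x a y b u v e => ?_) hZ
    · rintro _ ⟨x, a, rfl⟩
      exact ⟨ul_cb B hm a.1, pow_mem a.2 3⟩
    · rintro _ ⟨_, ⟨p, a, rfl⟩, rfl⟩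
      exact ⟨_, mi_map (ta_cm c.symm) (il_st B γ 1) ⟨p, a, rfl⟩, pj' γ s p⟩
    · obtain ⟨w, h, e⟩ := hκ x ⟨a.1.1, a.2⟩ y ⟨b.1.1, b.2⟩ (Subgroup.map_mono (im_le _ s) u)
        (Subgroup.map_mono (im_le _ s) v) e
      refine ⟨w, ⟨⟨h, w, rfl⟩, fi_tf fi hm (mul_mem h ((umf K ι J Ω B q.A).2.2.1 m q.σ ⟨w, h, rfl⟩))
        ?_⟩, e⟩
      exact (map_pow (nm (ua q.σ)) w 3).symm.trans
        ((congrArg _ e).trans (div_mem a.2 b.2 : x / y ∈ (nm (ua q.σ)).ker))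
  · obtain ⟨_, ⟨y, u, rfl⟩, z, v, e⟩ := Subgroup.mem_sup.1
      ((pc K ι J Ω B q.A q.N q.A q.ω' q.ρ q.d3' q.o3' (fun _ => rfl) m).2.2 hm hθ a.1)
    have f : x = x ^ 3 / (n3 (ua q.ρ) (y / ua q.σ y) * (z / ua q.σ z)) := by
      have g : n3 (ua q.ρ) (ua q.σ y) = ua q.σ (n3 (ua q.ρ) y) := by
        simp only [n3, MonoidHom.mul_apply, MonoidHom.id_apply, MonoidHom.comp_apply, map_mul,
          ua_cm c2]
      rw [map_div, g, div_mul_div_comm, ← map_mul, e,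
        eq_inv_of_mul_eq_one_right (show x * ua q.σ x = 1 from a.2), div_inv_eq_mul, pow_three,
        mul_div_cancel_right]
    have s1 {U U' : Subgroup q.Aˣ} {y} (h : ua q.σ y ∈ U ∧ ua q.σ (ua q.σ y) = y ∧ y * ua q.σ y ∈ U')
        (u : y ∈ U) : y / ua q.σ y ∈ mi (ua q.σ) U := ⟨U.div_mem u h.1,
      show y / ua q.σ y * ua q.σ (y / ua q.σ y) = 1 by
        rw [map_div, h.2.1, div_mul_div_cancel, div_self']⟩
    rw [f]
    exact div_mem (Subgroup.mem_sup_right ⟨ul_cb B hm a.1, pow_mem a.2 3⟩)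
      (Subgroup.mul_mem_sup ⟨_, s1 (pA.st y u) u, rfl⟩ (s1 (pN'.st z v) v))
  · rintro _ ⟨x, a, rfl⟩
    refine ⟨((p3 _ hm').1.st x a.1).2.2, show _ = _ from ?_⟩
    simp only [n3, MonoidHom.mul_apply, MonoidHom.id_apply, MonoidHom.comp_apply, map_mul, e0,
      show dd ∅ x = 1 from a.2, map_one, mul_one]
  · have := (map_pow (dd ∅) x 3).symm.trans b.1.2
    exact funext fun P => (pow_eq_one_iff.1 (congrFun this P)).resolve_right three_ne_zero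

end Vale.Agent.P014Y.C.Al
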