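import Vale.Agent.P014Y.C.Al.St1
import Vale.Agent.P014Y.C.Al.Umf
import Vale.Agent.P014Y.C.Al.Dvf
import Vale.Agent.P004C.Al.Pai
import Vale.Agent.P004C.Al.Cub0

/-!
# P014 Y, block AL: quadratic and cubic pairs, the rank of the units (rows PQ, PC, RKU)
-/

set_option linter.all false

open NumberField Module IsDedekindDomain
open scoped Classical

noncomputable section

namespace Vale.Agent.P014Y.C.Al

open Vale.Agent.P027M.S (Pr)
open Vale.Agent.P022K.Exi (od od_one od_int)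
open Vale.Agent.P004C.Al.Cb (ua_mul ua_one ta_mul ta_one dd_eq il_eq)
open Vale.Agent.P004C.Al.Pi2 (rk_eq ad dd_one int_of)

namespace Pq

variable {K : Type} [Field K] [NumberField K] {ι : ℂ →+* ℂ_[3]} {J : K →+* ℂ} {Ω : ℝ}
  {A : Type} [Field A] [NumberField A] [Algebra K A]

theorem rk_unit (B : Base ι J Ω) (L : Type) [Field L] [NumberField L]
    [Algebra K L] [Algebra L A] [IsScalarTower K L A] {m : ℕ} (hm : 1 ≤ m) :
    Module.Finite ℤ (ad (UL ι J L m ⊓ (dd ∅).ker : Subgroup Aˣ)) ∧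
    finrank ℤ (ad (UL ι J L m ⊓ (dd ∅).ker : Subgroup Aˣ)) + 1 = finrank K L := by
  let f : (𝓞 L)ˣ →* Aˣ := Units.map ((algebraMap L A).comp (algebraMap (𝓞 L) L) : 𝓞 L →* A)
  have fi : Function.Injective f :=
    Units.map_injective ((algebraMap L A).injective.comp RingOfIntegers.coe_injective)
  let F : Additive (𝓞 L)ˣ →ₗ[ℤ] Additive Aˣ := f.toAdditive.toIntLinearMap
  have le : ad (UL ι J L m ⊓ (dd ∅).ker : Subgroup Aˣ) ≤ LinearMap.range F := by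
    rintro x ⟨⟨-, y, rfl⟩, h⟩
    have k : ∀ y : Lˣ, dd ∅ (Units.map (algebraMap L A : L →* A) y) = 1 → IsIntegral ℤ (y : L) :=
      fun y h => (isIntegral_algebraMap_iff (algebraMap L A).injective).1 (int_of h)
    exact ⟨(⟨⟨y, k y h⟩, ⟨(y⁻¹ : Lˣ), k y⁻¹ (by rw [map_inv, map_inv, inv_eq_one]; exact h)⟩,
      RingOfIntegers.ext y.mul_inv, RingOfIntegers.ext y.inv_mul⟩ : (𝓞 L)ˣ), Units.ext rfl⟩
  obtain ⟨N, N0, hN⟩ := Gx.pow_v1 (ι := ι) (J := J) (M := A) m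
  refine ⟨Module.Finite.of_injective (Submodule.inclusion le) (Submodule.inclusion_injective _), ?_⟩
  rw [rk_eq le N0, LinearMap.finrank_range_of_inj fi, Units.finrank_eq, Gx.rank_eq B rfl]
  rintro _ ⟨u, rfl⟩
  have hu := (Units.isUnit u.toMul).map (algebraMap (𝓞 L) (𝓞 A))
  show f u.toMul ^ N ∈ (UL ι J L m ⊓ (dd ∅).ker : Subgroup Aˣ)
  refine Subgroup.mem_inf.2 ⟨Subgroup.mem_inf.2 ⟨(Uf.um_iff hm).2 ?_,
    pow_mem (MonoidHom.mem_range.2 ⟨Units.map (algebraMap (𝓞 L) L : 𝓞 L →* L) u.toMul, rfl⟩) N⟩,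
    pow_mem ?_ N⟩
  · rw [Units.val_pow_eq_pow_val]
    exact hN (algebraMap (𝓞 L) (𝓞 A) u.toMul)
      (by rw [Ideal.span_singleton_eq_top.2 hu, top_sup_eq])
  exact dd_one.2 fun P _ => (od_int (a := algebraMap (𝓞 L) (𝓞 A) u.toMul) rfl).2
    (P.asIdeal.notMem_of_isUnit hu)

theorem ic_eq {X : Type} [CommGroup X] (P : Subgroup X) [Module.Finite ℤ (ad P)]
    (tf : ∀ x ∈ P, ∀ k : ℕ, k ≠ 0 → x ^ k = 1 → x = 1) : ic P = 3 ^ finrank ℤ (ad P) := by
  have : IsAddTorsionFree (ad P) := ⟨fun k k0 x y e => by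
    have := tf (x - y).1.toMul (x - y).2 k k0 (congrArg Subtype.val
      (show k • (x - y) = 0 by rw [smul_sub]; exact sub_eq_zero.2 e))
    exact sub_eq_zero.1 (Subtype.ext this)⟩
  have : Module.Finite ℤ P.toAddSubgroup.toIntSubmodule := ‹Module.Finite ℤ (ad P)›
  have : Module.Free ℤ P.toAddSubgroup.toIntSubmodule := (inferInstance : Module.Free ℤ (ad P))
  exact AddSubgroup.relIndex_map_nsmul 3 P.toAddSubgroup

variable {L L' : Type} [Field L] [NumberField L] [Field L'] [NumberField L'] [Algebra K L]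
  [Algebra K L'] [Algebra L L'] [Algebra L A] [Algebra L' A] [IsScalarTower K L L']
  [IsScalarTower K L' A] [IsScalarTower L L' A] [IsScalarTower K L A] {ω : L' ≃ₐ[L] L'}
  {ρ : A ≃ₐ[K] A} {m d : ℕ} {S : Set (Pr A)}

theorem ul_le : (UL ι J L m : Subgroup Aˣ) ≤ UL ι J L' m := by
  rintro _ ⟨h, x, rfl⟩
  exact ⟨h, Units.map (algebraMap L L' : L →* L') x,
    Units.ext (IsScalarTower.algebraMap_apply L L' A _).symm⟩

theorem cm_pow (hS : ∀ p, pj S (ta ρ p) = ta ρ (pj S p)) (i : ℕ) (p : Dv A) :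
    pj S (ta (ρ ^ i) p) = ta (ρ ^ i) (pj S p) := by
  induction i with
  | zero => rw [pow_zero, ta_one, ta_one]
  | succ i ih => rw [pow_succ', ta_mul, ta_mul, hS, ih]

variable (e : ∀ x, algebraMap L' A (ω x) = ρ (algebraMap L' A x))

include e

theorem fxL (y : L) : ρ (algebraMap L A y) = algebraMap L A y := by
  rw [IsScalarTower.algebraMap_apply L L' A, ← e, ω.commutes]

theorem pw (i : ℕ) (x : L') : algebraMap L' A ((ω ^ i) x) = (ρ ^ i) (algebraMap L' A x) := by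
  induction i with
  | zero => rfl
  | succ i ih => rw [pow_succ', pow_succ', AlgEquiv.mul_apply, AlgEquiv.mul_apply, e, ih]

theorem fx (x : Aˣ) (h : x ∈ (UL ι J L m : Subgroup Aˣ)) : ua ρ x = x := by
  obtain ⟨-, y, rfl⟩ := h
  exact Units.ext (fxL e y)

theorem nrm (h : finrank L L' = d) (o : orderOf ω = d) (x : L'ˣ) :
    ∏ i ∈ Finset.range d, ua (ρ ^ i) (Units.map (algebraMap L' A : L' →* A) x) =
      Units.map (algebraMap L A : L →* A) (Units.map (Algebra.norm L) x) := by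
  refine Units.ext ?_
  rw [Units.coe_prod]
  change ∏ i ∈ Finset.range d, (ρ ^ i) (algebraMap L' A x) = algebraMap L A (Algebra.norm L x.1)
  simp only [← pw e]
  rw [← map_prod, Df.prod_gal h o, ← IsScalarTower.algebraMap_apply]

theorem st (B : Base ι J Ω) (h : finrank L L' = d) (o : orderOf ω = d) (x : Aˣ)
    (hx : x ∈ (UL ι J L' m : Subgroup Aˣ)) : ua ρ x ∈ UL ι J L' m ∧ ua (ρ ^ d) x = x ∧
      ∏ i ∈ Finset.range d, ua (ρ ^ i) x ∈ UL ι J L m := by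
  obtain ⟨a, y, rfl⟩ := hx
  have u := fun σ => (umf K ι J Ω B A).2.2.1 m σ ⟨_, a, rfl⟩
  refine ⟨⟨u ρ, Units.map (ω : L' →* L') y, Units.ext (e y)⟩, Units.ext ?_,
    prod_mem fun i _ => u _, _, (nrm e h o y).symm⟩
  refine (pw e d y).symm.trans ?_
  rw [← o, pow_orderOf_eq_one]
  rfl

theorem st' (B : Base ι J Ω) (h : finrank L L' = d) (o : orderOf ω = d)
    (hS : ∀ p, pj S (ta ρ p) = ta ρ (pj S p)) (p : Dv A) (hp : p ∈ IL L' S) :
    ta ρ p ∈ IL L' S ∧ ta (ρ ^ d) p = p ∧ ∏ i ∈ Finset.range d, ta (ρ ^ i) p ∈ IL L S := by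
  obtain ⟨-, -, d2⟩ := dvf K ι J Ω B A
  rw [il_eq L'] at hp ⊢
  rw [il_eq L]
  obtain ⟨p, hp, rfl⟩ := hp
  refine ⟨⟨_, (d2 L').2.2.1 ρ (fun y => ⟨ω y, (e y).symm⟩) ⟨p, hp, rfl⟩, hS p⟩, ?_,
    _, ((d2 L).2.2.2.2 L').2.1 d ρ ω h o e p hp, ?_⟩
  · rw [← cm_pow hS, ((d2 L').2.1 _ fun y => by rw [← pw e, ← o, pow_orderOf_eq_one]; rfl).1 p hp]
  · simp only [map_prod, cm_pow hS]

theorem base (B : Base ι J Ω) (hS : ∀ p, pj S (ta ρ p) = ta ρ (pj S p)) :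
    (∀ x, dd S (ua ρ x) = ta ρ (dd S x)) ∧ IL L S ≤ IL L' S ∧ (∀ p ∈ IL L S, ta ρ p = p) ∧
      (UL ι J L m).map (dd S) ≤ IL L S ∧ (UL ι J L' m).map (dd S) ≤ IL L' S := by
  obtain ⟨d1, -, d2⟩ := dvf K ι J Ω B A
  rw [il_eq L', il_eq L]
  refine ⟨fun x => by rw [dd_eq, d1, hS, ← dd_eq], Subgroup.map_mono ((d2 L).2.2.2.2 L').1,
    ?_, ?_, ?_⟩
  · rintro _ ⟨p, hp, rfl⟩
    rw [← hS, ((d2 L).2.1 ρ (fxL e)).1 p hp]
  · rintro _ ⟨_, ⟨-, y, rfl⟩, rfl⟩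
    exact ⟨_, (d2 L).1 y, (dd_eq S _).symm⟩
  · rintro _ ⟨_, ⟨-, y, rfl⟩, rfl⟩
    exact ⟨_, (d2 L').1 y, (dd_eq S _).symm⟩

end Pq

open Pq

theorem rku : RKU := fun K _ _ ι J Ω B A L _ _ _ _ _ _ _ _ m hm => by
  obtain ⟨a, b⟩ := rk_unit (A := A) B L (m := m) (by omega)
  have t : ∀ x ∈ (UL ι J L m ⊓ (dd ∅).ker : Subgroup Aˣ), ∀ k : ℕ, k ≠ 0 → x ^ k = 1 → x = 1 := by
    rintro x ⟨⟨c, -⟩, -⟩ k k0 e
    exact Units.ext (Gx.v1_tf hm k0 ((Uf.um_iff (by omega)).1 c)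
      (by simpa using congrArg Units.val e))
  rw [ic_eq _ t, ← b, pow_succ']

theorem pq : PQ := by
  intro K _ _ ι J Ω B A L L₂ _ _ _ _ _ _ _ _ _ _ _ _ _ _ _ _ τ σ two t1 e m S hS
  have : Algebra.IsQuadraticExtension L L₂ := ⟨two⟩
  have hc : Nat.card Gal(L₂/L) = 2 := by rw [IsGalois.card_aut_eq_finrank, two]
  have o : orderOf τ = 2 := orderOf_eq_prime (hc ▸ pow_card_eq_one') t1
  obtain ⟨a1, a2, a3, a4, a5⟩ := base (m := m) e B hS
  refine ⟨a1, ul_le, fx e, fun x hx => ?_, a2, a3, fun p hp => ?_, a4, a5, fun p _ h =>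
    funext fun P => (pow_eq_one_iff_left two_ne_zero).1 (congrFun h P)⟩
  · simpa only [Finset.prod_range_succ, Finset.prod_range_zero, one_mul, pow_zero, pow_one, pow_two,
      ua_mul, ua_one] using st e B two o x hx
  · simpa only [Finset.prod_range_succ, Finset.prod_range_zero, one_mul, pow_zero, pow_one, pow_two,
      ta_mul, ta_one] using st' e B two o hS p hp

theorem pc : PC := by
  intro K _ _ ι J Ω B A L L₃ _ _ _ _ _ _ _ _ _ _ _ _ _ _ _ _ ω ρ h o e m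
  have n1 : ∀ x, n3 (ua ρ) x = ∏ i ∈ Finset.range 3, ua (ρ ^ i) x := fun x => by
    simp only [Finset.prod_range_succ, Finset.prod_range_zero, one_mul, pow_zero, pow_one, pow_two,
      ua_mul, ua_one]
    rfl
  have n2 : ∀ x, n3 (ta ρ) x = ∏ i ∈ Finset.range 3, ta (ρ ^ i) x := fun x => by
    simp only [Finset.prod_range_succ, Finset.prod_range_zero, one_mul, pow_zero, pow_one, pow_two,
      ta_mul, ta_one]
    rfl
  refine ⟨fun S hS => ?_, fun x => (n1 _).trans (nrm e h o x), fun hm ⟨θ, hθ, tr⟩ => ?_⟩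
  · obtain ⟨a1, a2, a3, a4, a5⟩ := base (m := m) e B hS
    refine ⟨a1, ul_le, fx e, fun x hx => ?_, a2, a3, fun p hp => ?_, a4, a5, fun p _ h =>
      funext fun P => (pow_eq_one_iff_left three_ne_zero).1 (congrFun h P)⟩
    · simpa only [n1, pow_three, ua_mul] using st e B h o x hx
    · simpa only [n2, pow_three, ta_mul] using st' e B h o hS p hp
  have m1 : 1 ≤ m := by omega
  rintro x ⟨a, y, rfl⟩
  obtain ⟨c, hc, ec⟩ := Gx.v1_iff.1 ((Uf.um_iff m1).1 a)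
  have ht : algebraMap L₃ A θ ∈ Gx.Ov ι J A := (((umf K ι J Ω B A).2.2.2 L₃).1 θ).2 hθ
  have t1 : algebraMap L₃ A θ + ρ (algebraMap L₃ A θ) + ρ (ρ (algebraMap L₃ A θ)) = 1 := by
    have : FiniteDimensional L L₃ := Module.Finite.of_restrictScalars_finite ℚ L L₃
    have h3 : Nat.card (L₃ ≃ₐ[L] L₃) = 3 := le_antisymm
      (by rw [Nat.card_eq_fintype_card, ← h]; exact AlgEquiv.card_le) (o ▸ orderOf_le_card)
    have : IsGalois L L₃ := IsGalois.of_card_aut_eq_finrank _ _ (h3.trans h.symm)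
    have h4 : Subgroup.zpowers ω = ⊤ :=
      Subgroup.eq_top_of_card_eq _ (by rw [Nat.card_zpowers, o, h3])
    have k := trace_eq_sum_automorphisms (K := L) θ
    rw [tr, map_one, ← IsCyclic.image_range_orderOf (a := ω) fun x => h4 ▸ Subgroup.mem_top x,
      Finset.sum_image fun i hi j hj => pow_injOn_Iio_orderOf (by simpa using hi)
        (by simpa using hj), o] at k
    rw [← e, ← e, ← map_add, ← map_add, ← map_one (algebraMap L₃ A), k]
    simp [Finset.sum_range_succ, pow_two]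
  generalize hx : Units.map (algebraMap L A : L →* A) y = x at a ec
  have ex : algebraMap L A y = x := congrArg Units.val hx
  have v : V1 ι J m (1 + (x - 1) * algebraMap L₃ A θ) :=
    Gx.v1_iff.2 ⟨_, mul_mem hc ht, by rw [ec]; ring⟩
  have hw : Units.mk0 _ (Gx.v1_unit m1 v).1 ∈ UL ι J L₃ m := ⟨(Uf.um_iff m1).2 v,
    Units.mk0 (1 + (algebraMap L L₃ y - 1) * θ) fun z => (Gx.v1_unit m1 v).1 (by
      simpa [← IsScalarTower.algebraMap_apply, ex] using congrArg (algebraMap L₃ A) z),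
    Units.ext (by simp [← IsScalarTower.algebraMap_apply, ex])⟩
  set w := Units.mk0 _ (Gx.v1_unit m1 v).1
  have h1 : ρ (algebraMap L₃ A θ) ∈ Gx.Ov ι J A := Uf.vi_act ρ ht
  have h2 : ρ (ρ (algebraMap L₃ A θ)) ∈ Gx.Ov ι J A := Uf.vi_act ρ h1
  rw [← mul_inv_cancel_left (n3 (ua ρ) w) x, ← inv_inv x, ← mul_inv]
  refine mul_mem (Subgroup.mem_sup_left ⟨w, hw, rfl⟩) (Subgroup.mem_sup_right (inv_mem
    ⟨(Uf.um_iff (by omega)).2 (Gx.v1_mono (m' := 2 * m) (by omega) (Gx.v1_iff.2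
      ⟨_, mul_mem (mul_mem (mul_mem hc hc) (add_mem (add_mem (add_mem (mul_mem ht h1)
        (mul_mem ht h2)) (mul_mem h1 h2)) (mul_mem (mul_mem (pow_mem (ofNat_mem _ 3) m) hc)
          (mul_mem (mul_mem ht h1) h2)))) (Gx.v1_unit m1 ((Uf.um_iff m1).1 a)).2, ?_⟩)),
      Subgroup.mul_mem _ (n1 w ▸ (st e B h o w hw).2.2.2) (Subgroup.inv_mem _ ⟨y, hx⟩)⟩))
  have ρx : ρ x = x := ex ▸ fxL e y
  show (1 + (x - 1) * algebraMap L₃ A θ) * ρ (1 + (x - 1) * algebraMap L₃ A θ) *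
    ρ (ρ (1 + (x - 1) * algebraMap L₃ A θ)) * ((x⁻¹ : Aˣ) : A) = _
  simp only [map_add, map_mul, map_sub, map_one, ρx, Units.val_inv_eq_inv_val]
  have x0 := x.ne_zero
  field_simp
  rw [ec]
  linear_combination 3 ^ m * c * t1

end Vale.Agent.P014Y.C.Al
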