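import Vale.Agent.P014Y.C.Al.Pj
import Vale.Agent.P014Y.C.Al.Pq
import Vale.Agent.P014Y.C.Al.Spl
import Vale.Agent.P014Y.C.Al.Gb0

/-!
# P014 Y, block AL: row JM (helper27)
-/

set_option linter.all false

open NumberField Module IsDedekindDomain
open scoped Classical

noncomputable section

namespace Vale.Agent.P014Y.C.Al

open Vale.Agent.P027M.S (Pr)
open Df Pjk Subgroup

namespace J2

variable {K : Type} [Field K] [NumberField K] (q : Sq K)

theorem ine_cj {w : Ideal (𝓞 q.N)} (h : Ine q.A w) : Ine q.A (cj q.τ w) := by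
  have := Spl.cj_max (τ := q.τ') h
  rw [Spl.cj_map q.d2' q.ne'] at this
  rw [Ine, Spl.cj_map q.d2 q.ne]
  convert this using 1
  refine (Ideal.map_map (RingOfIntegers.mapAlgEquiv q.τ : 𝓞 q.N →+* 𝓞 q.N) _).trans
    (Eq.trans ?_ (Ideal.map_map _ (RingOfIntegers.mapAlgEquiv q.τ' : 𝓞 q.A →+* 𝓞 q.A)).symm)
  congr 1
  exact RingHom.ext fun x => RingOfIntegers.ext (q.ct x)

theorem ovr {w Q : Ideal (𝓞 q.N)} (hw : w.IsMaximal) (hQ : Q.IsMaximal)
    (e : w.under (𝓞 q.M) = Q.under (𝓞 q.M)) : Q = w ∨ Q = cj q.τ w := by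
  have : w * cj q.τ w ≤ Q := by
    rw [← Spl.rn_map q.d2 q.ne]
    exact Ideal.map_le_iff_le_comap.2 ((Ideal.relNorm_le_comap _ w).trans e.le)
  exact (hQ.isPrime.mul_le.1 this).imp (fun k => (hw.eq_of_le hQ.ne_top k).symm)
    fun k => ((Spl.cj_max hw).eq_of_le hQ.ne_top k).symm

theorem fin (L : Type) [Field L] [NumberField L] [Algebra K L] {s : 𝓞 K} (s0 : s ≠ 0) :
    (Ps L s).Finite :=
  ((Ideal.finite_factors (I := Ideal.span {algebraMap (𝓞 K) (𝓞 L) s}) (by simpa using s0)).image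
    (·.asIdeal)).subset fun P k => ⟨⟨P, k.1.isPrime, Ring.ne_bot_of_isMaximal_of_not_isField k.1
      (RingOfIntegers.not_isField _)⟩, Ideal.dvd_span_singleton.2 k.2, rfl⟩

end J2

/-- **row JM** -/
theorem jm' (two : TWO) : JM := by
  intro K _ _ ι J Ω B q s hs hP hP' n w S inj hw hS m hm Y _ F hF hJ
  have s0 : s ≠ 0 := fun e => by simp [e] at hs
  have tw := (IsScalarTower.algebraMap_apply (𝓞 K) (𝓞 q.M) (𝓞 q.A) s).symm
  have tn := (IsScalarTower.algebraMap_apply (𝓞 K) (𝓞 q.M) (𝓞 q.N) s).symm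
  have mx : ∀ i, ((w i).under (𝓞 q.M)).IsMaximal := fun i => have := (hw i).1; inferInstance
  have c : ∀ p, pj S (ta q.ρ p) = ta q.ρ (pj S p) := hS ▸
    (((dvf K ι J Ω B q.A).2.2 q.M).2.1 q.ρ fun x => by
      rw [IsScalarTower.algebraMap_apply q.M q.N q.A]
      exact q.ω'.commutes _).2 _ _
  have e0 : S = {P | Av ι J P.asIdeal ∨
      P.asIdeal.under (𝓞 q.M) ∈ Set.range fun i => (w i).under (𝓞 q.M)} :=
    hS.trans (Set.ext fun P => or_congr_right (exists_congr fun i => ⟨fun k => (mx i).eq_of_le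
      (Ideal.IsPrime.under _ P.asIdeal).ne_top (Ideal.map_le_iff_le_comap.1 k),
      fun k => Ideal.map_le_iff_le_comap.2 k.le⟩))
  have sb : {Q : Ideal (𝓞 q.N) | Q.IsMaximal ∧
      Q.under (𝓞 q.M) ∈ Set.range fun i => (w i).under (𝓞 q.M)} ⊆
      Set.range w ∪ Set.range fun i => cj q.τ (w i) := by
    rintro Q ⟨a, i, e⟩
    exact (J2.ovr q (hw i).1 a e).imp (fun k => ⟨i, k.symm⟩) fun k => ⟨i, k.symm⟩
  have a := two K ι J Ω B q m hm _ _ S (Set.finite_range fun i => (w i).under (𝓞 q.M))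
    (by
      rintro _ ⟨i, rfl⟩
      exact ⟨mx i, (hw i).2.2.2, pv_under.2 (Gx.pv_two ((hw i).1.out.2 _
        (left_lt_sup.2 (mt (Ideal.span_singleton_le_iff_mem _).1 (hw i).2.1))))⟩) rfl
    (fun Q k => by
      rcases sb k with ⟨i, rfl⟩ | ⟨i, rfl⟩
      exacts [(hw i).2.2.1, J2.ine_cj q (hw i).2.2.1]) e0
  have le := (Set.ncard_le_ncard sb ((Set.finite_range _).union (Set.finite_range _))).trans
    (Set.ncard_union_le _ _)
  have r : ∀ f : Fin n → Ideal (𝓞 q.N), (Set.range f).ncard ≤ n := fun f => by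
    rw [← Set.image_univ]
    exact (Set.ncard_image_le).trans (by simp)
  have r1 := r w
  have r2 := r fun i => cj q.τ (w i)
  have b := two K ι J Ω B q m hm (Ps q.M s) (Ps q.N s) (Ss ι J q.A s) (J2.fin _ s0)
    (fun P k => ⟨k.1, hP P k, s, hs, k.2⟩)
    (Set.ext fun Q => and_congr_right fun k =>
      ⟨fun a => ⟨inferInstance, by rwa [Ideal.mem_comap, tn]⟩, fun a => tn ▸ a.2⟩) hP'
    (Set.ext fun P => or_congr_right
      ⟨fun k => ⟨haveI := P.isMaximal; Ideal.IsMaximal.under _ _, by rwa [Ideal.mem_comap, tw]⟩,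
        fun k => tw ▸ k.2⟩)
  have fS : S.Finite := by
    rw [e0]
    refine ((fin_S (ι := ι) (J := J) (A := q.A) one_ne_zero).union
      (Set.finite_iUnion fun i => Ideal.finite_factors (I := xt q.M ((w i).under (𝓞 q.M)))
        (xt_ne _ (Ring.ne_bot_of_isMaximal_of_not_isField (mx i)
          (RingOfIntegers.not_isField _))))).subset fun P k => k.imp s1.2 fun ⟨i, e⟩ =>
      Set.mem_iUnion.2 ⟨i, Ideal.dvd_iff_le.2 (Ideal.map_le_iff_le_comap.2 e.le)⟩
  obtain ⟨p, n1, n2⟩ := mp3 pq pc K ι J Ω B q m S hm (fun P h => e0 ▸ .inl (s1.1 h)) fS c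
  have d : _ * q.cM ι J S m ∣ _ * q.hM ι J S m := a1 _ _ _ _ _ _ F _ _ _ _ p hF hJ n1
  have n0 := mul_ne_zero hJ n1
  have n3 := left_ne_zero_of_mul (ne_zero_of_dvd_ne_zero n0 d)
  have e := (padicValNat_dvd_iff_le (p := 3) n0).1 (pow_padicValNat_dvd.trans d)
  rw [padicValNat.mul n3 n2, padicValNat.mul hJ n1] at e
  rw [Set.ncard_range_of_injective inj, Nat.card_fin] at a
  refine ⟨n3, ?_⟩
  simp only [v3] at *
  omega

end Vale.Agent.P014Y.C.Al
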