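import Vale.Agent.P014Y.C.Al.St2

/-!
# P014 Y, block AL: the row `MEA` (helper28)
-/

set_option linter.all false

open Finset Filter Topology
open scoped Classical

noncomputable section

namespace Vale.Agent.P014Y.C.Al

open Cm

namespace Me

variable {B : ℕ}

theorem small (K : ℝ) {ε : ℝ} (hε : 0 < ε) : ∃ B0 : ℕ, ∀ B, B0 ≤ B → K * (1 / 3) ^ B ≤ ε := by
  have := (tendsto_pow_atTop_nhds_zero_of_lt_one (r := (1 / 3 : ℝ)) (by norm_num)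
    (by norm_num)).const_mul K
  rw [mul_zero] at this
  exact eventually_atTop.1 (this.eventually (ge_mem_nhds hε))

/-- convolution -/
def cc (μ ν : ZMod (3 ^ B) → ℂ) (z : ZMod (3 ^ B)) : ℂ := ∑ x, μ x * ν (z - x)

theorem cc_ch (μ ν : ZMod (3 ^ B) → ℂ) (ω : AddChar (ZMod (3 ^ B)) ℂ) :
    ∑ z, cc μ ν z * ω z = (∑ x, μ x * ω x) * ∑ x, ν x * ω x := by
  rw [Finset.sum_mul_sum]
  simp only [cc, Finset.sum_mul]
  rw [Finset.sum_comm]
  refine Finset.sum_congr rfl fun x _ => ?_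
  rw [← Equiv.sum_comp (Equiv.addLeft x)]
  exact Finset.sum_congr rfl fun y _ => by simp [ω.map_add_eq_mul]; ring

theorem mid0 {μ ν : ZMod (3 ^ B) → ℂ_[3]} {C D a b : ℝ} (h : ∀ x, ‖μ x‖ ≤ C)
    (k : ∀ x, ‖ν x‖ ≤ D) {r s : ℕ} (ha : 0 ≤ a) (hb : 0 ≤ b) (s₁ : ∀ i < r, ‖mo μ i‖ ≤ a)
    (s₂ : ∀ i < s, ‖mo ν i‖ ≤ b) : ‖mo (cv μ ν) (r + s) - mo μ r * mo ν s‖ ≤
      C * D * ((r + s : ℕ) * (1 / 3) ^ B) + (a * D + C * b) := by
  have hC := (norm_nonneg _).trans (h 0)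
  have hD := (norm_nonneg _).trans (k 0)
  have h1 := mo_cv h k (r + s)
  rw [← Finset.sum_erase_add _ _ (a := (r, s)) (by simp)] at h1
  have h2 : ‖∑ p ∈ (antidiagonal (r + s)).erase (r, s), mo μ p.1 * mo ν p.2‖ ≤ a * D + C * b := by
    refine sum_le _ _ (by positivity) fun p hp => ?_
    simp only [mem_erase, HasAntidiagonal.mem_antidiagonal] at hp
    rw [norm_mul]
    by_cases h0 : p.1 < r
    · exact (mul_le_mul (s₁ _ h0) (mo_le k _) (norm_nonneg _) ha).trans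
        (le_add_of_nonneg_right (by positivity))
    · have h3 : p.2 < s := by
        by_contra hc
        exact hp.1 (Prod.ext (by simp; omega) (by simp; omega))
      exact (mul_le_mul (mo_le h _) (s₂ _ h3) (norm_nonneg _) hC).trans
        (le_add_of_nonneg_left (by positivity))
  refine le_trans (le_of_eq ?_) ((norm_add_le _ _).trans (add_le_add h1 h2))
  congr 1
  ring

variable {ι : ℂ →+* ℂ_[3]} {μ ν θ : ZMod (3 ^ B) → ℂ} {σ₁ σ C D a b x : ℝ}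

theorem eq_cv
    (h : ∀ ω : AddChar (ZMod (3 ^ B)) ℂ, ∑ z, ν z * ω z = (∑ z, μ z * ω z) * ∑ z, θ z * ω z) :
    (fun z => ι (ν z)) = cv (fun z => ι (μ z)) fun z => ι (θ z) := by
  rw [eq_of_ch (μ := ν) (ν := cc μ θ) fun ω => by rw [h, cc_ch]]
  funext z
  simp [cc, cv]

theorem mc_le (hσ : 0 < σ) (h : ∀ z, σ * ‖ι (μ z)‖ ≤ C) (i : ℕ) : σ * ‖ι (mc μ i)‖ ≤ C := by
  rw [← mo_mc]
  exact (le_div_iff₀' hσ).1 (mo_le (fun z => (le_div_iff₀' hσ).2 (h z)) i)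

theorem mc_zero (μ : ZMod (3 ^ B) → ℂ) : mc μ 0 = ∑ z, μ z := by simp [mc]

theorem cv_le
    (h : ∀ ω : AddChar (ZMod (3 ^ B)) ℂ, ∑ z, ν z * ω z = (∑ z, μ z * ω z) * ∑ z, θ z * ω z)
    (h₁ : 0 < σ₁) (h₂ : 0 < σ) (b₁ : ∀ z, σ₁ * ‖ι (μ z)‖ ≤ C) (b₂ : ∀ z, σ * ‖ι (θ z)‖ ≤ D) (z) :
    σ₁ * σ * ‖ι (ν z)‖ ≤ C * D := by
  have hC : 0 ≤ C := le_trans (by positivity) (b₁ 0)
  have hD : 0 ≤ D := le_trans (by positivity) (b₂ 0)
  rw [show ι (ν z) = _ from congrFun (eq_cv h) z, ← le_div_iff₀' (mul_pos h₁ h₂)]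
  refine sum_le _ _ (by positivity) fun w _ => ?_
  rw [le_div_iff₀' (mul_pos h₁ h₂), norm_mul, mul_mul_mul_comm]
  exact mul_le_mul (b₁ _) (b₂ _) (by positivity) hC

/-- the leading term of a product -/
theorem mid
    (h : ∀ ω : AddChar (ZMod (3 ^ B)) ℂ, ∑ z, ν z * ω z = (∑ z, μ z * ω z) * ∑ z, θ z * ω z)
    (h₁ : 0 < σ₁) (h₂ : 0 < σ) (b₁ : ∀ z, σ₁ * ‖ι (μ z)‖ ≤ C) (b₂ : ∀ z, σ * ‖ι (θ z)‖ ≤ D)
    {r s : ℕ} (ha : 0 ≤ a) (hb : 0 ≤ b) (s₁ : ∀ i < r, σ₁ * ‖ι (mc μ i)‖ ≤ a)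
    (s₂ : ∀ i < s, σ * ‖ι (mc θ i)‖ ≤ b) :
    |σ₁ * σ * ‖ι (mc ν (r + s))‖ - σ₁ * ‖ι (mc μ r)‖ * (σ * ‖ι (mc θ s)‖)| ≤
      C * D * ((r + s : ℕ) * (1 / 3) ^ B) + (a * D + C * b) := by
  have hs := mul_pos h₁ h₂
  have k := mid0 (μ := fun z => ι (μ z)) (ν := fun z => ι (θ z)) (C := C / σ₁) (D := D / σ)
    (a := a / σ₁) (b := b / σ) (r := r) (s := s) (fun x => (le_div_iff₀' h₁).2 (b₁ x))
    (fun x => (le_div_iff₀' h₂).2 (b₂ x)) (by positivity) (by positivity)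
    (fun i hi => by rw [mo_mc]; exact (le_div_iff₀' h₁).2 (s₁ i hi))
    fun i hi => by rw [mo_mc]; exact (le_div_iff₀' h₂).2 (s₂ i hi)
  rw [← eq_cv h, mo_mc, mo_mc, mo_mc] at k
  have k' := (abs_norm_sub_norm_le _ _).trans k
  rw [norm_mul] at k'
  have := mul_le_mul_of_nonneg_left k' hs.le
  rw [← abs_of_pos hs, ← abs_mul, abs_of_pos hs] at this
  refine le_trans (le_of_eq ?_) (this.trans (le_of_eq ?_))
  · congr 1; ring
  · field_simp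

/-- multiplication by a unit -/
theorem unit
    (h : ∀ ω : AddChar (ZMod (3 ^ B)) ℂ, ∑ z, ν z * ω z = (∑ z, μ z * ω z) * ∑ z, θ z * ω z)
    (hσ : 0 < σ) (h1 : ∀ z, ‖ι (θ z)‖ ≤ 1) (h0 : ‖ι (∑ z, θ z)‖ = 1) :
    ((∀ z, σ * ‖ι (μ z)‖ ≤ C) → ∀ z, σ * ‖ι (ν z)‖ ≤ C) ∧ ∀ {s : ℕ} {ε ε' : ℝ}, 0 ≤ ε' →
      C * s * (1 / 3) ^ B ≤ ε → Mo ι σ μ s C ε' x → Mo ι σ ν s C (2 * ε' + ε) x := by
  have h1' : ∀ z, 1 * ‖ι (θ z)‖ ≤ 1 := fun z => by simpa using h1 z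
  have bd : (∀ z, σ * ‖ι (μ z)‖ ≤ C) → ∀ z, σ * ‖ι (ν z)‖ ≤ C := fun b z => by
    simpa using cv_le h hσ one_pos b h1' z
  refine ⟨bd, fun {s ε ε'} he hε m => ?_⟩
  have hC : 0 ≤ C := le_trans (by positivity) (m.bd 0)
  have key : ∀ i ≤ s, |σ * ‖ι (mc ν i)‖ - σ * ‖ι (mc μ i)‖| ≤ ε + ε' := fun i hi => by
    have := mid (r := i) (s := 0) h hσ one_pos m.bd h1' he le_rfl
      (fun k hk => m.sm k (hk.trans_le hi)) (fun k hk => absurd hk (Nat.not_lt_zero _))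
    rw [mc_zero, h0] at this
    simp only [mul_one, add_zero, mul_zero] at this
    refine this.trans (add_le_add (le_trans ?_ hε) le_rfl)
    rw [mul_assoc]
    gcongr
  refine ⟨bd m.bd, fun i hi => ?_, ?_⟩
  · have := abs_le.1 (key i hi.le)
    linarith [m.sm i hi]
  · have := abs_le.1 (key s le_rfl)
    have := abs_le.1 m.ld
    rw [abs_le]
    constructor <;> linarith

theorem nm_pow {t : ℂ_[3]} (h : ‖t‖ ≤ 1) (h1 : ‖1 - t‖ = 1) (k : ℕ) : ‖1 - t ^ 3 ^ k‖ = 1 := by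
  induction k with
  | zero => simpa using h1
  | succ k ih =>
    have hu : ‖t ^ 3 ^ k‖ ≤ 1 := by rw [norm_pow]; exact pow_le_one₀ (norm_nonneg _) h
    rw [pow_succ, pow_mul]
    generalize t ^ 3 ^ k = u at ih hu
    have e : 1 - u ^ 3 = (1 - u) ^ 3 + 3 * (u * (1 - u)) := by ring
    have a : ‖(1 - u) ^ 3‖ = 1 := by rw [norm_pow, ih, one_pow]
    have b : ‖3 * (u * (1 - u))‖ < 1 := by
      rw [norm_mul, norm_mul, nm_two, ih]
      linarith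
    rw [e, IsUltrametricDist.norm_add_eq_max_of_norm_ne_norm (by rw [a]; exact b.ne'), a,
      max_eq_left b.le]

/-- the smoothing factor and its inverse -/
theorem ex_unit {t : ℂ} (y : ZMod (3 ^ B)) (ht : ‖ι t‖ ≤ 1) (h1 : ‖ι (1 - t)‖ = 1) :
    ∃ δ δ' : ZMod (3 ^ B) → ℂ, (∀ z, ‖ι (δ z)‖ ≤ 1) ∧ (∀ z, ‖ι (δ' z)‖ ≤ 1) ∧
      ‖ι (∑ z, δ z)‖ = 1 ∧ ‖ι (∑ z, δ' z)‖ = 1 ∧ ∀ ω : AddChar (ZMod (3 ^ B)) ℂ,
        ∑ z, δ z * ω z = 1 - t * ω y ∧ (1 - t * ω y) * ∑ z, δ' z * ω z = 1 := by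
  have n1 : ‖ι (1 - t ^ 3 ^ B)‖ = 1 := by
    rw [map_sub, map_one, map_pow]
    exact nm_pow ht (by simpa using h1) B
  have n0 : 1 - t ^ 3 ^ B ≠ 0 := fun z => by simp [z] at n1
  have c1 : ∀ ω : AddChar (ZMod (3 ^ B)) ℂ,
      ∑ z, sm (fun x => if x = 0 then 1 else 0) t y z * ω z = 1 - t * ω y := fun ω => by
    rw [sm_ch]; simp
  have c2 : ∀ ω : AddChar (ZMod (3 ^ B)) ℂ, (1 - t * ω y) * ∑ z, ((1 - t ^ 3 ^ B)⁻¹ *
      ∑ i ∈ range (3 ^ B), if z = i • y then t ^ i else 0) * ω z = 1 := fun ω => by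
    have e : ∑ z, ((1 - t ^ 3 ^ B)⁻¹ * ∑ i ∈ range (3 ^ B), if z = i • y then t ^ i else 0) * ω z =
        (1 - t ^ 3 ^ B)⁻¹ * ∑ i ∈ range (3 ^ B), (t * ω y) ^ i := by
      simp only [mul_assoc, ← Finset.mul_sum, Finset.sum_mul]
      rw [Finset.sum_comm]
      congr 1
      refine Finset.sum_congr rfl fun i _ => ?_
      simp only [ite_mul, zero_mul, Finset.sum_ite_eq', Finset.mem_univ, if_true,
        AddChar.map_nsmul_eq_pow, mul_pow]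
    have z : ω y ^ 3 ^ B = 1 := by
      rw [← AddChar.map_nsmul_eq_pow, nsmul_eq_mul, ZMod.natCast_self, zero_mul,
        AddChar.map_zero_eq_one]
    rw [e, mul_left_comm, mul_neg_geom_sum, mul_pow, z, mul_one, inv_mul_cancel₀ n0]
  refine ⟨_, _, fun x => ?_, fun x => ?_, ?_, ?_, fun ω => ⟨c1 ω, c2 ω⟩⟩
  · simp only [sm, map_sub, map_mul, sub_eq_add_neg (ι _)]
    refine (IsUltrametricDist.norm_add_le_max _ _).trans (max_le ?_ ?_)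
    · split_ifs <;> simp
    · split_ifs <;> simp [ht]
  · rw [map_mul, map_inv₀, norm_mul, norm_inv, n1, inv_one, one_mul, map_sum]
    refine sum_le _ _ zero_le_one fun i _ => ?_
    split_ifs
    · rw [map_pow, norm_pow]; exact pow_le_one₀ (norm_nonneg _) ht
    · simp
  · have := c1 1
    simp only [AddChar.one_apply, mul_one] at this
    rw [this, h1]
  · have := congrArg (fun w => ‖ι w‖) (c2 1)
    simp only [AddChar.one_apply, mul_one] at this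
    rwa [map_mul, norm_mul, h1, one_mul, map_one, norm_one] at this

theorem ch_mod (j i q n : ℕ) :
    ‖(((3 ^ j * q + n).choose i : ℕ) : ℂ_[3]) - n.choose i‖ ≤ i * (1 / 3) ^ j := by
  induction q with
  | zero => simp
  | succ q ih =>
    rw [← sub_add_sub_cancel _ (((3 ^ j * q + n).choose i : ℕ) : ℂ_[3]),
      show 3 ^ j * (q + 1) + n = 3 ^ j + (3 ^ j * q + n) by ring]
    exact (IsUltrametricDist.norm_add_le_max _ _).trans (max_le (ch_per j i _) ih)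

theorem ch_eq {j a b : ℕ} (h : a % 3 ^ j = b % 3 ^ j) (i : ℕ) :
    ‖((a.choose i : ℕ) : ℂ_[3]) - b.choose i‖ ≤ i * (1 / 3) ^ j := by
  have h1 := ch_mod j i (a / 3 ^ j) (a % 3 ^ j)
  have h2 := ch_mod j i (b / 3 ^ j) (b % 3 ^ j)
  rw [Nat.div_add_mod] at h1 h2
  rw [norm_sub_rev, ← h] at h2
  rw [← sub_add_sub_cancel _ (((a % 3 ^ j).choose i : ℕ) : ℂ_[3])]
  exact (IsUltrametricDist.norm_add_le_max _ _).trans (max_le h1 h2)

theorem per (j i : ℕ) (x z : ZMod (3 ^ B)) :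
    ‖(((x + 3 ^ j * z).val.choose i : ℕ) : ℂ_[3]) - (x.val.choose i : ℕ)‖ ≤ i * (1 / 3) ^ j := by
  rcases le_total j B with h | h
  · refine ch_eq ?_ i
    have e : (((x + 3 ^ j * z).val : ℕ) : ZMod (3 ^ B)) = (x.val + 3 ^ j * z.val : ℕ) := by
      push_cast
      simp only [ZMod.natCast_zmod_val]
    have := ((ZMod.natCast_eq_natCast_iff _ _ _).1 e).of_dvd (pow_dvd_pow 3 h)
    rw [this, Nat.add_mul_mod_self_left]
  · have e : (3 ^ j : ZMod (3 ^ B)) = 0 := by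
      have := (ZMod.natCast_eq_zero_iff (3 ^ j) (3 ^ B)).2 (pow_dvd_pow 3 h)
      exact_mod_cast this
    rw [e, zero_mul, add_zero, sub_self, norm_zero]
    positivity

/-- division -/
theorem dv0 {y δ u : ℝ} {r s : ℕ}
    (h : ∀ ω : AddChar (ZMod (3 ^ B)) ℂ, ∑ z, ν z * ω z = (∑ z, μ z * ω z) * ∑ z, θ z * ω z)
    (h₁ : 0 < σ₁) (h₂ : 0 < σ) (m : Mo ι σ₁ μ r C u y) (n : Mo ι (σ₁ * σ) ν (r + s) C u (y * x))
    (b : ∀ z, σ * ‖ι (θ z)‖ ≤ C) (hδ : 0 < δ) (hy : δ ≤ y) (hu : 0 ≤ u) (u2 : 2 * u ≤ δ)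
    (hB : ((r + s : ℕ) : ℝ) * (1 / 3) ^ B ≤ u) {Λ : ℝ} (l1 : 1 ≤ Λ)
    (l2 : 2 * (1 + C * C + 3 * C) ≤ Λ * δ) : Mo ι σ θ s C (u * Λ ^ (s + 1)) x := by
  have hC : 0 ≤ C := le_trans (by positivity) (b 0)
  have my := abs_le.1 m.ld
  have key : ∀ k ≤ s, (∀ i < k, σ * ‖ι (mc θ i)‖ ≤ u * Λ ^ k) →
      |σ₁ * σ * ‖ι (mc ν (r + k))‖ - σ₁ * ‖ι (mc μ r)‖ * (σ * ‖ι (mc θ k)‖)| ≤
        (C * C + 2 * C) * (u * Λ ^ k) := fun k hk ih => by
    have p : u ≤ u * Λ ^ k := le_mul_of_one_le_right hu (one_le_pow₀ l1)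
    have q : ((r + k : ℕ) : ℝ) * (1 / 3) ^ B ≤ u := le_trans (by gcongr) hB
    refine (mid h h₁ h₂ m.bd b hu (by positivity) m.sm ih).trans ?_
    have := mul_le_mul_of_nonneg_left (q.trans p) (mul_nonneg hC hC)
    have := mul_le_mul_of_nonneg_left p hC
    linarith
  have sm : ∀ k ≤ s, ∀ i < k, σ * ‖ι (mc θ i)‖ ≤ u * Λ ^ k := by
    intro k
    induction k with
    | zero => intro _ i hi; exact absurd hi (Nat.not_lt_zero _)
    | succ k ih =>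
      intro hk i hi
      have ih' := ih (by omega)
      have p : u ≤ u * Λ ^ k := le_mul_of_one_le_right hu (one_le_pow₀ l1)
      have p0 : 0 ≤ u * Λ ^ k := by positivity
      rw [pow_succ, ← mul_assoc]
      rcases Nat.lt_succ_iff_lt_or_eq.1 hi with h3 | rfl
      · exact (ih' i h3).trans (le_mul_of_one_le_right p0 l1)
      · have k1 := (abs_le.1 (key i (by omega) ih')).1
        have k2 := n.sm (r + i) (by omega)
        have t0 : 0 ≤ σ * ‖ι (mc θ i)‖ := by positivity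
        have k3 := mul_le_mul_of_nonneg_right
          (show δ / 2 ≤ σ₁ * ‖ι (mc μ r)‖ by linarith [my.1]) t0
        have k4 := mul_le_mul_of_nonneg_right l2 p0
        have k5 := mul_nonneg hC p0
        refine le_of_mul_le_mul_left ?_ hδ
        nlinarith
  have p : u ≤ u * Λ ^ s := le_mul_of_one_le_right hu (one_le_pow₀ l1)
  have p0 : 0 ≤ u * Λ ^ s := by positivity
  refine ⟨b, fun i hi => (sm s le_rfl i hi).trans ?_, ?_⟩
  · rw [pow_succ, ← mul_assoc]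
    exact le_mul_of_one_le_right p0 l1
  · have k1 := abs_le.1 (key s le_rfl (sm s le_rfl))
    have k2 := abs_le.1 n.ld
    have t0 : 0 ≤ σ * ‖ι (mc θ s)‖ := by positivity
    have t1 := mc_le h₂ b s
    have k3 : |y * (σ * ‖ι (mc θ s)‖ - x)| ≤ (1 + C * C + 3 * C) * (u * Λ ^ s) := by
      have a1 := mul_le_mul_of_nonneg_right my.1 t0
      have a2 := mul_le_mul_of_nonneg_right my.2 t0
      have a3 := mul_le_mul_of_nonneg_left t1 hu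
      have a4 := mul_le_mul_of_nonneg_left p hC
      rw [abs_le]
      constructor <;> nlinarith
    rw [abs_mul, abs_of_pos (hδ.trans_le hy)] at k3
    have k4 := mul_le_mul_of_nonneg_right l2 p0
    have k5 := mul_le_mul_of_nonneg_right hy (abs_nonneg (σ * ‖ι (mc θ s)‖ - x))
    have k6 : 0 ≤ (1 + C * C + 3 * C) * (u * Λ ^ s) := by positivity
    rw [pow_succ, ← mul_assoc]
    refine le_of_mul_le_mul_left ?_ hδ
    nlinarith

theorem Mo.mono {s : ℕ} {ε ε' : ℝ} (m : Mo ι σ μ s C ε x) (h : ε ≤ ε') : Mo ι σ μ s C ε' x :=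
  ⟨m.bd, fun i hi => (m.sm i hi).trans h, m.ld.trans h⟩

end Me

open Me in
/-- **row `MEA`** -/
theorem mea : MEA := by
  intro ι s C
  refine ⟨fun r δ ε hδ hε => ?_, fun ε hε => ?_, fun B j i x z hi => ?_, fun ε hε => ?_⟩
  · obtain ⟨Λ, l1, l2⟩ : ∃ Λ : ℝ, 1 ≤ Λ ∧ 2 * (1 + C * C + 3 * C) ≤ Λ * δ :=
      ⟨max 1 (2 * (1 + C * C + 3 * C) / δ), le_max_left _ _,
        (div_le_iff₀ hδ).1 (le_max_right _ _)⟩
    have lp : 0 < Λ ^ (s + 1) := by positivity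
    have hu : 0 < min (δ / 2) (ε / Λ ^ (s + 1)) := by positivity
    obtain ⟨B0, hB⟩ := small ((r + s : ℕ) : ℝ) hu
    refine ⟨_, hu, B0, fun B h μ ν θ σ₁ σ x y h₁ h₂ e m n b hy => Mo.mono
      (dv0 e h₁ h₂ m n b hδ hy hu.le ?_ (hB B h) l1 l2) ((le_div_iff₀ lp).1 (min_le_right _ _))⟩
    linarith [min_le_left (δ / 2) (ε / Λ ^ (s + 1))]
  · obtain ⟨B0, hB⟩ := small (C * s) hε
    refine ⟨B0, fun B h μ ν σ t y hσ ht h1 e => ?_⟩
    obtain ⟨δ, δ', a1, a2, a3, a4, a5⟩ := ex_unit y ht h1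
    have e1 : ∀ ω : AddChar (ZMod (3 ^ B)) ℂ,
        ∑ z, ν z * ω z = (∑ z, μ z * ω z) * ∑ z, δ z * ω z := fun ω => by
      rw [e, (a5 ω).1, mul_comm]
    have e2 : ∀ ω : AddChar (ZMod (3 ^ B)) ℂ,
        ∑ z, μ z * ω z = (∑ z, ν z * ω z) * ∑ z, δ' z * ω z := fun ω => by
      rw [e, mul_right_comm, (a5 ω).2, one_mul]
    exact ⟨⟨(unit (x := 0) e1 hσ a1 a3).1, (unit (x := 0) e2 hσ a2 a4).1⟩, fun ε' x he =>
      ⟨(unit e1 hσ a1 a3).2 he (hB B h), (unit e2 hσ a2 a4).2 he (hB B h)⟩⟩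
  · exact (per j i x z).trans (by gcongr)
  · have kp : 0 < 1 + 2 * (C * C) := by nlinarith [mul_self_nonneg C]
    obtain ⟨B0, hB⟩ := small (C * (C * C) * s) (half_pos hε)
    refine ⟨ε / 2 / (1 + 2 * (C * C)), by positivity, B0,
      fun B h μ ν θ θ' σ x y hσ e m n b b' => ?_⟩
    have hu : ε / 2 / (1 + 2 * (C * C)) * (1 + 2 * (C * C)) = ε / 2 := div_mul_cancel₀ _ kp.ne'
    have u0 : 0 ≤ ε / 2 / (1 + 2 * (C * C)) := by positivity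
    generalize ε / 2 / (1 + 2 * (C * C)) = u at *
    have bk := cv_le (ι := ι) (cc_ch θ θ') hσ hσ b b'
    have k := mid (θ := cc θ θ') (r := s) (s := 0) (fun ω => by rw [e, cc_ch, mul_assoc]) hσ
      (mul_pos hσ hσ) m.bd bk u0 le_rfl m.sm fun k hk => absurd hk (Nat.not_lt_zero _)
    have k0 := mc_le (mul_pos hσ hσ) bk 0
    have e0 : mc (cc θ θ') 0 = (∑ z, θ z) * ∑ z, θ' z := by
      simpa [mc_zero] using cc_ch θ θ' 1
    rw [e0, map_mul, norm_mul, mul_mul_mul_comm σ σ ‖_‖] at k k0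
    have t0 : 0 ≤ σ * ‖ι (∑ z, θ z)‖ * (σ * ‖ι (∑ z, θ' z)‖) := by positivity
    generalize σ * ‖ι (∑ z, θ z)‖ * (σ * ‖ι (∑ z, θ' z)‖) = T at *
    rw [show σ * (σ * σ) = σ ^ 3 by ring, add_zero, mul_zero, add_zero, ← mul_assoc _ (s : ℝ)] at k
    have k1 := abs_le.1 k
    have k2 := abs_le.1 m.ld
    have k3 := abs_le.1 n.ld
    have a1 := mul_le_mul_of_nonneg_right k2.1 t0
    have a2 := mul_le_mul_of_nonneg_right k2.2 t0
    have a3 := mul_le_mul_of_nonneg_left k0 u0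
    have a4 := hB B h
    rw [abs_le]
    constructor <;> linarith

end Vale.Agent.P014Y.C.Al
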