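import Vale.Agent.P014Y.C.Al.St0
import Vale.Agent.P004C.Al.A0

/-!
# P014 Y, block AL: the rows A4, A5, MIN
-/

namespace Vale.Agent.P014Y.C.Al

open Subgroup
open Vale.Agent.P004C.Al.Ab (tr mh cut mem_Hd mem_Hn)

/-- **row A5** -/
theorem a5 : A5 := by
  intro X D Y _ _ _ d f π U I h dv inj
  symm
  refine tr (mh (π.prodMap (MonoidHom.id Y)) _) (fun p k => ?_) (fun p k => ⟨⟨p.1, k.1, rfl⟩, trivial⟩)
    fun p k => ?_
  · rw [h.mem_cl, h.mem_cl]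
    refine ⟨fun ⟨x, a, b, c⟩ => ⟨x, a, congrArg π b, c⟩, fun ⟨x, a, b, c⟩ => ⟨x, a, ?_, c⟩⟩
    have : d x / p.1 ∈ I ⊓ π.ker :=
      mem_inf.2 ⟨div_mem (dv ⟨x, a, rfl⟩) k.1,
        by rw [MonoidHom.mem_ker, map_div, div_eq_one]; exact b⟩
    rwa [inj, mem_bot, div_eq_one] at this
  · obtain ⟨q, a, b⟩ := k.1
    exact ⟨(q, p.2), ⟨a, trivial⟩, by
      rw [show π.prodMap (MonoidHom.id Y) (q, p.2) = p from Prod.ext b rfl, div_self']
      exact one_mem _⟩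

/-- **row MIN** -/
theorem min' : MIN := by
  intro X D _ _ d s t U' U I' I h h1 h2 e
  refine P004C.Al.a0 X D d s t U' U I' I h h1 h2
    (relIndex_eq_zero_of_le_right (K := (mn t I).map (MonoidHom.inl D X)) ?_ ?_)
  · rintro _ ⟨p, k, rfl⟩
    exact mem_Hn.2 ⟨⟨k.1, one_mem U'⟩, k.2.trans (map_one d).symm⟩
  · rw [← relIndex_comap]
    refine relIndex_eq_zero_of_le_left (fun p k => ?_) e
    obtain ⟨x, a, b, c⟩ := mem_Hd.1 k
    exact ⟨x, ⟨a, c⟩, b⟩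

/-- **row A4** -/
theorem a4 : A4 := by
  intro X D Y Y₁ _ _ _ _ d f π U I j a h dv su ke ex ne lt
  have m1 := fun p => h.mem_cl (d := d) (p := p)
  have m2 := fun p => (h.comp π).mem_cl (d := d) (p := p)
  let φ : D × Y₁ →* D × Y := (MonoidHom.id D).prodMap π
  have e1 : Jx d f U I = _ := cut ((closure ((fun x => (d x, (π ∘ f) x)) '' U)).comap φ)
    fun p k => by
      obtain ⟨x, a, b, c⟩ := (m1 p).1 k
      exact (m2 _).2 ⟨x, a, b, congrArg π c⟩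
  have e2 : ((closure ((fun x => (d x, (π ∘ f) x)) '' U)).comap φ).relIndex (I.prod ⊤) =
      Jx d (π ∘ f) U I := tr (mh φ _) (fun _ _ => Iff.rfl) (fun p k => ⟨k.1, trivial⟩) fun p k => by
    obtain ⟨z, hz⟩ := su p.2
    exact ⟨(p.1, z), ⟨k.1, trivial⟩, by
      rw [show φ (p.1, z) = p from Prod.ext rfl hz, div_self']; exact one_mem _⟩
  let N : Subgroup Y₁ := closure (f '' (U ⊓ d.ker : Subgroup X))
  have mN : ∀ y, y ∈ N ↔ ∃ x ∈ U ⊓ d.ker, f x = y := fun y => (h.mono inf_le_left).mem_im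
  generalize hn : Jx d (π ∘ f) U I = n at ne lt e2
  generalize hc : v3 n = c at lt
  obtain ⟨m, hm, cop⟩ : ∃ m, n = 3 ^ c * m ∧ m.Coprime 3 := by
    refine ⟨n / 3 ^ c, ?_, ?_⟩
    · rw [← hc]
      exact (Nat.mul_div_cancel' pow_padicValNat_dvd).symm
    · rw [← hc, v3, ← Nat.factorization_def _ Nat.prime_three]
      exact (Nat.coprime_ordCompl Nat.prime_three ne).symm
  have s0 : ∀ y : Y₁, ∃ z, y ^ n / z ^ 3 ^ j ∈ N := fun y => by
    have : ((1 : D), π y) ^ n ∈ closure ((fun x => (d x, (π ∘ f) x)) '' U) := by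
      rw [← hn]
      exact ((closure ((fun x => (d x, (π ∘ f) x)) '' U)).subgroupOf (I.prod ⊤)).pow_index_mem
        ⟨(1, π y), one_mem I, trivial⟩
    obtain ⟨x, k, b, e⟩ := (m2 _).1 this
    obtain ⟨z, hz⟩ := ke (y ^ n / f x) (by
      rw [MonoidHom.mem_ker, map_div, div_eq_one, map_pow]; exact e.symm)
    exact ⟨z, (mN _).2 ⟨x, ⟨k, b.trans (one_pow n)⟩, by rw [← hz, div_div_cancel]⟩⟩
  have s1 : ∀ y : Y₁, ∃ z, y ^ 3 ^ c / z ^ 3 ^ (c + 1) ∈ N := fun y => by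
    obtain ⟨w, hw⟩ : ∃ w, w ^ m = y := by
      obtain ⟨k, hk⟩ := exists_pow_eq_self_of_coprime (x := y) (n := m)
        ((cop.pow_right a).coprime_dvd_right (orderOf_dvd_of_pow_eq_one (ex y)))
      exact ⟨y ^ k, by rw [← pow_mul, mul_comm, pow_mul, hk]⟩
    obtain ⟨z, hz⟩ := s0 w
    obtain ⟨i, rfl⟩ := Nat.exists_eq_add_of_le (Nat.succ_le_of_lt lt)
    refine ⟨z ^ 3 ^ i, ?_⟩
    rwa [← hw, ← pow_mul, ← pow_mul, mul_comm m, ← hm, ← pow_add, add_comm i]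
  have s2 : ∀ i, ∀ y : Y₁, ∃ z, y ^ 3 ^ c / z ^ 3 ^ (c + i) ∈ N := fun i => by
    induction i with
    | zero => exact fun y => ⟨y, by rw [add_zero, div_self']; exact one_mem _⟩
    | succ i ih =>
      intro y
      obtain ⟨z, hz⟩ := ih y
      obtain ⟨w, hw⟩ := s1 z
      refine ⟨w, ?_⟩
      have := mul_mem hz (pow_mem hw (3 ^ i))
      rwa [div_pow, ← pow_mul, ← pow_mul, ← pow_add, ← pow_add, div_mul_div_cancel,
        add_right_comm c 1 i, add_assoc] at this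
  have s3 : π.ker ≤ N := fun y k => by
    obtain ⟨z, rfl⟩ := ke y k
    obtain ⟨i, rfl⟩ := Nat.exists_eq_add_of_le lt.le
    obtain ⟨w, hw⟩ := s2 a (z ^ 3 ^ i)
    rwa [pow_add 3 c a, pow_mul w, ex, div_one, ← pow_mul, ← pow_add, add_comm i] at hw
  rw [e1, e2, relIndex_eq_one.2 ?_, one_mul]
  rintro p ⟨k, -⟩
  obtain ⟨x, a, b, e⟩ := (m2 _).1 k
  obtain ⟨z, a', e'⟩ := (mN _).1 (s3 (show p.2 / f x ∈ π.ker by
    rw [MonoidHom.mem_ker, map_div, div_eq_one]; exact e.symm))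
  exact (m1 _).2 ⟨x * z, mul_mem a a'.1, by rw [map_mul, show d z = 1 from a'.2, mul_one]; exact b,
    by rw [h _ a _ a'.1, e', mul_div_cancel]⟩

end Vale.Agent.P014Y.C.Al
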