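import Vale.Agent.P014Y.C.Al.St0
import Vale.Agent.P004C.Al.A0

/-!
# P014 Y, block AL: the row PMJ
-/

set_option autoImplicit false
set_option linter.all false

noncomputable section

namespace Vale.Agent.P014Y.C.Al

open Subgroup

namespace Pj

variable {G H : Type} [CommGroup G] [CommGroup H]

theorem rel_prod (A A' : Subgroup G) (B B' : Subgroup H) :
    (A.prod B).relIndex (A'.prod B') = A.relIndex A' * B.relIndex B' := by
  have e : (A'.subtype.prodMap B'.subtype).range = A'.prod B' := by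
    rw [MonoidHom.range_prodMap, range_subtype, range_subtype]
  rw [← e, ← index_comap, relIndex, relIndex, ← index_prod]
  rfl

theorem rel_dvd (N : Subgroup G) {K L : Subgroup G} (le : K ≤ L) :
    N.relIndex K ∣ N.relIndex L := by
  rw [← relIndex_sup_right K, ← relIndex_sup_right L]
  exact Dvd.intro _ (relIndex_mul_relIndex _ _ _ le_sup_right (sup_le_sup_right le _))

theorem not_dvd {N K : Subgroup G} (h0 : N.relIndex K ≠ 0) (h : ∀ x ∈ K, x ^ 2 ∈ N) :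
    ¬ 3 ∣ N.relIndex K := by
  intro k
  have : Finite (K ⧸ N.subgroupOf K) := Nat.finite_of_card_ne_zero h0
  haveI := Fact.mk Nat.prime_three
  obtain ⟨q, hq⟩ := exists_prime_orderOf_dvd_card' (G := K ⧸ N.subgroupOf K) 3 k
  obtain ⟨x, rfl⟩ := QuotientGroup.mk_surjective q
  have : orderOf (x : K ⧸ N.subgroupOf K) ∣ 2 := orderOf_dvd_of_pow_eq_one (by
    rw [← QuotientGroup.mk_pow, QuotientGroup.eq_one_iff]
    exact h _ x.2)
  rw [hq] at this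
  omega

theorem v_le {N M : Subgroup G} {N' M' : Subgroup H} (A : G →* H) (le : N ≤ M)
    (aM : ∀ x ∈ M, A x ∈ M') (aN : ∀ x ∈ N, A x ∈ N') (k : ∀ x ∈ M, A x ∈ N' → x ^ 2 ∈ N)
    (h0 : N.relIndex M ≠ 0) (h1 : N'.relIndex M' ≠ 0) :
    v3 (N.relIndex M) ≤ v3 (N'.relIndex M') := by
  haveI := Fact.mk Nat.prime_three
  have e := relIndex_mul_relIndex N (N'.comap A ⊓ M) M (le_inf aN le) inf_le_right
  have a0 : N.relIndex (N'.comap A ⊓ M) ≠ 0 := fun z => h0 (by rw [← e, z, zero_mul])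
  have b0 : (N'.comap A ⊓ M).relIndex M ≠ 0 := fun z => h0 (by rw [← e, z, mul_zero])
  have c : (N'.comap A ⊓ M).relIndex M ∣ N'.relIndex M' := by
    rw [inf_relIndex_right, relIndex_comap]
    exact rel_dvd _ (map_le_iff_le_comap.2 aM)
  rw [← e, v3, padicValNat.mul a0 b0, padicValNat.eq_zero_of_not_dvd
    (not_dvd a0 fun x hx => k x hx.2 hx.1), zero_add]
  exact (padicValNat_dvd_iff_le h1).1 (pow_padicValNat_dvd.trans c)

/-- two maps whose composites are the squaring -/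
theorem v_eq {N M : Subgroup G} {N' M' : Subgroup H} (A : G →* H) (B : H →* G) (le : N ≤ M)
    (le' : N' ≤ M') (aM : ∀ x ∈ M, A x ∈ M') (aN : ∀ x ∈ N, A x ∈ N') (bM : ∀ x ∈ M', B x ∈ M)
    (bN : ∀ x ∈ N', B x ∈ N) (ba : ∀ x ∈ M, B (A x) = x ^ 2) (ab : ∀ x ∈ M', A (B x) = x ^ 2)
    (h0 : N.relIndex M ≠ 0) (h1 : N'.relIndex M' ≠ 0) :
    v3 (N.relIndex M) = v3 (N'.relIndex M') :=
  le_antisymm (v_le A le aM aN (fun x hx k => ba x hx ▸ bN _ k) h0 h1)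
    (v_le B le' bM bN (fun x hx k => ab x hx ▸ aN _ k) h1 h0)

theorem mem_mn {s : G →* G} {U : Subgroup G} {x : G} : x ∈ mn s U ↔ x ∈ U ∧ x * s x = 1 := Iff.rfl

theorem div_mn {s : G →* G} {U : Subgroup G} {x : G} (h : x ∈ U) (h1 : s x ∈ U)
    (h2 : s (s x) = x) : x / s x ∈ mn s U :=
  mem_mn.2 ⟨div_mem h h1, by rw [map_div, h2, div_mul_div_cancel, div_self']⟩

end Pj

open Pj MonoidHom in
theorem pmj : PMJ := by
  intro X D Y Y' Z _ _ _ _ _ d s t U' U I' I f f' g α β P hf hf' hg ba ab h1 h2 j j' j''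
  haveI := Fact.mk Nat.prime_three
  rw [v3, v3, v3, ← padicValNat.mul j' j'', Jx, Jx, Jx, ← rel_prod]
  let A : D × Y →* (D × Y') × (D × Z) :=
    (((nm t).comp (fst D Y)).prod ((fst Y' Z).comp (α.comp (snd D Y)))).prod
      (((MonoidHom.id D / t).comp (fst D Y)).prod ((snd Y' Z).comp (α.comp (snd D Y))))
  let B : (D × Y') × (D × Z) →* D × Y :=
    ((fst D Y').comp (fst _ _) * (fst D Z).comp (snd _ _)).prod
      (β.comp (((snd D Y').comp (fst _ _)).prod ((snd D Z).comp (snd _ _))))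
  have eA : ∀ p y, A (p, y) = ((p * t p, (α y).1), (p / t p, (α y).2)) := fun _ _ => rfl
  have eB : ∀ p y q z, B ((p, y), (q, z)) = (p * q, β (y, z)) := fun _ _ _ _ => rfl
  have dm : ∀ x ∈ mn s U, d x ∈ mn t I := fun x hx =>
    mem_mn.2 ⟨P.dv ⟨x, hx.1, rfl⟩, by rw [← P.eq, ← map_mul, (mem_mn.1 hx).2, map_one]⟩
  refine v_eq A B ?_ ?_ ?_ ?_ ?_ ?_ ?_ ?_ j (by rw [rel_prod]; exact mul_ne_zero j' j'')
  · rintro ⟨p, y⟩ k
    obtain ⟨x, hx, e, -⟩ := hf.mem_cl.1 k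
    exact ⟨P.dv ⟨x, hx, e⟩, trivial⟩
  · rintro ⟨p, q⟩ ⟨k, k'⟩
    obtain ⟨x, hx, e, -⟩ := hf'.mem_cl.1 k
    obtain ⟨y, hy, e', -⟩ := hg.mem_cl.1 k'
    exact ⟨⟨P.dv' ⟨x, hx, e⟩, trivial⟩, e' ▸ dm y hy, trivial⟩
  · rintro ⟨p, y⟩ ⟨k, -⟩
    obtain ⟨a, b, c⟩ := P.st' p k
    exact ⟨⟨c, trivial⟩, div_mn k a b, trivial⟩
  · rintro ⟨p, y⟩ k
    obtain ⟨x, hx, rfl, rfl⟩ := hf.mem_cl.1 k
    obtain ⟨a, b, c⟩ := P.st x hx
    rw [eA, h1 x hx]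
    exact ⟨hf'.mem_cl.2 ⟨_, c, by rw [map_mul, P.eq], rfl⟩,
      hg.mem_cl.2 ⟨_, div_mn hx a b, by rw [map_div, P.eq], rfl⟩⟩
  · rintro ⟨⟨p, y⟩, q, z⟩ ⟨⟨k, -⟩, k', -⟩
    exact ⟨mul_mem (P.le' k) k'.1, trivial⟩
  · rintro ⟨⟨p, y⟩, q, z⟩ ⟨k, k'⟩
    obtain ⟨x, hx, rfl, rfl⟩ := hf'.mem_cl.1 k
    obtain ⟨w, hw, rfl, rfl⟩ := hg.mem_cl.1 k'
    rw [eB, h2 x hx w hw]
    exact hf.mem_cl.2 ⟨_, mul_mem (P.le hx) hw.1, map_mul d x w, rfl⟩
  · rintro ⟨p, y⟩ -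
    rw [eA, eB, Prod.mk.eta, ba, mul_mul_div_cancel, sq, sq, Prod.mk_mul_mk]
  · rintro ⟨⟨p, y⟩, q, z⟩ ⟨⟨k, -⟩, k', -⟩
    have e1 : t p = p := P.fx' p k
    have e2 : t q = q⁻¹ := eq_inv_of_mul_eq_one_right (mem_mn.1 k').2
    rw [eB, eA, ab, map_mul, e1, e2]
    refine Prod.ext (Prod.ext ?_ rfl) (Prod.ext ?_ rfl)
    · show p * q * (p * q⁻¹) = p ^ 2
      rw [mul_mul_mul_comm, mul_inv_cancel, mul_one, sq]
    · show p * q / (p * q⁻¹) = q ^ 2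
      rw [mul_div_mul_left_eq_div, div_inv_eq_mul, sq]

end Vale.Agent.P014Y.C.Al
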