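import Vale.Agent.P014Y.C.Al.St1
import Vale.Agent.P014Y.C.Al.Dj
import Vale.Agent.P014Y.C.Al.Dvf
import Vale.Agent.P014Y.C.Al.Umf
import Vale.Agent.P014Y.C.Al.Pmj
import Vale.Agent.P014Y.C.Al.A4
import Vale.Agent.P014Y.C.Al.Spl

/-!
# P014 Y, block AL: the algebraic half of the pair theorem (row PRA)
-/

set_option linter.all false

open NumberField Module Ideal IsDedekindDomain Multiplicative
open scoped Classical

noncomputable section

namespace Vale.Agent.P014Y.C.Al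

namespace Pq

open Vale.Agent.P027M.S (Pr)
open Dj (iu)

theorem v3_mul {a b : ℕ} (ha : a ≠ 0) (hb : b ≠ 0) : v3 (a * b) = v3 a + v3 b :=
  haveI : Fact (Nat.Prime 3) := ⟨Nat.prime_three⟩
  padicValNat.mul ha hb

theorem v3_dvd {a b : ℕ} (h : a ∣ b) (hb : b ≠ 0) : v3 a ≤ v3 b := by
  obtain ⟨c, rfl⟩ := h
  rw [v3_mul (left_ne_zero_of_mul hb) (right_ne_zero_of_mul hb)]
  omega

theorem v3_pow (n : ℕ) : v3 (3 ^ n) = n :=
  haveI : Fact (Nat.Prime 3) := ⟨Nat.prime_three⟩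
  padicValNat.prime_pow n

/-- reduction -/
def rd (r : ℕ) {a b : ℕ} (h : a ≤ b) :
    Multiplicative (Fin r → ZMod (3 ^ b)) →* Multiplicative (Fin r → ZMod (3 ^ a)) :=
  AddMonoidHom.toMultiplicative
    ((ZMod.castHom (pow_dvd_pow 3 h) (ZMod (3 ^ a))).toAddMonoidHom.compLeft (Fin r))

theorem rd_ap {r a b : ℕ} (h : a ≤ b) (y) (i : Fin r) : (rd r h y).toAdd i = (y.toAdd i).cast := rfl

theorem rd_onto {r a b : ℕ} (h : a ≤ b) : Function.Surjective (rd r h) := fun y => by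
  choose x hx using fun i => ZMod.castHom_surjective (pow_dvd_pow 3 h) (y.toAdd i)
  exact ⟨.ofAdd x, funext hx⟩

theorem rd_rd {r a b c : ℕ} (h : a ≤ b) (k : b ≤ c) (y) : rd r h (rd r k y) = rd r (h.trans k) y :=
  funext fun i => DFunLike.congr_fun (ZMod.castHom_comp (pow_dvd_pow 3 h) (pow_dvd_pow 3 k)) _

theorem rd_ker {r a b : ℕ} (h : a ≤ b) (y) (k : y ∈ (rd r h).ker) : ∃ z, y = z ^ 3 ^ a := by
  have k' : ∀ i, 3 ^ a ∣ (y.toAdd i).val := fun i => by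
    have k : ((y.toAdd i).cast : ZMod (3 ^ a)) = 0 := congrFun k i
    rwa [ZMod.cast_eq_val, ZMod.natCast_eq_zero_iff] at k
  choose c hc using k'
  refine ⟨.ofAdd fun i => (c i : ZMod (3 ^ b)), toAdd.injective (funext fun i => ?_)⟩
  rw [toAdd_pow, Pi.smul_apply, toAdd_ofAdd, nsmul_eq_mul, ← Nat.cast_mul, ← hc,
    ZMod.natCast_zmod_val]

theorem pw_one {r a : ℕ} (y : Multiplicative (Fin r → ZMod (3 ^ a))) : y ^ 3 ^ a = 1 :=
  toAdd.injective (funext fun i => by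
    rw [toAdd_pow, Pi.smul_apply, nsmul_eq_mul, ZMod.natCast_self, zero_mul]
    rfl)

theorem idx_dvd {r a c : ℕ} {H : Subgroup (Multiplicative (Fin r → ZMod (3 ^ a)))}
    (h : ∀ y, y ^ 3 ^ c ∈ H) : H.index ∣ 3 ^ (c * r) := by
  let g : (Fin r → ℤ) →+ (Fin r → ZMod (3 ^ a)) := (Int.castAddHom _).compLeft (Fin r)
  have hg : Function.Surjective g := fun y => by
    choose x hx using fun i => ZMod.intCast_surjective (y i)
    exact ⟨x, funext hx⟩
  have h1 := AddSubgroup.index_comap_of_surjective (H := Subgroup.toAddSubgroup' H) hg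
  have h2 : AddSubgroup.pi Set.univ (fun _ : Fin r => AddSubgroup.zmultiples (3 ^ c : ℤ)) ≤
      (Subgroup.toAddSubgroup' H).comap g := fun x hx => by
    choose k hk using fun i => AddSubgroup.mem_zmultiples_iff.1 (hx i trivial)
    have : x = 3 ^ c • k := funext fun i => by simp [← hk i, mul_comm]
    rw [AddSubgroup.mem_comap, this, map_nsmul]
    exact h (.ofAdd (g k))
  have h3 := AddSubgroup.index_dvd_of_le h2
  rw [h1, AddSubgroup.index_pi] at h3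
  simp only [Int.index_zmultiples, Int.natAbs_pow, Finset.prod_const, Finset.card_univ,
    Fintype.card_fin, Set.toFinset_univ, ← pow_mul] at h3
  exact h3

section

variable (R : Type) [CommRing R] (d s : ℕ)

/-- plus and minus coordinates -/
def al : Multiplicative (Fin (d + s + s) → R) →*
    Multiplicative (Fin (d + s) → R) × Multiplicative (Fin s → R) :=
  .mk' (fun y => (ofAdd (Fin.append (fun i => y.toAdd (.castAdd s (.castAdd s i)))
      fun i => y.toAdd (.castAdd s (.natAdd d i)) + y.toAdd (.natAdd (d + s) i)),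
    ofAdd fun i => y.toAdd (.castAdd s (.natAdd d i)) - y.toAdd (.natAdd (d + s) i)))
    fun x y => Prod.ext (toAdd.injective (funext (Fin.addCases (fun i => by simp)
      fun i => by simp; ring))) (toAdd.injective (funext fun i => by simp; ring))

/-- and back -/
def be : Multiplicative (Fin (d + s) → R) × Multiplicative (Fin s → R) →*
    Multiplicative (Fin (d + s + s) → R) :=
  .mk' (fun y => ofAdd (Fin.append (Fin.append (fun i => 2 * y.1.toAdd (.castAdd s i))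
      fun i => y.1.toAdd (.natAdd d i) + y.2.toAdd i) fun i => y.1.toAdd (.natAdd d i) - y.2.toAdd i))
    fun x y => toAdd.injective (funext (Fin.addCases (Fin.addCases (fun i => by simp; ring)
      fun i => by simp; ring) fun i => by simp; ring))

theorem be_al (y) : be R d s (al R d s y) = y ^ 2 :=
  toAdd.injective (funext (Fin.addCases (Fin.addCases (fun i => by simp [al, be])
    fun i => by simp [al, be]; ring) fun i => by simp [al, be]; ring))

theorem al_be (y) : al R d s (be R d s y) = y ^ 2 :=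
  Prod.ext (toAdd.injective (funext (Fin.addCases (fun i => by simp [al, be])
    fun i => by simp [al, be]; ring))) (toAdd.injective (funext fun i => by simp [al, be]; ring))

end

theorem jx_congr {X D Y : Type} [CommGroup X] [CommGroup D] [CommGroup Y] {d d' : X →* D}
    {f f' : X → Y} {U : Subgroup X} (I : Subgroup D) (h : ∀ x ∈ U, d x = d' x ∧ f x = f' x) :
    Jx d f U I = Jx d' f' U I := by
  unfold P004C.Al.Jx
  rw [Set.image_congr (g := fun x => (d' x, f' x)) fun x k => Prod.ext (h x k).1 (h x k).2]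

variable {K : Type} [Field K] [NumberField K] {ι : ℂ →+* ℂ_[3]} {J : K →+* ℂ} {Ω : ℝ}
  {A L : Type} [Field A] [NumberField A] [Field L] [NumberField L] [Algebra K A] [Algebra K L]
  [Algebra L A] [IsScalarTower K L A]

theorem un_max (P : Pr A) : (P.asIdeal.under (𝓞 L)).IsMaximal :=
  have := P.isMaximal
  inferInstance

theorem sw_eq {κ : Type} {W : κ → Ideal (𝓞 L)} (h : ∀ i, (W i).IsMaximal) :
    Sw ι J A W = {P | Av ι J P.asIdeal ∨ P.asIdeal.under (𝓞 L) ∈ Set.range W} :=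
  Set.ext fun P => or_congr_right (exists_congr fun i => map_le_iff_le_comap.trans
    ⟨(h i).eq_of_le (un_max P).ne_top, le_of_eq⟩)

theorem pj_s1 {S : Set (Pr A)} (hS : ∀ P : Pr A, Av ι J P.asIdeal → P ∈ S) (p : Dv A) :
    pj S (pj (Ss ι J A 1) p) = pj S p := Dj.pj_eq.2 fun P h => by
  rw [Df.pj_apply, if_neg fun k => h (hS P (k.resolve_right
    (by rw [map_one]; exact P.isPrime.one_notMem)))]

variable {r B : ℕ} {φ : Fin r → L → ZMod (3 ^ B)}

variable (A φ) in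
/-- the local characters on the ambient group -/
def ff (x : Aˣ) : Multiplicative (Fin r → ZMod (3 ^ B)) :=
  .ofAdd fun i => φ i (Function.invFun (algebraMap L A) x)

theorem ff_ap (x : Lˣ) : ff A φ (iu A x) = .ofAdd fun i => φ i x :=
  congrArg Multiplicative.ofAdd (funext fun i => congrArg _
    (Function.leftInverse_invFun (algebraMap L A).injective (x : L)))

theorem ff_mu (X : ∀ i x y, x ≠ 0 → y ≠ 0 → φ i (x * y) = φ i x + φ i y) {Y : Type} [CommGroup Y]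
    (π : _ →* Y) {U : Subgroup Aˣ} (h : U ≤ (iu A : Lˣ →* Aˣ).range) : Mu (π ∘ ff A φ) U := by
  intro x a y b
  obtain ⟨x, rfl⟩ := h a
  obtain ⟨y, rfl⟩ := h b
  simp only [Function.comp, ← map_mul, ff_ap]
  exact congrArg π (funext fun i => X _ _ _ x.ne_zero y.ne_zero)

/-- the bound for the base field -/
theorem j_le (Bs : Base ι J Ω) {t : 𝓞 L} {W : Fin (r + 1) → Ideal (𝓞 L)} {Φ}
    {φ : Fin (r + 1) → L → ZMod (3 ^ B)} (X : Aux t B W Φ φ) (t0 : t ≠ 0) (t3 : 3 ∣ t)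
    {m c a : ℕ} (hm : 2 ≤ m) (ha : a ≤ B)
    (h1 : ∀ t' R, t' ≠ 0 → 3 ∣ t' → Rp ι J W m t' R → v3 R.card ≤ c)
    (h2 : ∀ y : Fin r → ZMod (3 ^ B), ∃ x : L, Ev ι J W m 1 1 x ∧ ∀ i, φ i.succ x = 3 ^ c * y i) :
    v3 (Jx (dd (Sw ι J A W)) (rd r ha ∘ ff A fun i => φ i.succ) (UL ι J L m)
      (IL L (Sw ι J A W))) ≤ c + c * r := by
  obtain ⟨R, hR⟩ := ((gbx K ι J Ω Bs L).2 r m W hm
    (fun i => ⟨X.max i, fun k => X.cop i (mem_of_dvd _ t3 k)⟩) X.inj).2 _ t0 t3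
  obtain ⟨d1, d2⟩ := dj kv P004C.Al.a7 K ι J Ω Bs A L r B W _ (fun i => ⟨X.max i, X.cop i⟩) t0 t3 m hm
  obtain ⟨d3, d4, -⟩ := d2 R hR
  have k2 : (Subgroup.closure ((rd r ha ∘ ff A fun i => φ i.succ) ''
      (UL ι J L m ⊓ (dd (Sw ι J A W)).ker : Subgroup Aˣ))).index ∣ 3 ^ (c * r) := by
    refine idx_dvd fun y => Subgroup.subset_closure ?_
    obtain ⟨y, rfl⟩ := rd_onto ha y
    obtain ⟨x, x1, x2⟩ := h2 y.toAdd
    have x0 := (Gx.v1_unit (by omega) x1.1).1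
    refine ⟨_, (d1 (.mk0 x x0)).1 x1, ?_⟩
    rw [Function.comp, ff_ap, ← map_pow]
    exact congrArg _ (funext fun i => (x2 i).trans (by
      change _ = 3 ^ c • y.toAdd i
      rw [nsmul_eq_mul, Nat.cast_pow, Nat.cast_ofNat]))
  rw [P004C.Al.a7 _ _ _ _ _ (UL ι J L m) _ (ff_mu (fun i => X.loc _) _ inf_le_right) Dj.dd_le, d3,
    v3_mul d4 (ne_zero_of_dvd_ne_zero (by positivity) k2)]
  exact add_le_add (h1 _ R t0 t3 hR) ((v3_dvd k2 (by positivity)).trans (v3_pow _).le)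

theorem ex_add {m n : ℕ} {P : Fin (m + n) → Prop} :
    (∃ i, P i) ↔ (∃ i, P (.castAdd n i)) ∨ ∃ i, P (.natAdd m i) :=
  ⟨fun ⟨i, h⟩ => by
    revert h
    exact Fin.addCases (fun i h => .inl ⟨i, h⟩) (fun i h => .inr ⟨i, h⟩) i,
  fun h => h.elim (fun ⟨_, h⟩ => ⟨_, h⟩) fun ⟨_, h⟩ => ⟨_, h⟩⟩

variable {M N : Type} [Field M] [NumberField M] [Field N] [NumberField N] [Algebra K M]
  [Algebra K N] [Algebra M N] [Algebra M A] [Algebra N A] [IsScalarTower K M N]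
  [IsScalarTower K N A] [IsScalarTower M N A] [IsScalarTower K M A] {τ : N ≃ₐ[M] N}
  {σ : A ≃ₐ[K] A} {d s : ℕ} {w : Fin s → Ideal (𝓞 N)} {p : Fin (d + 1) → Ideal (𝓞 M)}

theorem x1 (P : Pr A) : P ∈ Sw ι J A (Wd p w) ↔
    P ∈ Sw ι J A p ∨ P ∈ Sw ι J A fun i => (w i).under (𝓞 M) := by
  simp only [Sw, Wd, Set.mem_setOf_eq, Fin.exists_fin_succ, ex_add, Matrix.cons_val_zero,
    Matrix.cons_val_succ, Fin.append_left, Fin.append_right]
  tauto

theorem x2 (h : ∀ i, ((w i).under (𝓞 M)).map (algebraMap (𝓞 M) (𝓞 N)) = w i * cj τ (w i)) :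
    Sw ι J A (Wu τ p w) = Sw ι J A (Wd p w) := Set.ext fun P => by
  have u : ∀ i, ((w i).under (𝓞 M)).map (algebraMap (𝓞 M) (𝓞 A)) ≤ P.asIdeal ↔
      (w i).map (algebraMap (𝓞 N) (𝓞 A)) ≤ P.asIdeal ∨
        (cj τ (w i)).map (algebraMap (𝓞 N) (𝓞 A)) ≤ P.asIdeal := fun i => by
    rw [← P.isPrime.mul_le, ← Ideal.map_mul, ← h, Ideal.map_map, ← IsScalarTower.algebraMap_eq]
  simp only [Sw, Wd, Wu, Set.mem_setOf_eq, Fin.exists_fin_succ, ex_add,
    Matrix.cons_val_zero, Matrix.cons_val_succ, Fin.append_left, Fin.append_right, u, exists_or,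
    Ideal.map_map, ← IsScalarTower.algebraMap_eq, or_assoc]

/-- inert primes do not see the minus part -/
theorem x3 (hj : PJ) (Bs : Base ι J Ω) (fx : ∀ x : M, σ (algebraMap M A x) = algebraMap M A x)
    (k : ∀ i, (p i).IsMaximal ∧ Ine N (p i) ∧ 3 ∉ p i) (r) (hr : r ∈ mi (ta σ) (IL N (Ss ι J A 1))) :
    pj (Sw ι J A (Wd p w)) r = pj (Sw ι J A fun i => (w i).under (𝓞 M)) r := by
  obtain ⟨q1, q2, q3⟩ := dvf K ι J Ω Bs A
  obtain ⟨-, q4, -, -, q5⟩ := q3 M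
  obtain ⟨q6, q7⟩ := q4 σ fx
  have y0 := sw_eq (ι := ι) (J := J) (A := A) fun i => (k i).1
  have y1 := (hj K ι J Ω Bs A M N _ _ y0).1
  have y2 := ((q5 N).2.2 _ (Set.finite_range p) (by
    rintro _ ⟨i, rfl⟩
    exact ⟨(k i).1, (k i).2.1, Gx.pv_two (by
      by_contra c
      exact (k i).2.2 (((k i).1.eq_of_le c le_sup_left).ge
        (le_sup_right (a := p i) (mem_span_singleton_self _))))⟩) _ y0).1
  obtain ⟨⟨r, r0, rfl⟩, r1⟩ := hr
  have y3 : pj (Sw ι J A p) (pj (Ss ι J A 1) r) = pj (Sw ι J A p) r := pj_s1 (fun _ => .inl) r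
  have y4 : pj (Ss ι J A 1) r / pj (Sw ι J A p) r ∈ IL M (Ss ι J A 1) :=
    y2 (Subgroup.mem_inf.2 ⟨div_mem ⟨r, r0, rfl⟩ (y1 ⟨r, r0, rfl⟩), by
      rw [MonoidHom.mem_ker, map_div, y3, div_eq_one]
      exact Dj.pj_eq.2 fun P u => by rw [Df.pj_apply, if_neg u]⟩)
  obtain ⟨z, z0, z1⟩ := y4
  have y5 : ta σ (pj (Ss ι J A 1) z) = pj (Ss ι J A 1) z := by
    rw [← q2, q6 z (by rwa [Df.IL_empty])]
  have r2 : pj (Ss ι J A 1) r * ta σ (pj (Ss ι J A 1) r) = 1 := r1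
  have y6 : pj (Ss ι J A 1) z ^ 2 = 1 := by
    rw [pow_two]
    nth_rw 2 [← y5]
    rw [z1, map_div, div_mul_div_comm, r2, ← y3, ← q7, ← map_mul, r2, map_one, div_one]
  have y7 : pj (Ss ι J A 1) r = pj (Sw ι J A p) r := by
    rw [← div_eq_one, ← z1]
    exact (pow_eq_one_iff_left two_ne_zero).1 y6
  funext P
  rw [y7]
  simp only [Df.pj_apply, x1]
  split_ifs <;> tauto

variable {g : Fin (d + 1) → M → ZMod (3 ^ B)} {f f' : Fin s → N → ZMod (3 ^ B)} {m a j : ℕ}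

theorem x6 (hj : PJ) (Bs : Base ι J Ω) (fx : ∀ x : M, σ (algebraMap M A x) = algebraMap M A x)
    (k : ∀ i, (p i).IsMaximal ∧ Ine N (p i) ∧ 3 ∉ p i) (mx : ∀ i, (Wd p w i).IsMaximal)
    (l1 : ∀ i x y, x ≠ 0 → y ≠ 0 → f' i (x * y) = f' i x + f' i y)
    (cg : ∀ i x, ∃ z, f' i x = f i x + 3 ^ j * z) (ja : j ≤ a) (aB : a ≤ B)
    {F : Aˣ → Multiplicative (Fin s → ZMod (3 ^ j))}
    (hF : ∀ (x : Nˣ) i, (F (iu A x)).toAdd i = (f i x).cast) {n : ℕ}
    (e : n = Jx (dd (Sw ι J A fun i => (w i).under (𝓞 M))) F (mi (ua σ) (UL ι J N m))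
      (IM ι J σ N (Sw ι J A fun i => (w i).under (𝓞 M)))) (j0 : n ≠ 0) (j1 : v3 n < j) :
    Jx (dd (Sw ι J A (Wd p w))) (rd s aB ∘ ff A f') (mn (ua σ) (UL ι J N m))
      (mn (ta σ) (IL N (Sw ι J A (Wd p w)))) = n := by
  obtain ⟨q1, q2, q3⟩ := dvf K ι J Ω Bs A
  have cw := ((q3 M).2.1 σ fx).2 _ (Wd p w)
  have x4 : mn (ta σ) (IL N (Sw ι J A (Wd p w))) =
      IM ι J σ N (Sw ι J A fun i => (w i).under (𝓞 M)) := by
    rw [(hj K ι J Ω Bs A M N _ _ (sw_eq mx)).2 σ cw]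
    ext q
    exact exists_congr fun r => and_congr_right fun hr => by rw [x3 hj Bs fx k r hr]
  have x5 : ∀ x ∈ mn (ua σ) (UL ι J N m),
      dd (Sw ι J A (Wd p w)) x = dd (Sw ι J A fun i => (w i).under (𝓞 M)) x := fun x hx => by
    have u : x * ua σ x = 1 := hx.2
    have := x3 (w := w) hj Bs fx k (dd (Ss ι J A 1) x) (Pj.mem_mn.2 ⟨Dj.dd_le ⟨x, hx.1, rfl⟩, by
      rw [Df.dd_eq, ← q2, ← q1, ← map_mul, ← map_mul, u, map_one, map_one]⟩)
    rwa [Df.dd_eq, pj_s1 fun _ => .inl, pj_s1 fun _ => .inl, ← Df.dd_eq, ← Df.dd_eq] at this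
  have u : Jx (dd (Sw ι J A (Wd p w))) (rd s ja ∘ rd s aB ∘ ff A f')
      (mn (ua σ) (UL ι J N m)) (mn (ta σ) (IL N (Sw ι J A (Wd p w)))) = n := by
    rw [x4, e]
    refine jx_congr _ fun x hx => ⟨x5 x hx, ?_⟩
    obtain ⟨x, rfl⟩ := hx.1.2
    refine toAdd.injective (funext fun i => ?_)
    obtain ⟨z, hz⟩ := cg i x
    rw [hF, Function.comp, Function.comp, rd_rd, ff_ap, rd_ap, toAdd_ofAdd, hz]
    have jB := pow_dvd_pow 3 (ja.trans aB)
    rw [ZMod.cast_add jB, ZMod.cast_mul jB, show (3 : ZMod (3 ^ B)) ^ j = (3 ^ j : ℕ) by simp,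
      ZMod.cast_natCast jB, ZMod.natCast_self, zero_mul, add_zero]
  rw [← u] at j0 j1 ⊢
  refine a4 _ _ _ _ _ _ _ _ _ j a (ff_mu l1 _ (inf_le_left.trans inf_le_right)) ?_ (rd_onto ja)
    (rd_ker ja) pw_one j0 j1
  rintro _ ⟨x, hx, rfl⟩
  exact Pj.mem_mn.2 ⟨Dj.dd_le ⟨x, hx.1, rfl⟩, by
    rw [Df.dd_eq, ← cw, ← q1, ← map_mul, ← map_mul, show x * ua σ x = 1 from hx.2, map_one, map_one]⟩

theorem add_inv {L : Type} [Field L] {R : Type} [AddCommGroup R] {f : L → R}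
    (l : ∀ x y, x ≠ 0 → y ≠ 0 → f (x * y) = f x + f y) {x y : L} (h : x * y = 1) : f y = -f x := by
  have o := l 1 1 one_ne_zero one_ne_zero
  rw [one_mul, left_eq_add] at o
  rw [eq_neg_iff_add_eq_zero, add_comm, ← l x y (left_ne_zero_of_mul_eq_one h)
    (right_ne_zero_of_mul_eq_one h), h, o]

variable (e : ∀ x, algebraMap N A (τ x) = σ (algebraMap N A x))
  (s1 : ∀ x : N, algebraMap M N (Algebra.norm M x) = x * τ x ∧ τ (τ x) = x)
  (l1 : ∀ i x y, x ≠ 0 → y ≠ 0 → f' i (x * y) = f' i x + f' i y)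
include e s1 l1

theorem c1 (x : Nˣ) : al _ d s (ff A (fun i => fu τ g f' i.succ) (iu A x)) =
    (ff A (fun i => fd g f' i.succ) (iu A x * ua σ (iu A x)), ff A f' (iu A x / ua σ (iu A x))) := by
  have t0 : τ x ≠ 0 := (map_ne_zero τ).2 x.ne_zero
  have u1 : iu A x * ua σ (iu A x) = iu A (Units.map (Algebra.norm M : N →* M) x) := Units.ext (by
    change algebraMap N A x * σ (algebraMap N A x) = algebraMap M A (Algebra.norm M (x : N))
    rw [IsScalarTower.algebraMap_apply M N A, (s1 x).1, map_mul, e])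
  have u2 : iu A x / ua σ (iu A x) = iu A (x / .mk0 (τ x) t0) := by
    rw [map_div]
    exact congrArg _ (Units.ext (e x).symm)
  rw [u1, u2, ff_ap, ff_ap, ff_ap]
  exact Prod.ext (toAdd.injective (funext (Fin.addCases (fun i => by simp [al, fu, fd])
    fun i => by simp [al, fu, fd, (s1 x).1, l1 i _ _ x.ne_zero t0])))
    (toAdd.injective (funext fun i => by
      simp [al, fu, div_eq_mul_inv, l1 i _ _ x.ne_zero (inv_ne_zero t0),
        add_inv (l1 i) (mul_inv_cancel₀ t0), sub_eq_add_neg]))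

theorem c2 (h2 : finrank M N = 2)
    (l2 : ∀ (i : Fin d) x y, x ≠ 0 → y ≠ 0 → g i.succ (x * y) = g i.succ x + g i.succ y)
    (x : Mˣ) (y : Nˣ) (h : iu A y * ua σ (iu A y) = 1) :
    be _ d s (ff A (fun i => fd g f' i.succ) (iu A x), ff A f' (iu A y)) =
      ff A (fun i => fu τ g f' i.succ) (iu A x * iu A y) := by
  have hv : iu A x = iu A (iu N x) := Units.ext (IsScalarTower.algebraMap_apply M N A _)
  have u : (y : N) * τ y = 1 := (algebraMap N A).injective (by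
    rw [map_mul, e, map_one]
    exact congrArg Units.val h)
  have u1 : Algebra.norm M (y : N) = 1 := (algebraMap M N).injective (by rw [(s1 y).1, u, map_one])
  have x0 : algebraMap M N x ≠ 0 := (map_ne_zero _).2 x.ne_zero
  rw [ff_ap, ff_ap, hv, ← map_mul, ff_ap]
  exact toAdd.injective (funext (Fin.addCases (Fin.addCases (fun i => by
    simp [be, fu, fd, u1, Algebra.norm_algebraMap, h2, pow_two, l2 i _ _ x.ne_zero x.ne_zero, two_mul])
    fun i => by simp [be, fu, fd, l1 i _ _ x0 y.ne_zero]) fun i => by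
    simp [be, fu, fd, l1 i _ _ x0 (right_ne_zero_of_mul_eq_one u), add_inv (l1 i) u, sub_eq_add_neg]))

omit e s1 l1

theorem rd_al (h : a ≤ B) (y) : al _ d s (rd _ h y) = (rd _ h (al _ d s y).1, rd _ h (al _ d s y).2) :=
  Prod.ext (toAdd.injective (funext (Fin.addCases (fun i => by simp [al, rd_ap])
    fun i => by simp [al, rd_ap, ZMod.cast_add (pow_dvd_pow 3 h)])))
    (toAdd.injective (funext fun i => by simp [al, rd_ap, ZMod.cast_sub (pow_dvd_pow 3 h)]))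

theorem rd_be (h : a ≤ B) (y z) : be _ d s (rd _ h y, rd _ h z) = rd _ h (be _ d s (y, z)) :=
  toAdd.injective (funext (Fin.addCases (Fin.addCases
    (fun i => by simp [be, rd_ap, two_mul, ZMod.cast_add (pow_dvd_pow 3 h)])
    fun i => by simp [be, rd_ap, ZMod.cast_add (pow_dvd_pow 3 h)])
    fun i => by simp [be, rd_ap, ZMod.cast_sub (pow_dvd_pow 3 h)]))

end Pq

open Pq Dj in
/-- **row PRA** -/
theorem pra (pq : PQ) (hj : PJ) : PRA := by
  intro K _ _ ι J Ω Bs A M N _ _ _ _ _ _ _ _ _ _ _ _ _ _ _ _ τ σ h2 h1 e d s B m a c₀ c j t t' w Φ f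
    p Ψ g₀ g f' t0 t3 tt b k hm am aB hc F S hF hS j0 j1 n bM n₂ bN γ R γ₂ R₂ vM vN gM rM gN rN
  subst hS
  have t1 : t' ≠ 0 := ne_zero_of_dvd_ne_zero t0 tt
  obtain ⟨s1, -, s3⟩ := spl M N τ h2 h1
  have fx : ∀ x : M, σ (algebraMap M A x) = algebraMap M A x := fun x => by
    rw [IsScalarTower.algebraMap_apply M N A, ← e, AlgEquiv.commutes]
  have P := pq K ι J Ω Bs A M N τ σ h2 h1 e (m + a) _
    ((((dvf K ι J Ω Bs A).2.2 M).2.1 σ fx).2 _ (Wd p w))
  have l1 : ∀ i x y, x ≠ 0 → y ≠ 0 → f' i (x * y) = f' i x + f' i y := fun i => by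
    simpa [fu] using k.up.loc (Fin.castAdd s (Fin.natAdd d i)).succ
  have l2 : ∀ (i : Fin d) x y, x ≠ 0 → y ≠ 0 → g i.succ (x * y) = g i.succ x + g i.succ y :=
    fun i => by simpa [fd] using k.dn.loc (Fin.castAdd s i).succ
  have x6 := x6 hj Bs fx (fun i => ⟨k.sa.max i, k.ine i, fun u => k.sa.cop i
    (mem_of_dvd _ (t3.trans tt) u)⟩) k.dn.max l1 k.cg (by omega) aB hF rfl j0 j1
  obtain ⟨-, d1, d2⟩ := ((dj kv P004C.Al.a7 K ι J Ω Bs A M _ B _ t' (fun i => ⟨k.dn.max i,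
    fun u => k.dn.cop i (mem_of_dvd _ tt u)⟩) t1 t3 m hm).2 R rM).2.2 n bM (fd g f') γ a
    (rd _ aB ∘ ff A fun i => fd g f' i.succ) vM k.dn.loc gM am aB fun x i => by
      rw [Function.comp, ff_ap]; rfl
  obtain ⟨-, d3, d4⟩ := ((dj kv P004C.Al.a7 K ι J Ω Bs A N _ B _ _ (fun i => ⟨k.up.max i,
    fun u => k.up.cop i (mem_of_dvd _ (map_dvd _ tt) u)⟩)
    ((map_ne_zero_iff _ (RingOfIntegers.algebraMap.injective M N)).2 t1)
    (map_ofNat (algebraMap (𝓞 M) (𝓞 N)) 3 ▸ map_dvd _ t3) m hm).2 R₂ rN).2.2 n₂ bN (fu τ g f') γ₂ a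
    (rd _ aB ∘ ff A fun i => fu τ g f' i.succ) vN k.up.loc gN am aB fun x i => by
      rw [Function.comp, ff_ap]; rfl
  rw [x2 fun i => ((s3 _ (b.max i)).2 (b.ne i)).1] at d3 d4
  have d5 := j_le (A := A) Bs k.dn t0 (t3.trans tt) (by omega) aB k.cl k.on
  have d6 := pmj _ _ _ _ _ _ _ _ _ _ _ _ (rd _ aB ∘ ff A fun i => fu τ g f' i.succ)
    (rd _ aB ∘ ff A fun i => fd g f' i.succ) (rd s aB ∘ ff A f') (al _ d s) (be _ d s) P
    (ff_mu (fun i => k.up.loc _) _ inf_le_right) (ff_mu (fun i => k.dn.loc _) _ inf_le_right)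
    (ff_mu l1 _ (inf_le_left.trans inf_le_right)) (be_al _ d s) (al_be _ d s) (by
      rintro _ ⟨-, x, rfl⟩
      simp only [Function.comp]
      rw [rd_al, c1 e s1 l1]) (by
      rintro _ ⟨-, x, rfl⟩ _ ⟨⟨-, y, rfl⟩, u⟩
      simp only [Function.comp]
      rw [rd_be, c2 e s1 l1 h2 l2 x y u]) d3 d1 (x6.trans_ne j0)
  rw [x6] at d6
  rw [d4 (by omega), d2 (by omega), d6]
  exact ⟨pow_le_pow_of_le_one (by norm_num) (by norm_num) d5, pow_add _ _ _⟩

end Vale.Agent.P014Y.C.Al
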