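import Vale.Agent.P014Y.C.Al.Prn0
import Vale.Agent.P014Y.C.Al.Ups

/-!
# P014 Y, block AL: row PRN (helper39)
-/

set_option linter.all false

open NumberField Module Ideal
open scoped Classical

noncomputable section

namespace Vale.Agent.P014Y.C.Al

open Cm Pn Up
open Tp (cf)
open P004C.Cm (ine_eta cop_nat cop_rn rn_rn sum_of)

namespace Pn

variable {K : Type} [Field K] [NumberField K] {ι : ℂ →+* ℂ_[3]} {J : K →+* ℂ}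
  {M : Type} [Field M] [NumberField M] [Algebra K M] {B l k r : ℕ} {t t' : 𝓞 M}
  {W : Fin (r + 1) → Ideal (𝓞 M)} {Φ : Ideal (𝓞 M) → ZMod (3 ^ B)}
  {φ : Fin (r + 1) → M → ZMod (3 ^ B)} {c : Ideal (𝓞 M)} {a : Ideal (𝓞 M) → ℂ}

theorem aux_dvd (X : Aux t B W Φ φ) (h : t' ∣ t) : Aux t' B W Φ φ :=
  { X with cop := fun i k => X.cop i (mem_of_dvd _ h k) }

theorem aux3 (X : Aux (3 * l) B W Φ φ) (i) : (3 : 𝓞 M) ∉ W i ∧ (l : 𝓞 M) ∉ W i :=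
  ⟨fun k => X.cop i (mul_mem_right _ _ k), fun k => X.cop i (mul_mem_left _ _ k)⟩

theorem pv_w (X : Aux (3 * l) B W Φ φ) : Pv ι J (⊤ * ∏ i, W i) :=
  pv_mul pv_top (Gx.pv_two (sup_comm (∏ i, W i) _ ▸ cop_prod.2 fun i =>
    cop_of (X.max i) (mem_span_singleton_self 3) (aux3 X i).1))

theorem cop_w (X : Aux (3 * l) B W Φ φ) : span {(l : 𝓞 M)} ⊔ ⊤ * ∏ i, W i = ⊤ :=
  cop_mul.2 ⟨by simp, cop_prod.2 fun i => cop_of (X.max i) (mem_span_singleton_self _) (aux3 X i).2⟩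

theorem le_w (i) : ⊤ * ∏ i, W i ≤ W i := Ideal.mul_le_right.trans (prod_le i)

theorem ok_w (X : Aux (3 * l) B W Φ φ) (S : Sm c l) (H : HC J k ⊤ a) (u : Summable (rs W a)) :
    Ok W (⊤ * ∏ i, W i) (rs W a) c :=
  ⟨le_w, fun I h => by
    rw [ne_eq, (rs_hc H).zero, not_or, not_not, top_mul, cop_prod] at h
    exact h, (sm_mem S).1, fun i => cop_of (X.max i) (sm_mem S).2 (aux3 X i).2, u⟩

/-- restriction, for any family -/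
def rk {κ : Type} (W : κ → Ideal (𝓞 M)) (a : Ideal (𝓞 M) → ℂ) (I : Ideal (𝓞 M)) : ℂ :=
  if ∀ i, I ⊔ W i = ⊤ then a I else 0

theorem rk_le {κ : Type} (W : κ → Ideal (𝓞 M)) (I : Ideal (𝓞 M)) : ‖rk W a I‖ ≤ ‖a I‖ := by
  unfold rk; split_ifs <;> simp

end Pn

theorem prn (bnd : BND) (bndr : Cg.BNDR) (lead : LEAD) (smx : SMX) (lcm : LCM) (mea : MEA)
    (spl : SPL) : PRN := by
  intro K _ _ ι J Ω Bs M N _ _ _ _ _ _ _ _ τ h2 τ1 hw n b n₂ b₂ ψ v v₂ Q hd h h0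
  have := gal2 h2
  obtain ⟨f₀, F, pf, Lf, cF⟩ := Q.lc
  obtain ⟨⟨l, c', -, S'⟩, l₁, c₁, n₁, S₁, i₁, m₁⟩ :=
    smx M N h2 hw (absNorm f₀) (mt absNorm_eq_zero_iff.1 (pv_ne pf))
  have S := sm_rn (M := M) S'
  obtain ⟨-, -, s3⟩ := spl M N τ h2 τ1
  obtain ⟨C₁, D₁⟩ := bnd K ι J Ω Bs M n b v _ l S
  obtain ⟨C₂, D₂⟩ := bnd K ι J Ω Bs N n₂ b₂ v₂ c' l S'
  obtain ⟨C₃, D₃⟩ := bndr K ι J Ω Bs M n b v c₁ l₁ S₁
  obtain ⟨C, C0, k₁, k₂, k₃⟩ : ∃ C, 0 < C ∧ C₁ ≤ C ∧ C₂ ≤ C ∧ C₃ ≤ C :=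
    ⟨max (max 1 C₁) (max C₂ C₃), by simp, by simp, by simp, by simp⟩
  have hn : n₂ = n * 2 := by
    have := finrank_mul_finrank K M N
    rwa [finrank_eq_card_basis b, finrank_eq_card_basis b₂, h2, Fintype.card_fin, Fintype.card_fin,
      eq_comm] at this
  have l0 := S.1.ne_zero
  have l1 := S₁.1.ne_zero
  have q0 : 0 < ‖(1 - l : ℂ_[3])‖ := norm_pos_iff.2 (sub_ne_zero.2 (by
    exact_mod_cast S.1.one_lt.ne))
  have c0 : 0 < cf ι J ψ :=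
    cF ▸ norm_pos_iff.2 (Nat.cast_ne_zero.2 (mt absNorm_eq_zero_iff.1 Lf.ne))
  have fl : span {(l₁ : 𝓞 M)} ⊔ f₀ = ⊤ := eq_top_iff.2 ((cop_nat
    (S₁.1.coprime_iff_not_dvd.2 n₁)).ge.trans (sup_le_sup_left
      ((span_singleton_le_iff_mem _).2 (absNorm_mem f₀)) _))
  refine ⟨3 * l * l₁, l, C, by positivity, dvd_mul_right _ _, fun s d ε ε0 => ?_⟩
  obtain ⟨M1, M2, M3, -⟩ := mea ι s C
  obtain ⟨η, η0, hη⟩ : ∃ η > 0, 2 ^ (d + 1) * (10 * η) = ε :=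
    ⟨ε / (10 * 2 ^ (d + 1)), by positivity, by field_simp⟩
  obtain ⟨j₁, a₁⟩ := ex_small (δ := η / C) (by positivity)
  obtain ⟨j0, a0⟩ := ex_small (δ := (1 / 3) ^ j₁ / (s + 1)) (by positivity)
  refine ⟨j0, fun j hj δ δ0 => ?_⟩
  obtain ⟨ε', ε1, B₁, M1⟩ := M1 (d + s) (‖(1 - l : ℂ_[3])‖ * δ) η (by positivity) η0
  obtain ⟨B₂, M2⟩ := M2 η η0
  obtain ⟨m₁', L₁⟩ := lead K ι J Ω Bs M n b v _ l S h (d + s) h0 ε' ε1
  obtain ⟨m₂', L₂⟩ := lead K ι J Ω Bs N n₂ b₂ v₂ c' l S' h (d + s + s) h0 ε' ε1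
  refine ⟨max m₁' m₂', fun m hm => ?_⟩
  obtain ⟨A₁, L₁⟩ := L₁ m (le_of_max_le_left hm)
  obtain ⟨A₂, L₂⟩ := L₂ m (le_of_max_le_right hm)
  refine ⟨max (max A₁ A₂) (max (max B₁ B₂) 1), fun e B he hB lam La t' m' c₀ c w Φ f p Ψ g₀ g f' ht
    bm pk γ R γ₂ R₂ q1 q2 q3 q4 hδ x hx => ?_⟩
  simp only [max_le_iff] at he hB
  push_cast at ht
  have X := aux_dvd pk.dn ((dvd_mul_right _ _).trans ht)
  have X₁ : Aux (3 * l₁) B _ _ _ := aux_dvd pk.dn (Dvd.dvd.trans ⟨l, by ring⟩ ht)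
  have X' : Aux (3 * l) B _ _ _ := aux_dvd pk.up (by
    simpa [map_ofNat] using map_dvd (algebraMap (𝓞 M) (𝓞 N)) ((dvd_mul_right _ _).trans ht))
  obtain ⟨z₁, y₁⟩ := L₁ e B he.1.1 hB.1.1 lam La _ _ _ X γ q1 R q2
  obtain ⟨z₂, y₂⟩ := L₂ e B he.1.2 hB.1.2 lam La _ _ _ X' γ₂ q3 R₂ q4
  have p2 : 3 ≤ 3 ^ e := le_self_pow₀ (by norm_num) (by omega)
  have hk : 3 ≤ 2 * h * 3 ^ e := by nlinarith
  have hs : (2 : ℝ) ≤ h * (3 ^ e : ℕ) := by exact_mod_cast (by nlinarith : 2 ≤ h * 3 ^ e)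
  have ek : Even (2 * h * 3 ^ e) := ⟨h * 3 ^ e, by ring⟩
  set k := 2 * h * 3 ^ e
  set a : Ideal (𝓞 M) → ℂ := fun I => lam (relNorm (𝓞 K) I) with ha
  set a' : Ideal (𝓞 N) → ℂ := fun I => lam (relNorm (𝓞 K) I) with ha'
  set Θ : Ideal (𝓞 M) → ZMod (3 ^ B) := fun I => Φ I + 3 ^ j * Ψ I with hΘ
  have H : HC J k ⊤ a := la_hc Bs La
  have H' : HC J k ⊤ a' := la_hc Bs La
  have cψ : P004C.Al.Cm ψ := ⟨Lf.hc.one, Lf.hc.mul⟩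
  have ψle : ∀ {y : ℂ} I, ‖ψ I * y‖ ≤ ‖y‖ := fun I => by
    rw [norm_mul]
    exact mul_le_of_le_one_left (norm_nonneg _) (Q.le I)
  have nn : ∀ I, ‖rs (Wd p w) a I‖ ≤ _ := fun I => (rs_le I).trans (la_le Bs La hs I)
  have u₁ := sum_of one_lt_two nn
  have u₂ : Summable (rs (Wu τ p w) a') :=
    sum_of one_lt_two fun I => (rs_le I).trans (la_le Bs La hs I)
  have u₃ : Summable fun I => ψ I * rs (Wd p w) a I :=
    sum_of one_lt_two fun I => (ψle I).trans (nn I)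
  have o₁ := ok_w X S H u₁
  have o₂ := ok_w X' S' H' u₂
  have o₀ := ok_w X₁ S₁ H u₁
  have o₃ : Pn.Ok (Wd p w) (f₀ * (⊤ * ∏ i, Wd p w i)) (fun I => ψ I * rs (Wd p w) a I) c₁ :=
    ⟨fun i => Ideal.mul_le_right.trans (le_w i), fun I h => o₀.sup I (right_ne_zero_of_mul h),
      o₀.ne, o₀.cop, u₃⟩
  have dp := dv_pos (ι := ι) (J := J) b
  have sp := sc_pos Bs dp n k
  have sq := sc_pos Bs (mul_pos dp c0) n k
  simp only [zz_eq u₁ o₁.cop] at z₁ y₁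
  simp only [zz_eq u₂ o₂.cop] at z₂ y₂
  have b₁ := fun y => (mu_bd (fun u => D₁ k _ _ u hk (pv_w X) ((sup_comm _ _).trans (cop_w X))
    ⟨_, X.max 0, le_w 0, (aux3 X 0).1⟩ (rs_hc H)) o₁ (ad_aux X) y).trans k₁
  have b₃ := fun y => (mu_bd (fun u => D₂ k _ _ u hk (pv_w X') ((sup_comm _ _).trans (cop_w X'))
    ⟨_, X'.max 0, le_w 0, (aux3 X' 0).1⟩ (rs_hc H')) o₂ (ad_aux X') y).trans k₂
  replace D₃ := fun f => D₃ k f F
  rw [cF] at D₃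
  have D : Bd ι (sc Ω (dv ι J b * cf ι J ψ) n k) C _ (fun I => ψ I * rs (Wd p w) a I) c₁ l₁ :=
    fun u r₁ r₂ => (D₃ _ _ u hk ek (pv_mul pf (pv_w X))
      ((sup_comm _ _).trans (cop_mul.2 ⟨fl, cop_w X₁⟩)) ⟨_, X.max 0, o₃.le 0, (aux3 X 0).1⟩
      (lcm K ι J Ω Bs M k f₀ F _ ψ _ pf (pv_w X) Lf (rs_hc H)) r₁ r₂).trans k₃
  have es : sc Ω (dv ι J b₂) n₂ k = sc Ω (dv ι J b) n k * sc Ω (dv ι J b * cf ι J ψ) n k := by
    rw [hd, hn, sc_mul dp c0]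
  rw [es] at b₃ z₂ y₂
  obtain ⟨x1, x2⟩ := (all1 IsMaximal).1 X.max
  have rr : ∀ I, rs (Wu τ p w) a' I = rs (Wd p w) a (relNorm (𝓞 M) I) := fun I => by
    simp only [rs, ha, ha', rn_rn]
    refine if_congr ?_ rfl rfl
    rw [wu, wd, all1 (I ⊔ · = ⊤), all1 (I ⊔ · = ⊤), all1 (relNorm (𝓞 M) I ⊔ · = ⊤), and_assoc]
    simp only [cop_rn (x1 _), cop_rn (x2 _), ((s3 _ (bm.max _)).2 (bm.ne _)).1, cop_mul, forall_and]
  have A0 : Ad (Wd p w) Φ := (ad_sy bm.sy).mono fun P k => ((all1 P).1 k).2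
  have tt : ‖ι (l₁ * (ψ c₁ * rs (Wd p w) a c₁))‖ ≤ 1 ∧
      ‖ι (1 - l₁ * (ψ c₁ * rs (Wd p w) a c₁))‖ = 1 := by
    rw [rs, if_pos o₀.cop, ine_eta h2 (sm_max S₁) (Q.gp _ (sm_max S₁)) i₁, neg_one_mul]
    exact un (la_one Bs La (sm_pv S₁)) m₁
  have U := fun μ ν t y => M2 B hB.2.1.2 μ ν _ t y sq
  have T₁ := U (ms (fun I => ψ I * rs (Wd p w) a I) Θ) _ _ _ tt.1 tt.2 (sm_ch _ _ (Θ c₁))
  have T₂ := U (ms (fun I => ψ I * rs (Wd p w) a I) Φ) _ _ _ tt.1 tt.2 (sm_ch _ _ (Φ c₁))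
  have hid : ∀ ω : AddChar (ZMod (3 ^ B)) ℂ,
      ∑ z, mu (rs (Wu τ p w) a') (fun I => Θ (relNorm (𝓞 M) I)) c' l z * ω z =
        (∑ z, mu (rs (Wd p w) a) Θ (relNorm (𝓞 M) c') l z * ω z) *
          ∑ z, ms (fun I => ψ I * rs (Wd p w) a I) Θ z * ω z := fun ω => by
    have k1 := (P004C.Al.eul_cyc h2 cψ Q.le (tw_cm X (rs_hc H) le_w ω)
      (by simp [rs, (H.zero ⊥).2 (.inl rfl)]) one_lt_two
      (fun I => by rw [norm_mul, ω.norm_apply, mul_one]; exact nn I) fun P p _ => Q.gp P p).2.2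
    simp only [Finset.prod_range_succ, Finset.prod_range_zero, pow_zero, pow_one, mul_one,
      one_mul] at k1
    rw [mu_ch u₁, mu_ch u₂, ms_sum u₃, mul_assoc (1 - _)]
    simp only [rr]
    refine congrArg _ (k1.trans (congrArg _ (tsum_congr fun I => by ring)))
  have E₁ := M1 B hB.2.1.1 _ _ _ _ _ x (‖(1 - l : ℂ_[3])‖ * Dt ι J b m (fd g f') γ R) sp sq hid
    ⟨b₁, z₁, by rwa [mul_assoc (1 - l : ℂ_[3]), norm_mul] at y₁⟩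
    ⟨b₃, z₂, by rw [mul_assoc _ _ x, ← hx]; rwa [mul_assoc (1 - l : ℂ_[3]), norm_mul] at y₂⟩
    (T₁.1.2 (mu_bd D o₃ (ad_aux X))) (mul_le_mul_of_nonneg_left hδ q0.le)
  have E₂ := mo_cl ((T₁.2 η x η0.le).1 E₁) sq.le (mu_bd D o₃ A0) fun i hi =>
    (mu_cl D o₃ A0 (ad_aux X) i j₁ fun I => (M3 B j i _ _ hi).trans (by
      have := a0 j hj
      rw [le_div_iff₀ (by positivity)] at this
      nlinarith [pow_pos (by norm_num : (0 : ℝ) < 1 / 3) j])).trans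
      ((le_div_iff₀' C0).1 (a₁ j₁ le_rfl))
  have E₃ := (T₂.2 _ x (by positivity)).2 E₂
  set β := rk (fun i => (w i).under (𝓞 M)) fun I => ψ I * a I with hβ
  have u₄ : Summable β :=
    sum_of one_lt_two fun I => (rk_le _ I).trans ((ψle I).trans (la_le Bs La hs I))
  refine mo_mono (iter η0.le (fun μ ν t y r₁ r₂ r₃ ε' r₄ => ((U μ ν t y r₁ r₂ r₃).2 ε' x r₄).2)
    (fun i => β (p i)) (fun i => Φ (p i)) (fun i => ?_) (by positivity) E₃ Finset.univ (ms β Φ)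
    fun ω => ?_) ?_
  · simp only [hβ, rk]
    split_ifs
    · rw [ine_eta h2 (x1 i) (Q.gp _ (x1 i)) (pk.ine i), neg_one_mul]
      simpa using un (l := 1) (la_one Bs La (pv_max (x1 i) (((all1 (3 ∉ ·)).1
        fun i => (aux3 X i).1).1 i))) rfl
    · simp
  · rw [ms_sum u₃, ms_sum u₄, ← rs_sum (a := fun I => β I * ω (Φ I)) pk.sa.max (fun i => pv_ne (pv_max (ι := ι) (J := J) (x1 i)
      (((all1 (3 ∉ ·)).1 fun i => (aux3 X i).1).1 i))) pk.sa.inj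
      ((ad_sy bm.sy).cm ⟨by rw [cψ.one, H.one, mul_one], fun I I' => by rw [cψ.mul, H.mul]; ring⟩
        (by rw [(H.zero ⊥).2 (.inl rfl), mul_zero]) ω) (sm_of u₄ ω)]
    refine tsum_congr fun I => ?_
    simp only [rs, hβ, rk, wd, all1 (I ⊔ · = ⊤), ite_and]
    split_ifs <;> simp
  · rw [Finset.card_univ, Fintype.card_fin, ← hη]
    linarith

end Vale.Agent.P014Y.C.Al
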