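import Vale.Agent.P014Y.C.Al.St2
import Vale.Agent.P004C.Al.Smx

/-!
# P014 Y, block AL: rows SMX, LCM, CNT
-/

set_option linter.all false

open NumberField Module IsDedekindDomain Ideal
open scoped Classical

noncomputable section

namespace Vale.Agent.P014Y.C.Al

open P004C.Al (Gp)
open Cg (Lc)

namespace Sx

variable {M N : Type} [Field M] [NumberField M] [Field N] [NumberField N] [Algebra M N]

/-- primes of degree one of a field with the cube roots of unity -/
theorem md {c : Ideal (𝓞 M)} {l : ℕ} (hl : l.Prime) (l3 : l ≠ 3) (hc : absNorm c = l) {w : M}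
    (hw : w ^ 2 + w + 1 = 0) : l % 3 = 1 := by
  have i : IsIntegral ℤ w := .of_pow (n := 3) (by norm_num) (by
    rw [show w ^ 3 = 1 by linear_combination (w - 1) * hw]; exact isIntegral_one)
  have p := isPrime_of_irreducible_absNorm (hc ▸ hl : Irreducible (absNorm c))
  have c0 : c ≠ ⊥ := fun e => hl.ne_zero (by rw [← hc, e, absNorm_bot])
  have := p.isMaximal c0
  let _ : Field (𝓞 M ⧸ c) := Quotient.field _
  have : Finite (𝓞 M ⧸ c) := finiteQuotientOfFreeOfNeBot _ c0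
  let _ : Fintype (𝓞 M ⧸ c) := Fintype.ofFinite _
  have e : Fintype.card (𝓞 M ⧸ c) = l := by
    rw [← hc, absNorm_apply, Submodule.cardQuot_apply, Nat.card_eq_fintype_card]
  obtain ⟨y, hy⟩ : ∃ y : 𝓞 M, y ^ 2 + y + 1 = 0 := ⟨⟨w, i⟩, RingOfIntegers.ext hw⟩
  have h := congrArg (Ideal.Quotient.mk c) hy
  rw [map_add, map_add, map_pow, map_one, map_zero] at h
  generalize Ideal.Quotient.mk c y = x at h
  have : Fact l.Prime := ⟨hl⟩
  have := charP_of_card_eq_prime e
  have o : orderOf x = 3 := orderOf_eq_prime (by linear_combination (x - 1) * h) fun k => l3 <|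
    (Nat.prime_dvd_prime_iff_eq hl Nat.prime_three).1 ((CharP.cast_eq_zero_iff (𝓞 M ⧸ c) l 3).1 (by
      rw [k] at h; push_cast; linear_combination h))
  have d := orderOf_dvd_of_pow_eq_one (FiniteField.pow_card_sub_one_eq_one x fun k => by simp [k] at h)
  have := hl.two_le
  rw [o, e] at d
  omega

/-- split primes -/
theorem spl (r : finrank M N = 2) {ψ : Ideal (𝓞 M) → ℂ} {P : Ideal (𝓞 M)} (hP : P.IsMaximal)
    (h : Gp N ψ P) : ψ P = 1 ↔ 2 ≤ (P.primesOver (𝓞 N)).ncard := by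
  haveI : Algebra.IsQuadraticExtension M N := { finrank_eq_two' := r }
  obtain ⟨Q, ⟨_, _⟩, h⟩ := h
  have g := ncard_primesOver_mul_ramificationIdxIn_mul_inertiaDegIn P (𝓞 N) Gal(N/M)
  rw [IsGaloisGroup.card_eq_finrank Gal(N/M) M N, r,
    ramificationIdxIn_eq_ramificationIdx P Q Gal(N/M), inertiaDegIn_eq_inertiaDeg P Q Gal(N/M)] at g
  have f := inertiaDeg_pos Q (𝓞 M)
  rcases h with ⟨e, h⟩ | ⟨h, e⟩
  · rw [e, one_mul] at g
    refine ⟨fun k => ?_, fun k => ?_⟩
    · rw [← g, h.unique (k ▸ IsPrimitiveRoot.one), mul_one]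
    · rwa [show Q.inertiaDeg (𝓞 M) = 1 by nlinarith, IsPrimitiveRoot.one_right_iff] at h
  · rw [e, r] at g
    exact ⟨fun k => absurd (h.symm.trans k) zero_ne_one, fun k => by nlinarith⟩

end Sx

theorem smx : SMX := fun L L₂ _ _ _ _ _ r ⟨w, hw⟩ N hN => by
  obtain ⟨⟨l, c, a, b, -, d⟩, l', c', a', ⟨b', -, d'⟩, e⟩ := P004C.Al.smx L L₂ r (3 * N) (by omega)
  have k {l : ℕ} (h : ¬ l ∣ 3 * N) : ¬ l ∣ N ∧ l ≠ 3 :=
    ⟨fun z => h (z.mul_left 3), fun z => h (z ▸ dvd_mul_right _ _)⟩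
  exact ⟨⟨l, c, (k a).1, b, (k a).2, d⟩, l', c', (k a').1, ⟨b', (k a').2, d'⟩, e,
    Sx.md b' (k a').2 d'.1 hw⟩

theorem lcm : LCM := fun K _ _ ι J Ω _ M _ _ _ k f F g ψ a _ pg h h' => by
  have n (x : 𝓞 M) (e : x ≠ 0) : J (Algebra.norm K (x : M)) ≠ 0 :=
    (map_ne_zero J).2 ((Algebra.norm_ne_zero_iff).2 (by simpa using e))
  have ml {I I' : Ideal (𝓞 M)} {x} (u : x ∈ I * I') : x ∈ I := le_of_dvd (dvd_mul_right I I') u
  have mr {I I' : Ideal (𝓞 M)} {x} (u : x ∈ I * I') : x ∈ I' := le_of_dvd (dvd_mul_left I' I) u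
  refine ⟨⟨by rw [h.hc.one, h'.one, one_mul], fun I I' => by rw [h.hc.mul, h'.mul]; ring, fun I => ?_,
    fun x e u => ?_⟩, h.ne, h.av, fun P F' m e => ?_, h.mu.imp fun j t x u => ?_⟩
  · rw [mul_eq_zero, h.hc.zero, h'.zero, mul_right_comm f, ← or_or_distrib_left]
    simp only [Ne, ← isCoprime_iff_sup_eq, IsCoprime.mul_right_iff (y := f * F), not_and_or]
  · rw [mul_right_comm f] at u
    rw [h.hc.prn x e (ml u), h'.prn x e (mr u), pow_zero, one_mul]
  · obtain ⟨x, u, v, t⟩ := h.pm P F' m e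
    obtain ⟨z, z1, y, y1, s⟩ := Submodule.mem_sup.1 ((eq_top_iff_one _).1 (m.1.2 (P ⊔ g)
      (left_lt_sup.2 fun k => (h.av P m ⟨_, e⟩).2 (pg.imp fun s k' => ⟨k'.1, k k'.2⟩))))
    have le : f * F ≤ P := by rw [e, mul_left_comm]; exact fun _ => ml
    have d : 1 + (x - 1) * y - x ∈ f * F := by
      rw [e, mul_left_comm, show 1 + (x - 1) * y - x = -z * (x - 1) by linear_combination (x - 1) * s]
      exact mul_mem_mul (neg_mem z1) u
    have v' : 1 + (x - 1) * y ∉ P := fun k => v (by simpa using sub_mem k (le d))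
    have x0 : 1 + (x - 1) * y ≠ 0 := fun k => v' (k ▸ zero_mem P)
    refine ⟨1 + (x - 1) * y, by rw [add_sub_cancel_left, mul_right_comm f]; exact mul_mem_mul u y1,
      v', fun k' => t ?_⟩
    rw [h'.prn _ x0 (by rw [add_sub_cancel_left]; exact mul_mem_left _ _ y1),
      mul_eq_right₀ (pow_ne_zero _ (inv_ne_zero (n _ x0)))] at k'
    have c : IsCoprime (span {x}) (f * F) := by
      rw [e, mul_left_comm]
      refine .mul_right (isCoprime_iff_sup_eq.2 ?_) (isCoprime_iff_exists.2 ⟨x, mem_span_singleton_self x,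
        -(x - 1), neg_mem u, by ring⟩)
      rw [sup_comm]
      exact m.1.2 _ (left_lt_sup.2 (by rwa [span_singleton_le_iff_mem]))
    obtain ⟨i, i1, j, j1, s'⟩ := isCoprime_iff_exists.1 c
    obtain ⟨b, rfl⟩ := mem_span_singleton'.1 i1
    have q (w : 𝓞 M) (o : w - x ∈ f * F) : ψ (span {b}) * ψ (span {w}) = 1 := by
      have o' : b * w - 1 ∈ f * F := by
        rw [show b * w - 1 = b * (w - x) - j by linear_combination s']
        exact sub_mem (mul_mem_left _ _ o) j1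
      rw [← h.hc.mul, span_singleton_mul_span_singleton, h.hc.prn _ (fun k => m.ne_top
        ((eq_top_iff_one _).2 (by simpa [k] using le o'))) o', pow_zero]
    have q1 := q _ d
    have q2 := q x (by simp)
    rw [k', mul_one] at q1
    rwa [q1, one_mul, ← pow_zero] at q2
  · by_cases e : x = 0
    · exact .inl (by rw [(h.hc.zero _).2 (.inl (by simp [e])), zero_mul])
    · refine (t x (ml u)).imp (fun k => by rw [k, zero_mul]) fun k' => ?_
      rwa [h'.prn x e (mr u), mul_assoc, ← mul_pow, inv_mul_cancel₀ (n x e), one_pow,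
        ← pow_zero]

theorem cnt : CNT := fun K M N _ _ _ _ _ _ _ _ _ _ ψ r h => by
  have fin (P : Ideal (𝓞 M)) [P.IsMaximal] := IsDedekindDomain.primesOver_finite P (𝓞 N)
  refine ⟨fun s s0 => ?_, fun τ w m n => ?_⟩
  · have ps (L : Type) [Field L] [NumberField L] [Algebra K L] : (Ps L s).Finite := by
      have := UniqueFactorizationMonoid.fintypeSubtypeDvd (span {algebraMap (𝓞 K) (𝓞 L) s})
        (by simpa using s0)
      exact Set.Finite.subset (s := {I | I ∣ span {algebraMap (𝓞 K) (𝓞 L) s}})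
        (Finite.of_fintype {I // I ∣ span {algebraMap (𝓞 K) (𝓞 L) s}}) fun P k => dvd_span_singleton.2 k.2
    have tw := (IsScalarTower.algebraMap_apply (𝓞 K) (𝓞 M) (𝓞 N) s).symm
    rw [Set.ncard_eq_toFinset_card _ (ps M), Set.ncard_eq_toFinset_card _ (ps N),
      show {P ∈ Ps M s | ψ P = 1} = ((ps M).toFinset.filter (ψ · = 1) : Finset _) by ext; simp,
      Set.ncard_coe_finset, Finset.card_eq_sum_card_fiberwise (s := (ps N).toFinset)
      (t := (ps M).toFinset) (f := fun Q => Q.under (𝓞 M)) fun Q k => by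
        have ⟨_, k⟩ := (ps N).mem_toFinset.1 k
        exact (ps M).mem_toFinset.2 ⟨IsMaximal.under _ _, by rwa [mem_comap, tw]⟩,
      Finset.card_filter, Finset.card_eq_sum_ones, ← Finset.sum_add_distrib]
    refine Finset.sum_le_sum fun P k => ?_
    have ⟨m, k⟩ := (ps M).mem_toFinset.1 k
    rw [← Set.ncard_coe_finset, show ((ps N).toFinset.filter (fun Q => Q.under (𝓞 M) = P) : Set _) =
      P.primesOver (𝓞 N) from Set.ext fun Q => ?_]
    · split_ifs with e
      · exact (Sx.spl r m (h _ m)).1 e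
      · obtain ⟨Q, u, -⟩ := h P m
        exact (Set.ncard_pos (fin P)).2 ⟨Q, u⟩
    · simp only [Finset.coe_filter, Set.Finite.mem_toFinset]
      exact ⟨fun u => ⟨u.1.1.isPrime, ⟨u.2.symm⟩⟩, fun ⟨_, u⟩ => ⟨⟨IsMaximal.of_liesOver_isMaximal Q P,
        by rwa [← tw, ← mem_comap, ← under, ← u.1]⟩, u.1.symm⟩⟩
  · have := m.under (𝓞 M)
    refine (Sx.spl r this (h _ this)).2 ((Set.one_lt_ncard (fin _)).2 ⟨w, ⟨inferInstance, ⟨rfl⟩⟩, cj τ w,
      ⟨(comap_isMaximal_of_surjective _ (RingOfIntegers.mapAlgEquiv τ).surjective).isPrime,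
        ⟨Ideal.ext fun x => ?_⟩⟩, n.symm⟩)
    rw [mem_comap, mem_comap, cj, mem_comap, AlgEquiv.commutes]

end Vale.Agent.P014Y.C.Al
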