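import Vale.Agent.P014Y.C.Al.Pj
import Vale.Agent.P014Y.C.Al.Pq
import Vale.Agent.P014Y.C.Al.A2
import Vale.Agent.P014Y.C.Al.Pmi

/-!
# P014 Y, block AL: row TWO
-/

set_option autoImplicit false
set_option linter.all false

open NumberField Module IsDedekindDomain
open scoped Classical

noncomputable section

namespace Vale.Agent.P014Y.C.Al

open Vale.Agent.P027M.S (Pr)
open Df Pjk Subgroup

namespace Tw2

variable {K : Type} [Field K] [NumberField K] {ι : ℂ →+* ℂ_[3]} {J : K →+* ℂ}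
  {A : Type} [Field A] [NumberField A] [Algebra K A]

theorem pj_cm {L : Type} [Field L] [NumberField L] [Algebra L A] {T : Set (Ideal (𝓞 L))}
    {S : Set (Pr A)} (hS : S = {P | Av ι J P.asIdeal ∨ P.asIdeal.under (𝓞 L) ∈ T})
    {σ : A ≃ₐ[K] A} (h : ∀ x : L, σ (algebraMap L A x) = algebraMap L A x) (p : Dv A) :
    pj S (ta σ p) = ta σ (pj S p) := by
  refine pj_ta (fun P => ?_) p
  have : (cm σ P).asIdeal.under (𝓞 L) = P.asIdeal.under (𝓞 L) := Ideal.ext fun x => by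
    change so σ (algebraMap (𝓞 L) (𝓞 A) x) ∈ P.asIdeal ↔ algebraMap (𝓞 L) (𝓞 A) x ∈ P.asIdeal
    rw [show so σ (algebraMap (𝓞 L) (𝓞 A) x) = algebraMap (𝓞 L) (𝓞 A) x from
      RingOfIntegers.ext (h x)]
  rw [hS]
  exact or_congr (av_cm σ P) (by rw [this])

theorem im_map (σ : A ≃ₐ[K] A) (L : Type) [Field L] [Algebra L A] {S : Set (Pr A)}
    (h : Ss ι J A 1 ⊆ S) : (IM ι J σ L (Ss ι J A 1)).map (pj S) = IM ι J σ L S := by
  rw [IM, IM, map_map, show (pj S).comp (pj (Ss ι J A 1)) = pj S from MonoidHom.ext (pj_pj h)]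

theorem im_one (σ : A ≃ₐ[K] A) (L : Type) [Field L] [Algebra L A] :
    IM ι J σ L (Ss ι J A 1) = mn (ta σ) (IL L (Ss ι J A 1)) := by
  have k : ∀ p ∈ IL L (Ss ι J A 1), pj (Ss ι J A 1) p = p := by
    rintro _ ⟨p, -, rfl⟩
    exact pj_pj le_rfl p
  refine le_antisymm ?_ fun p hp => ⟨p, hp, k p hp.1⟩
  rintro _ ⟨p, hp, rfl⟩
  rw [k p hp.1]
  exact hp

end Tw2

open Tw2

/-- **row TWO** -/
theorem two' : TWO := by
  intro K _ _ ι J Ω B q m hm T T' S hT h hT' h' hS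
  have s0 : Ss ι J q.A 1 ⊆ S := fun P k => hS ▸ .inl (s1.1 k)
  have c := pj_cm hS (σ := q.ρ) fun x => by
    rw [IsScalarTower.algebraMap_apply q.M q.N q.A]; exact q.ω'.commutes _
  have c' := pj_cm hS (σ := q.σ) fun x => by
    rw [IsScalarTower.algebraMap_apply q.M q.E q.A]; exact q.τ'.commutes _
  have fT : T'.Finite := (hT.biUnion fun P hP =>
    haveI := (h P hP).1
    IsDedekindDomain.primesOver_finite P (𝓞 q.N)).subset fun Q hQ => by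
      rw [hT'] at hQ
      exact Set.mem_biUnion hQ.2 ⟨hQ.1.isPrime, ⟨rfl⟩⟩
  have hS' : S = {P | Av ι J P.asIdeal ∨ P.asIdeal.under (𝓞 q.N) ∈ T'} := by
    rw [hS, hT']
    refine Set.ext fun P => or_congr_right ⟨fun k => ⟨?_, by rwa [Ideal.under_under]⟩,
      fun k => by simpa only [Ideal.under_under] using k.2⟩
    haveI := P.isMaximal
    exact Ideal.IsMaximal.under _ _
  obtain ⟨k1, e1⟩ := ine_part (L₂ := q.A) fT (fun Q hQ => ⟨(hT' ▸ hQ).1, h' Q hQ,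
    pv_under.1 (h _ (hT' ▸ hQ).2).2.2⟩) hS'
  obtain ⟨-, e2⟩ := ine_part (L₂ := q.E) hT h hS
  have pa := pq K ι J Ω B q.A q.E q.A q.τ' q.σ q.d2' q.ne' (fun _ => rfl) m _
    (pj_s (ι := ι) (J := J) q.σ 1)
  have kr : ∀ p ∈ (pj S).ker, ta q.σ p ∈ (pj S).ker := fun p hp => by
    rw [MonoidHom.mem_ker, c', hp, map_one]
  have e3 := (pmi _ (ta q.σ) (IL q.E (Ss ι J q.A 1) ⊓ (pj S).ker)
    (IL q.A (Ss ι J q.A 1) ⊓ (pj S).ker) ⊥ ⊥ (inf_le_inf_right _ pa.le')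
    (fun x hx => pa.fx' x hx.1) fun x hx => ⟨⟨(pa.st' x hx.1).1, kr x hx.2⟩, (pa.st' x hx.1).2.1,
      (pa.st' x hx.1).2.2, mul_mem hx.2 (kr x hx.2)⟩).1
  have e4 : mn (ta q.σ) (IL q.A (Ss ι J q.A 1) ⊓ (pj S).ker) =
      IM ι J q.σ q.A (Ss ι J q.A 1) ⊓ (pj S).ker := by
    rw [im_one, mn, mn, inf_right_comm]
  rw [e1, e2, e4] at e3
  have n0 : ic (IM ι J q.σ q.A (Ss ι J q.A 1) ⊓ (pj S).ker) ≠ 0 :=
    right_ne_zero_of_mul (e3.symm.trans_ne (by positivity))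
  obtain ⟨p, n1, n2⟩ := mp3 pq pc K ι J Ω B q m _ hm le_rfl (fin_S one_ne_zero) (pj_s q.ρ 1)
  obtain ⟨a, -, b⟩ := a2 _ _ _ _ _ _ _ _ _ (pj S) p c (by
    rw [im_one, im_one]
    exact fun x hx => ⟨k1 ⟨hx.1.1, hx.2⟩, hx.1.2⟩) n2 n0
  rw [dd_pj s0, im_map _ _ s0, im_map _ _ s0] at a b
  have n3 : q.cM ι J S m ≠ 0 := ne_zero_of_dvd_ne_zero n2 b
  have n4 : q.hM ι J S m ≠ 0 := left_ne_zero_of_mul
    (a.trans_ne (mul_ne_zero (mul_ne_zero n0 n1) n3))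
  have f : v3 (q.hM ι J S m * q.cM ι J (Ss ι J q.A 1) m) =
      v3 (_ * q.hM ι J (Ss ι J q.A 1) m * q.cM ι J S m) := congrArg v3 a
  have g := congrArg v3 e3
  rw [v3, v3, padicValNat.mul n4 n2, padicValNat.mul (mul_ne_zero n0 n1) n3,
    padicValNat.mul n0 n1] at f
  rw [v3, v3, padicValNat.mul (by positivity) n0, padicValNat.prime_pow, padicValNat.prime_pow] at g
  simp only [v3]
  omega

end Vale.Agent.P014Y.C.Al
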