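import Vale.Agent.P014Y.C.Al.Aux3

/-!
# P014 Y, block AL: tools for the completion of a pair
-/

set_option linter.all false

noncomputable section

namespace Vale.Agent.P014Y.C.Al.Cl

open NumberField Module Ideal Matrix NumberField.Units IsDedekindDomain
open scoped Classical

/-- the enumeration -/
def ee (d s : ℕ) : Fin (d + s + 1) ≃ Fin (d + 1) ⊕ Fin s :=
  (finCongr (Nat.add_right_comm d s 1)).trans finSumFinEquiv.symm

theorem elim_ee {α : Type} {d s : ℕ} (a : Fin (d + 1) → α) (w : Fin s → α) :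
    Sum.elim a w ∘ ee d s = vecCons (a 0) (Fin.append (fun i => a i.succ) w) := by
  funext i
  refine Fin.cases ?_ (fun i => Fin.addCases (fun i => ?_) (fun i => ?_) i) i
  · rw [Function.comp, show ee d s 0 = .inl 0 from
      (ee d s).eq_symm_apply.1 (Fin.ext rfl)]
    rfl
  · rw [Function.comp, show ee d s (Fin.castAdd s i).succ = .inl i.succ from
      finSumFinEquiv.symm_apply_eq.2 (Fin.ext rfl), cons_val_succ, Fin.append_left]
    rfl
  · rw [Function.comp, show ee d s (Fin.natAdd d i).succ = .inr i from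
      finSumFinEquiv.symm_apply_eq.2 (Fin.ext (by simp; omega)), cons_val_succ, Fin.append_right]
    rfl

theorem dv3 (B : ℕ) {e c : ℕ} (e0 : e ≠ 0) (h : v3 e ≤ c) :
    ∃ β : ZMod (3 ^ B), (e : ZMod (3 ^ B)) * β = 3 ^ c := by
  obtain ⟨v, o, ho, eo⟩ := Nat.exists_eq_pow_mul_and_not_dvd e0 3 (by norm_num)
  haveI : Fact (Nat.Prime 3) := ⟨Nat.prime_three⟩
  have hv : v ≤ c := ((padicValNat_dvd_iff_le e0).1 ⟨o, eo⟩).trans h
  obtain ⟨o', ho'⟩ := ((ZMod.isUnit_iff_coprime o (3 ^ B)).2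
    (((Nat.Prime.coprime_iff_not_dvd Nat.prime_three).2 ho).symm.pow_right B)).exists_right_inv
  obtain ⟨k, rfl⟩ := Nat.exists_eq_add_of_le hv
  refine ⟨o' * 3 ^ k, ?_⟩
  rw [eo]
  push_cast
  linear_combination 3 ^ v * 3 ^ k * ho'

theorem v3_mul {a b : ℕ} (h : a ≠ 0) (k : b ≠ 0) : v3 (a * b) = v3 a + v3 b :=
  haveI : Fact (Nat.Prime 3) := ⟨Nat.prime_three⟩
  padicValNat.mul h k

theorem v3_pow (a n : ℕ) (h : a ≠ 0) : v3 (a ^ n) = n * v3 a :=
  haveI : Fact (Nat.Prime 3) := ⟨Nat.prime_three⟩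
  padicValNat.pow a n

theorem v3_three (n : ℕ) : v3 (3 ^ n) = n :=
  haveI : Fact (Nat.Prime 3) := ⟨Nat.prime_three⟩
  padicValNat.prime_pow n

theorem v3_le {a b : ℕ} (h : b ≠ 0) (k : a ∣ b) : v3 a ≤ v3 b :=
  haveI : Fact (Nat.Prime 3) := ⟨Nat.prime_three⟩
  (padicValNat_dvd_iff_le h).1 (pow_padicValNat_dvd.trans k)

variable {M : Type} [Field M] [NumberField M]

/-- units of the ring in the units of the field -/
abbrev um (M : Type) [Field M] : (𝓞 M)ˣ →* Mˣ := Units.map (algebraMap (𝓞 M) M : 𝓞 M →* M)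

theorem unit_root {v : Mˣ} {u : (𝓞 M)ˣ} {n : ℕ} (n0 : n ≠ 0) (h : v ^ n = um M u) :
    ∃ w : (𝓞 M)ˣ, w ^ n = u := by
  have k5 : (v : M) ^ n = (u : 𝓞 M) := by
    rw [← Units.val_pow_eq_pow_val, h]; rfl
  let z : 𝓞 M := ⟨v, IsIntegral.of_pow (Nat.pos_of_ne_zero n0)
    (k5 ▸ RingOfIntegers.isIntegral_coe _)⟩
  have k6 : z ^ n = u := RingOfIntegers.ext k5
  obtain ⟨w, hw⟩ := (isUnit_pow_iff n0).1 (k6 ▸ Units.isUnit _)
  exact ⟨w, Units.ext (by rw [← k6, ← hw]; rfl)⟩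

theorem ex_co (L : Type) [Field L] [NumberField L] : ∃ co : (𝓞 L)ˣ → Fin (rank L) → ℤ,
    (∀ a b, co (a * b) = co a + co b) ∧
      ∀ n : Fin (rank L) → ℕ, co (∏ s, fundSystem L s ^ n s) = fun s => (n s : ℤ) := by
  choose f hf hu using exist_unique_eq_mul_prod L
  refine ⟨fun w => (f w).2, fun a b => (congrArg Prod.snd (hu (a * b)
    ((f a).1 * (f b).1, (f a).2 + (f b).2) ?_)).symm, fun n => (congrArg Prod.snd (hu _
      (1, fun s => (n s : ℤ)) (by simp))).symm⟩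
  simp only [Subgroup.coe_mul, Pi.add_apply, _root_.zpow_add, Finset.prod_mul_distrib]
  rw [mul_mul_mul_comm, ← hf a, ← hf b]

theorem max_ne {W : Ideal (𝓞 M)} (h : W.IsMaximal) : W ≠ ⊥ :=
  Ring.ne_bot_of_isMaximal_of_not_isField h (RingOfIntegers.not_isField M)

theorem nat_dvd {Q : Ideal (𝓞 M)} (hQ : Q.IsPrime) {p n : ℕ} (hp : p.Prime) (h : (p : 𝓞 M) ∈ Q)
    (h' : (n : 𝓞 M) ∈ Q) : p ∣ n := by
  by_contra k
  obtain ⟨a, b, e⟩ := Nat.isCoprime_iff_coprime.2 ((Nat.Prime.coprime_iff_not_dvd hp).2 k)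
  have := congrArg (Int.cast : ℤ → 𝓞 M) e
  push_cast at this
  exact hQ.one_notMem (this ▸ Q.add_mem (Q.mul_mem_left _ h) (Q.mul_mem_left _ h'))

/-- primes of prime norm -/
theorem of_norm {W : Ideal (𝓞 M)} (a1 : (absNorm W).Prime) {t : 𝓞 M} (t0 : t ≠ 0)
    (h : absNorm W ∉ (absNorm (span {t})).primeFactors) : W.IsMaximal ∧ t ∉ W := by
  have p := isPrime_of_irreducible_absNorm (Nat.irreducible_iff_nat_prime _ |>.2 a1)
  exact ⟨p.isMaximal (absNorm_eq_zero_iff.not.1 a1.ne_zero),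
    fun m => h (Nat.mem_primeFactors.2 ⟨a1, absNorm_dvd_absNorm_of_le
      ((span_singleton_le_iff_mem _).2 m), by simpa using t0⟩)⟩

variable {K : Type} [Field K] [NumberField K] {ι : ℂ →+* ℂ_[3]} {J : K →+* ℂ} [Algebra K M]

theorem ev_of {r m : ℕ} {W : Fin (r + 1) → Ideal (𝓞 M)} {I I' P P' : Ideal (𝓞 M)} {x : M}
    {y z : 𝓞 M} (h : V1 ι J m x) (y0 : y ≠ 0) (z0 : z ≠ 0) (e : x * z = y)
    (hP : P ∈ Submonoid.closure (Set.range W)) (hP' : P' ∈ Submonoid.closure (Set.range W))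
    (k : span {z} * I * P = span {y} * I' * P') : Ev ι J W m I I' x := by
  obtain ⟨a, rfl⟩ := Submonoid.mem_closure_range_iff_of_fintype.1 hP
  obtain ⟨a', rfl⟩ := Submonoid.mem_closure_range_iff_of_fintype.1 hP'
  exact ⟨h, y, z, a, a', y0, z0, e, k⟩

theorem sy_aux {r B : ℕ} {t : 𝓞 M} {W : Fin (r + 1) → Ideal (𝓞 M)}
    {Φ : Ideal (𝓞 M) → ZMod (3 ^ B)} {φ : Fin (r + 1) → M → ZMod (3 ^ B)} :
    Sy t B W Φ φ ↔ Aux t B W Φ φ :=
  ⟨fun h => ⟨h.max, h.inj, h.cop, h.add, h.loc, h.tam, h.prd⟩,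
    fun h => ⟨h.max, h.inj, h.cop, h.add, h.loc, h.tam, h.prd⟩⟩

/-- additive functions on the non zero elements -/
theorem pn {A : Type} [AddCommGroup A] {f : M → A}
    (h : ∀ x y, x ≠ 0 → y ≠ 0 → f (x * y) = f x + f y) :
    (∀ x k, x ≠ 0 → f (x ^ k) = k • f x) ∧ ∀ (κ : Type) [Fintype κ] (x : κ → M) (k : κ → ℕ),
      (∀ i, x i ≠ 0) → f (∏ i, x i ^ k i) = ∑ i, k i • f (x i) :=
  have := Kn.pa (p := fun x : M => x ≠ 0) one_ne_zero (fun _ _ => mul_ne_zero) h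
  ⟨fun x k a => (this.1 x k a).2, fun κ _ x k a => (this.2 κ x k a).2⟩

/-- the values on units and on generators of powers of primes are compatible -/
theorem ok_of (hS : SYS) {B s E : ℕ} {w : Fin s → Ideal (𝓞 M)} (mx : ∀ i, (w i).IsMaximal)
    (inj : Function.Injective w) {x : Fin s → 𝓞 M} (x0 : ∀ i, (x i : M) ≠ 0)
    (hx : ∀ i, span {x i} = w i ^ E) (G : Finset (𝓞 M)ˣ)
    (lam : (𝓞 M)ˣ →* Multiplicative (ZMod (3 ^ B))) (y : Fin s → ZMod (3 ^ B)) :
    (∀ i i', oi (w i) (x i' : M) = if i' = i then (E : ℤ) else 0) ∧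
    Ok (Sum.elim (fun u : G => um M u.1) fun i => Units.mk0 (x i : M) (x0 i))
      (Sum.elim (fun u : G => E • (lam u).toAdd) fun i => E • y i) := by
  obtain ⟨-, -, -, ho⟩ := hS M B 1
  have o1 : ∀ i i', oi (w i) (x i' : M) = if i' = i then (E : ℤ) else 0 := fun i i' => by
    split_ifs with e
    · exact (ho _ (mx i)).2.2 _ E ⊤ (top_sup_eq _) (by rw [e, hx, top_mul])
    · exact (ho _ (mx i)).2.1 _ fun m => e (inj ((mx i').eq_of_le (mx i).ne_top
        ((mx i).isPrime.le_of_pow_le (hx i' ▸ (span_singleton_le_iff_mem _).2 m))))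
  refine ⟨o1, fun n ⟨r, hr⟩ => ?_⟩
  simp only [Fintype.prod_sum_type, Fintype.sum_sum_type, Sum.elim_inl, Sum.elim_inr,
    ← map_pow, ← map_prod] at hr ⊢
  generalize hu : ∏ u : G, u.1 ^ n (.inl u) = u at hr
  have e := congrArg (fun z : Mˣ => (z : M)) hr
  simp only [Units.val_mul, Units.coe_prod, Units.val_pow_eq_pow_val, Units.val_mk0] at e
  have k : ∀ i, ∃ k, E * n (.inr i) = 3 ^ B * k := fun i => by
    obtain ⟨a, b, -⟩ := ho _ (mx i)
    have := congrArg (oi (w i)) e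
    rw [a _ _ (Units.ne_zero _) (Finset.prod_ne_zero_iff.2 fun i _ => pow_ne_zero _ (x0 i)),
      (pn a).1 _ _ r.ne_zero, (pn a).2 _ _ _ x0,
      show oi (w i) (um M u : M) = 0 from b u (notMem_of_isUnit _ u.isUnit)] at this
    simp only [o1, smul_ite, smul_zero, Finset.sum_ite_eq', Finset.mem_univ, if_true, zero_add,
      nsmul_eq_mul] at this
    exact Int.natCast_dvd_natCast.1 ⟨oi (w i) r, by rw [Nat.cast_mul, mul_comm, this]⟩
  choose k hk using k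
  obtain ⟨v, hv⟩ := unit_root (v := r ^ E / ∏ i, Units.mk0 (x i : M) (x0 i) ^ k i) (u := u ^ E)
    (NeZero.ne (3 ^ B)) (by
      rw [div_pow, ← pow_mul, mul_comm E, pow_mul, ← hr, mul_pow, map_pow, ← Finset.prod_pow,
        ← Finset.prod_pow]
      simp only [← pow_mul, mul_comm _ E, hk, mul_comm _ (3 ^ B)]
      exact mul_div_cancel_right _ _)
  have z : ∀ a : ZMod (3 ^ B), 3 ^ B • a = 0 := fun a => by
    rw [nsmul_eq_mul, ZMod.natCast_self, zero_mul]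
  have := congrArg (fun u => (lam u).toAdd) hv
  simp only [← hu, map_pow, map_prod, toAdd_pow, toAdd_prod, z, Finset.smul_sum] at this
  rw [Finset.sum_eq_zero (s := Finset.univ) (f := fun i => n (.inr i) • E • y i) fun i _ => by
    rw [smul_smul, mul_comm, hk, mul_smul, z], add_zero, this]
  exact Finset.sum_congr rfl fun u _ => smul_comm _ _ _

end Vale.Agent.P014Y.C.Al.Cl
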