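import Vale.Agent.P014Y.C.Al.Cmb1

/-!
# P014 Y, C: values of `lam` at `v`, Euler factors, scales
-/

open NumberField Module Ideal
open scoped Classical

set_option linter.all false

noncomputable section

namespace Vale.Agent.P014Y.C.Cm

open Al.Gx (vv mem_vv not_vv vv_prime nm_le pv_two)

theorem add_le {x y : ℂ_[3]} {C : ℝ} (h : ‖x‖ ≤ C) (k : ‖y‖ ≤ C) : ‖x + y‖ ≤ C :=
  (IsUltrametricDist.norm_add_le_max x y).trans (max_le h k)

theorem add_eq {x y : ℂ_[3]} (h : ‖y‖ < ‖x‖) : ‖x + y‖ = ‖x‖ := by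
  rw [IsUltrametricDist.norm_add_eq_max_of_norm_ne_norm h.ne', max_eq_left h.le]

theorem int_cases (n : ℤ) : ‖(n : ℂ_[3])‖ ≤ 1 / 3 ∨ ‖(n : ℂ_[3]) ^ 2 - 1‖ ≤ 1 / 3 := by
  have h : ∀ k : ℤ, ‖((3 * k : ℤ) : ℂ_[3])‖ ≤ 1 / 3 := fun k => by
    rw [Int.cast_mul, Int.cast_ofNat, norm_mul, nm_two]
    exact mul_le_of_le_one_right (by norm_num) (IsUltrametricDist.norm_intCast_le_one _ k)
  obtain ⟨k, rfl | rfl | rfl⟩ : ∃ k, n = 3 * k ∨ n = 3 * k + 1 ∨ n = 3 * k - 1 :=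
    ⟨(n + 1) / 3, by omega⟩
  · exact .inl (h k)
  · refine .inr (le_of_eq_of_le (congrArg norm ?_) (h (3 * k ^ 2 + 2 * k)))
    push_cast; ring
  · refine .inr (le_of_eq_of_le (congrArg norm ?_) (h (3 * k ^ 2 - 2 * k)))
    push_cast; ring

theorem pow_le {u : ℂ_[3]} (h : ‖u - 1‖ ≤ 1 / 3) (e : ℕ) : ‖u ^ 3 ^ e - 1‖ ≤ (1 / 3) ^ (e + 1) := by
  induction e with
  | zero => simpa using h
  | succ e ih =>
    have h1 : u ^ 3 ^ (e + 1) - 1 =
        (u ^ 3 ^ e - 1) * ((u ^ 3 ^ e - 1) * (u ^ 3 ^ e - 1 + 3) + 3) := by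
      rw [pow_succ, pow_mul]; ring
    have h2 : ‖u ^ 3 ^ e - 1‖ ≤ 1 / 3 := ih.trans (by
      rw [pow_succ]
      exact mul_le_of_le_one_left (by norm_num) (pow_le_one₀ (by norm_num) (by norm_num)))
    rw [h1, norm_mul, pow_succ _ (e + 1)]
    refine mul_le_mul ih (add_le ?_ nm_two.le) (norm_nonneg _) (by positivity)
    rw [norm_mul]
    exact (mul_le_of_le_one_right (norm_nonneg _)
      ((add_le h2 nm_two.le).trans (by norm_num))).trans h2

variable {K : Type} [Field K] [NumberField K] {ι : ℂ →+* ℂ_[3]} {J : K →+* ℂ} {Ω : ℝ}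
  {h e : ℕ} {lam : Ideal (𝓞 K) → ℂ}

theorem ex_nm (B : Base ι J Ω) (α : 𝓞 K) : ∃ n : ℤ, J α * (starRingEnd ℂ) (J α) = n :=
  ⟨absNorm (span {α}), by
    rw [Complex.mul_conj, Complex.normSq_eq_norm_sq, nm_sq B, Int.cast_natCast, Complex.ofReal_natCast]⟩

theorem ex_tr (B : Base ι J Ω) (α : 𝓞 K) : ∃ n : ℤ, J α + (starRingEnd ℂ) (J α) = n := by
  obtain ⟨n, h1⟩ := ex_nm B α
  obtain ⟨n', h2⟩ := ex_nm B (α + 1)
  refine ⟨n' - n - 1, ?_⟩
  push_cast at h2 ⊢
  rw [← h1, ← h2]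
  simp only [map_add, map_one]
  ring

/-- the residue field of `v` has three elements and `v` is unramified -/
theorem un_le (B : Base ι J Ω) {α : 𝓞 K} (hα : ‖ι (J α)‖ = 1) : ‖ι (J α) ^ 2 - 1‖ ≤ 1 / 3 := by
  obtain ⟨x, h1, h2⟩ := B.spl
  obtain ⟨n, hn⟩ := ex_nm B x
  obtain ⟨t, ht⟩ := ex_tr B x
  obtain ⟨s, hs⟩ := ex_tr B α
  obtain ⟨u, hu⟩ := ex_tr B (α * x)
  simp only [RingOfIntegers.coe_eq_algebraMap, map_mul] at hu
  replace hn := congrArg ι hn
  replace ht := congrArg ι ht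
  replace hs := congrArg ι hs
  replace hu := congrArg ι hu
  simp only [map_add, map_mul, map_intCast, RingOfIntegers.coe_eq_algebraMap] at *
  generalize ι ((starRingEnd ℂ) (J (algebraMap _ K x))) = X' at *
  generalize ι ((starRingEnd ℂ) (J (algebraMap _ K α))) = A' at *
  generalize ι (J (algebraMap _ K x)) = X at *
  generalize ι (J (algebraMap _ K α)) = A at *
  have one : ∀ m : ℤ, ‖(m : ℂ_[3])‖ = 1 → ‖(m : ℂ_[3]) ^ 2 - 1‖ ≤ 1 / 3 := fun m k =>
    (int_cases m).resolve_left (by rw [k]; norm_num)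
  have hX : ‖X‖ ≤ 1 / 3 := by
    have k : ‖(n : ℂ_[3])‖ = ‖X‖ := by rw [← hn, norm_mul, h2, mul_one]
    refine k ▸ (int_cases n).resolve_right fun k' => ?_
    have := add_eq (x := -1) (y := (n : ℂ_[3]) ^ 2) (by
      rw [norm_pow, k, norm_neg, norm_one]
      exact pow_lt_one₀ (norm_nonneg _) h1 two_ne_zero)
    rw [neg_add_eq_sub] at this
    rw [this] at k'
    norm_num at k'
  have hA' : ‖A'‖ ≤ 1 := by
    rw [show A' = s + -A by rw [← hs]; ring]
    exact add_le (IsUltrametricDist.norm_intCast_le_one _ s) (by rw [norm_neg, hα])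
  have hAX : ‖A' * X‖ ≤ 1 / 3 := by
    rw [norm_mul]; exact (mul_le_of_le_one_left (norm_nonneg _) hA').trans hX
  have hT : ((s * t - u : ℤ) : ℂ_[3]) = A * X' + A' * X := by
    push_cast; rw [← hs, ← ht, ← hu]; ring
  have k1 := one t (by rw [← ht, add_comm, add_eq (by rwa [h2]), h2])
  have k2 := one (s * t - u) (by
    rw [hT, add_eq (by rw [norm_mul A, hα, h2]; linarith), norm_mul, hα, h2, mul_one])
  have hd : ‖A * X + -(A' * X)‖ ≤ 1 / 3 :=
    add_le (by rwa [norm_mul, hα, one_mul]) (by rwa [norm_neg])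
  have hm := IsUltrametricDist.norm_intCast_le_one ℂ_[3] (s * t - u)
  rw [show A ^ 2 - 1 = -A ^ 2 * (t ^ 2 - 1) + (((s * t - u : ℤ) : ℂ_[3]) ^ 2 - 1) +
      (A * X + -(A' * X)) * (((s * t - u : ℤ) : ℂ_[3]) + ((s * t - u : ℤ) : ℂ_[3]) +
        (A * X + -(A' * X))) by
    rw [hT, ← ht]; ring]
  refine add_le (add_le ?_ k2) ?_
  · rwa [norm_mul, norm_neg, norm_pow, hα, one_pow, one_mul]
  · rw [norm_mul]
    exact (mul_le_of_le_one_right (norm_nonneg _)
      (add_le (add_le hm hm) (hd.trans (by norm_num)))).trans hd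

variable {M : Type} [Field M] [NumberField M] [Algebra K M]

theorem la_one (B : Base ι J Ω) (L : La J h (3 ^ e) lam) {I : Ideal (𝓞 M)} (hI : Pv ι J I) :
    ‖ι (lam (relNorm (𝓞 K) I)) - 1‖ ≤ (1 / 3) ^ (e + 1) := by
  obtain ⟨s, h1, h2⟩ := hI
  have s0 : algebraMap (𝓞 K) (𝓞 M) s ≠ 0 := fun k =>
    Al.Gx.ne_of (M := M) h1 (by rw [← Al.Gx.coe_s, k]; rfl)
  have I0 : I ≠ ⊥ := fun k => s0 (by simpa [k] using h2)
  obtain ⟨α, h3, h4⟩ := L.2 _ (mt rn_bot.1 I0)
  have h5 : ‖ι (J α)‖ = 1 := by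
    refine not_vv.1 fun k => not_vv.2 h1 ?_
    have k1 : relNorm (𝓞 K) I ^ h ≤ vv ι J := h3 ▸ (span_singleton_le_iff_mem _).2 k
    have k2 := relNorm_mono (𝓞 K) ((span_singleton_le_iff_mem _).2 h2)
    have := vv_prime (ι := ι) (J := J)
    rw [← Set.image_singleton, ← map_span, relNorm_algebraMap] at k2
    have k3 := (pow_le_pow_left' k2 h).trans k1
    rw [← pow_mul, span_singleton_pow, span_singleton_le_iff_mem] at k3
    exact this.mem_of_pow_mem _ k3
  rw [h4, map_pow, map_inv₀, pow_mul]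
  refine pow_le ?_ _
  have h6 : ι (J α) ≠ 0 := fun k => by simp [k] at h5
  rw [show (ι (J α))⁻¹ ^ 2 - 1 = -(ι (J α))⁻¹ ^ 2 * (ι (J α) ^ 2 - 1) by field_simp; ring, norm_mul,
    norm_neg, norm_pow, norm_inv, h5, inv_one, one_pow, one_mul]
  exact un_le B h5

variable {a : Ideal (𝓞 M) → ℂ}

/-- removing Euler factors -/
theorem sieve (C : P004C.Al.Cm a) (ha : Summable a) (S : Finset (Ideal (𝓞 M)))
    (hS : ∀ P ∈ S, Prime P) : (∑' I, a I) * ∏ P ∈ S, (1 - a P) =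
      ∑' I, if ∀ P ∈ S, ¬P ∣ I then a I else 0 := by
  induction S using Finset.induction_on with
  | empty => simp
  | insert P S hP ih =>
    have p := hS P (Finset.mem_insert_self _ _)
    have q := fun Q hQ => hS Q (Finset.mem_insert_of_mem hQ)
    rw [Finset.prod_insert hP, mul_left_comm, ih q]
    set b : Ideal (𝓞 M) → ℂ := fun I => if ∀ P ∈ S, ¬P ∣ I then a I else 0 with hb
    have sb : Summable b := (ha.indicator {I | ∀ P ∈ S, ¬P ∣ I}).congr fun I => by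
      simp only [Set.indicator_apply, Set.mem_setOf_eq, hb]
    have h1 : ∀ I, b (P * I) = a P * b I := fun I => by
      have : (∀ Q ∈ S, ¬Q ∣ P * I) ↔ ∀ Q ∈ S, ¬Q ∣ I := forall₂_congr fun Q hQ => by
        rw [(q Q hQ).dvd_mul, not_or, and_iff_right fun k => hP ?_]
        rwa [← associated_iff_eq.1 (((q Q hQ).dvd_prime_iff_associated p).1 k)]
      simp only [hb, this, C.mul]
      split_ifs <;> simp
    have h2 : ∑' I, (if P ∣ I then b I else 0) = a P * ∑' I, b I := by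
      rw [← tsum_mul_left, ← (mul_right_injective₀ p.ne_zero).tsum_eq]
      · exact tsum_congr fun I => by rw [if_pos (dvd_mul_right _ _), h1]
      · intro I hI
        by_contra k
        exact hI (if_neg fun ⟨c, hc⟩ => k ⟨c, hc.symm⟩)
    have s2 : Summable fun I => if P ∣ I then b I else 0 :=
      (sb.indicator {I | P ∣ I}).congr fun I => by
        simp only [Set.indicator_apply, Set.mem_setOf_eq]
    rw [sub_mul, one_mul, ← h2, ← sb.tsum_sub s2]
    refine tsum_congr fun I => ?_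
    simp only [hb, Finset.forall_mem_insert]
    by_cases k : P ∣ I <;> simp [k]

theorem rs_sum {r : ℕ} {W : Fin (r + 1) → Ideal (𝓞 M)} (hm : ∀ i, (W i).IsMaximal)
    (h0 : ∀ i, W i ≠ ⊥) (hi : Function.Injective W) (C : P004C.Al.Cm a) (ha : Summable a) :
    ∑' I, rs W a I = (∑' I, a I) * ∏ i, (1 - a (W i)) := by
  have := sieve C ha (Finset.univ.image W) fun P hP => by
    obtain ⟨i, -, rfl⟩ := Finset.mem_image.1 hP
    exact prime_of_isPrime (h0 i) (hm i).isPrime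
  rw [Finset.prod_image fun i _ j _ k => hi k] at this
  rw [this]
  refine tsum_congr fun I => if_congr ?_ rfl rfl
  simp only [Finset.forall_mem_image, Finset.mem_univ, true_implies, dvd_iff_le]
  refine forall_congr' fun i => ⟨fun k k' => (hm i).ne_top (by rwa [sup_of_le_right k'] at k),
    fun k => ?_⟩
  obtain ⟨x, h1, h2⟩ := SetLike.not_le_iff_exists.1 k
  exact cop_of (hm i) h1 h2

theorem dv_pos {n : ℕ} (b : Basis (Fin n) K M) : 0 < dv ι J b := by
  refine norm_pos_iff.2 ?_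
  simpa using Algebra.discr_not_zero_of_basis K b

theorem sc_pos (B : Base ι J Ω) {d : ℝ} (hd : 0 < d) (n k : ℕ) : 0 < sc Ω d n k := by
  have h1 := B.pos
  have h2 : 0 < ‖((k - 1).factorial : ℂ_[3])‖ :=
    norm_pos_iff.2 (Nat.cast_ne_zero.2 (Nat.factorial_ne_zero _))
  unfold sc
  positivity

theorem sc_sq {d : ℝ} (hd : 0 < d) (n k : ℕ) :
    sc Ω (d ^ 2) (n * 2) k = sc Ω d n k * sc Ω d n k := by
  have h1 := Real.mul_self_sqrt hd.le
  have h2 : √d ≠ 0 := by positivity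
  unfold sc
  rw [Real.sqrt_sq hd.le, pow_mul, ← pow_mul d, mul_comm 2 k, pow_mul]
  generalize d ^ k = y
  generalize √d = z at *
  subst h1
  field_simp

end Vale.Agent.P014Y.C.Cm
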