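import Vale.Agent.P014Y.C.Al.St2
import Vale.Agent.P014Y.C.Al.Cmb2
import Vale.Agent.P004C.Al.Cmb3

/-!
# P014 Y, block AL: measures of series without finitely many primes
-/

set_option linter.all false

open NumberField Module Ideal
open scoped Classical

noncomputable section

namespace Vale.Agent.P014Y.C.Al.Cb

open Cm
open P004C.Al (Gp)
open P004C.Cm (sum_of)
open Tp (cf)

theorem near {x y : ℂ_[3]} (h : ‖x - 1‖ < 1) (k : ‖y - 1‖ < 1) : ‖x * y - 1‖ < 1 := by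
  rw [show x * y - 1 = (x - 1) * (y - 1) + (x - 1 + (y - 1)) by ring]
  refine (IsUltrametricDist.norm_add_le_max _ _).trans_lt (max_lt ?_
    ((IsUltrametricDist.norm_add_le_max _ _).trans_lt (max_lt h k)))
  rw [norm_mul]
  exact mul_lt_one_of_nonneg_of_lt_one_left (norm_nonneg _) h k.le

theorem near_nm {x : ℂ_[3]} (h : ‖x - 1‖ < 1) : ‖x‖ = 1 ∧ ‖1 + x‖ = 1 := by
  have e : ‖(2 : ℂ_[3])‖ = 1 := by simpa using nm_cop (m := 2) (by norm_num)
  refine ⟨?_, ?_⟩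
  · rw [show x = 1 + (x - 1) by ring, add_eq (by rwa [norm_one]), norm_one]
  · rw [show 1 + x = 2 + (x - 1) by ring, add_eq (by rwa [e]), e]

theorem cube {x : ℂ_[3]} (h : x ^ 3 = 1) : ‖x - 1‖ < 1 := by
  have e : ‖x‖ = 1 := (pow_eq_one_iff_of_nonneg (norm_nonneg _) three_ne_zero).1
    (by rw [← norm_pow, h, norm_one])
  have k := congrArg norm (show (x - 1) ^ 3 = -3 * x * (x - 1) by linear_combination h)
  rw [norm_pow, norm_mul, norm_mul, norm_neg, nm_two, e] at k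
  by_contra n
  rw [not_lt] at n
  nlinarith [mul_le_mul n n zero_le_one (norm_nonneg _)]

/-- the Euler factors of an inert prime -/
theorem fac (ι : ℂ →+* ℂ_[3]) {ζ u x : ℂ} (h : IsPrimitiveRoot ζ 3) (hu : u = 0 ∨ u ^ 2 = 1)
    (hx : ‖ι x - 1‖ ≤ (1 / 3) ^ 2) :
    ‖ι (1 - u * (ζ * x))‖ * ‖ι (1 - u * (ζ ^ 2 * x))‖ = if u = 1 then 1 / 3 else 1 := by
  have e : (1 - u * (ζ * x)) * (1 - u * (ζ ^ 2 * x)) = 1 + u * x + (u * x) ^ 2 := by
    have := h.geom_sum_eq_zero (by norm_num)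
    simp only [Finset.sum_range_succ, Finset.sum_range_zero] at this
    linear_combination -(u * x) * this + (u * x) ^ 2 * h.pow_eq_one
  rw [← norm_mul, ← map_mul, e]
  have n := norm_nonneg (ι x - 1)
  have k : ‖3 * (ι x - 1) + (ι x - 1) ^ 2‖ ≤ 1 / 9 := add_le
    (by rw [norm_mul, nm_two]; linarith) (by rw [norm_pow]; nlinarith)
  have k' : ‖ι x - 1 + (ι x - 1) ^ 2‖ ≤ 1 / 9 := add_le (by linarith) (by rw [norm_pow]; nlinarith)
  rcases hu with rfl | hu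
  · simp
  rcases sq_eq_one_iff.1 hu with rfl | rfl
  · rw [if_pos rfl, show ι (1 + 1 * x + (1 * x) ^ 2) = 3 + (3 * (ι x - 1) + (ι x - 1) ^ 2) by
      simp only [map_add, map_mul, map_pow, map_one]; ring, add_eq (by rw [nm_two]; linarith), nm_two]
  · rw [if_neg (by norm_num), show ι (1 + -1 * x + (-1 * x) ^ 2) = 1 + (ι x - 1 + (ι x - 1) ^ 2) by
      simp only [map_add, map_mul, map_pow, map_one, map_neg]; ring,
      add_eq (by rw [norm_one]; linarith), norm_one]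

variable {K : Type} [Field K] [NumberField K] {ι : ℂ →+* ℂ_[3]} {J : K →+* ℂ} {Ω : ℝ}
  {M : Type} [Field M] [NumberField M] {N : Type} [Field N] [NumberField N] [Algebra M N]
  {κ : Type} [Fintype κ] {B k l : ℕ} {t : 𝓞 M} {w : κ → Ideal (𝓞 M)}
  {Φ : Ideal (𝓞 M) → ZMod (3 ^ B)} {φ : κ → M → ZMod (3 ^ B)} {f g c P : Ideal (𝓞 M)}
  {a η : Ideal (𝓞 M) → ℂ}

theorem gp_aux [IsGalois M N] (p : P.IsMaximal) (Q : Ideal (𝓞 N)) [Q.IsPrime] [Q.LiesOver P] :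
    Q.ramificationIdx (𝓞 M) * Q.inertiaDeg (𝓞 M) ∣ finrank M N := by
  have k := ncard_primesOver_mul_ramificationIdxIn_mul_inertiaDegIn P (𝓞 N) Gal(N/M)
  rw [IsGaloisGroup.card_eq_finrank Gal(N/M) M N, ramificationIdxIn_eq_ramificationIdx P Q Gal(N/M),
    inertiaDegIn_eq_inertiaDeg P Q Gal(N/M)] at k
  exact Dvd.intro_left _ k

theorem gp_pow [IsGalois M N] (p : P.IsMaximal) (G : Gp N η P) :
    η P = 0 ∨ η P ^ finrank M N = 1 := by
  obtain ⟨Q, ⟨_, _⟩, ⟨-, g⟩ | ⟨g, -⟩⟩ := G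
  · exact .inr ((g.pow_eq_one_iff_dvd _).2 ((Dvd.intro_left _ rfl).trans (gp_aux p Q)))
  · exact .inl g

theorem gp_ine [IsGalois M N] (h : finrank M N ≠ 1) (p : P.IsMaximal) (G : Gp N η P)
    (i : Ine N P) : IsPrimitiveRoot (η P) (finrank M N) := by
  obtain ⟨Q, ⟨_, _⟩, G⟩ := G
  have e : P.map (algebraMap (𝓞 M) (𝓞 N)) = Q :=
    i.eq_of_le (IsPrime.ne_top inferInstance) (map_le_iff_le_comap.2 (LiesOver.over (P := Q)).le)
  have m : Q.IsMaximal := e ▸ i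
  have f : Q.inertiaDeg (𝓞 M) = finrank M N := by
    have k := P004C.Al.Eu.norm_max (M := M) Q
    rw [← over_def Q P, ← e, relNorm_algebraMap, ← IsFractionRing.finrank_eq (𝓞 M) M (𝓞 N) N, e] at k
    have q := P004C.Al.Eu.prime_iff.2 p
    exact (pow_injective_of_not_isUnit q.not_unit q.ne_zero k).symm
  rcases G with ⟨-, g⟩ | ⟨-, g⟩
  · exact f ▸ g
  · have := gp_aux p Q
    rw [f, g] at this
    have p0 : 0 < finrank M N := finrank_pos
    have := Nat.le_of_dvd p0 this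
    exact absurd (by nlinarith) h

theorem sm_max (S : Sm c l) : c.IsMaximal :=
  (isPrime_of_irreducible_absNorm (S.2.2.1 ▸ S.1)).isMaximal (sm_mem S).1

theorem cop_pr {I : Ideal (𝓞 M)} : I ⊔ ∏ i, w i = ⊤ ↔ ∀ i, I ⊔ w i = ⊤ := by
  simp only [← isCoprime_iff_sup_eq, IsCoprime.prod_right_iff, Finset.mem_univ, true_implies]

/-- restriction to the ideals prime to `w` -/
def rk (w : κ → Ideal (𝓞 M)) (a : Ideal (𝓞 M) → ℂ) (I : Ideal (𝓞 M)) : ℂ :=
  if ∀ i, I ⊔ w i = ⊤ then a I else 0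

theorem mw_eq : mw w Φ a = ms (rk w a) Φ :=
  congrArg (ms · Φ) (funext fun _ => by unfold rk; congr)

theorem rk_le (I : Ideal (𝓞 M)) : ‖rk w a I‖ ≤ ‖a I‖ := by
  unfold rk; split_ifs <;> simp

theorem rk_mul (I : Ideal (𝓞 M)) : rk w (fun I => η I * a I) I = η I * rk w a I := by
  unfold rk; split_ifs <;> simp

theorem sy_prn (X : Sy t B w Φ φ) {x : 𝓞 M} (hx : x ≠ 0) (k : ∀ i, x - 1 ∈ w i) :
    Φ (span {x}) = 0 := by
  have := X.prd x (span {x}) 0 hx (fun i => one_cop (k i))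
    (by simp only [Pi.zero_apply, pow_zero, Finset.prod_const_one, mul_one])
  simpa [fun i => X.tam i x (k i)] using this

theorem tw_cm (X : Sy t B w Φ φ) (C : P004C.Al.Cm a) (a0 : a ⊥ = 0)
    (ω : AddChar (ZMod (3 ^ B)) ℂ) : P004C.Al.Cm fun I => rk w a I * ω (Φ I) := by
  refine ⟨?_, fun I I' => ?_⟩
  · have := sy_prn X one_ne_zero fun i => by simp
    rw [span_singleton_one, ← one_eq_top] at this
    rw [rk, if_pos (by simp), C.one, this, ω.map_zero_eq_one, mul_one]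
  · by_cases h1 : I = ⊥
    · simp [rk, h1, a0]
    by_cases h2 : I' = ⊥
    · simp [rk, h2, a0]
    simp only [rk, mul_cop, forall_and]
    by_cases h3 : ∀ i, I ⊔ w i = ⊤ <;> by_cases h4 : ∀ i, I' ⊔ w i = ⊤
    · rw [if_pos ⟨h3, h4⟩, if_pos h3, if_pos h4, C.mul, X.add I I' h1 h2 h3 h4, ω.map_add_eq_mul]
      ring
    all_goals simp [h3, h4]

/-- the form of `BNDR` -/
theorem mu_eq (X : Sy t B w Φ φ) (a0 : a ⊥ = 0) (hf : ∀ i, f ≤ w i) (ha : Summable (rk w a))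
    (c0 : c ≠ ⊥) (hc : ∀ i, c ⊔ w i = ⊤) (l : ℕ) (x : ZMod (3 ^ B)) :
    ∃ u : Ideal (𝓞 M) → ℂ, Ry f u ∧ (∀ I, ‖ι (u I)‖ ≤ 1) ∧
      mu (rk w a) Φ c l x = ∑' I, rk w a I * (u I - l * rk w a c * u (c * I)) := by
  refine ⟨fun I => if I ≠ ⊥ ∧ ∀ i, I ⊔ w i = ⊤ then if Φ I = x then 1 else 0 else 0,
    fun I y hy k => ?_, fun I => ?_, ?_⟩
  · have h1 := fun i => one_cop (hf i k)
    have h2 : span {y} ≠ (⊥ : Ideal (𝓞 M)) := mt span_singleton_eq_bot.1 hy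
    by_cases hI : I ≠ ⊥ ∧ ∀ i, I ⊔ w i = ⊤
    · simp only [if_pos hI]
      rw [if_pos ⟨mul_ne_zero h2 hI.1, fun i => mul_cop.2 ⟨h1 i, hI.2 i⟩⟩,
        X.add _ _ h2 hI.1 h1 hI.2, sy_prn X hy fun i => hf i k, zero_add]
    · simp only [if_neg hI]
      exact if_neg fun k => hI ⟨right_ne_zero_of_mul k.1, fun i => (mul_cop.1 (k.2 i)).2⟩
  · dsimp only
    split_ifs <;> simp
  · have := mu_sum (Φ := Φ) ha c l fun y => if y = x then 1 else 0
    simp only [mul_ite, mul_one, mul_zero, Finset.sum_ite_eq', Finset.mem_univ, if_true] at this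
    rw [this]
    refine tsum_congr fun I => ?_
    dsimp only
    by_cases k : I ≠ ⊥ ∧ ∀ i, I ⊔ w i = ⊤
    · rw [if_pos k, if_pos (c := c * I ≠ ⊥ ∧ _)
        ⟨mul_ne_zero c0 k.1, fun i => mul_cop.2 ⟨hc i, k.2 i⟩⟩, X.add c I c0 k.1 hc k.2]
      simp
    · have : rk w a I = 0 := by
        unfold rk
        split_ifs with e
        · rw [show I = ⊥ from by_contra fun n => k ⟨n, e⟩, a0]
        · rfl
      simp [this]

theorem rk_sum (hm : ∀ i, (w i).IsMaximal) (hi : Function.Injective w) (C : P004C.Al.Cm a)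
    (ha : Summable a) : ∑' I, rk w a I = (∑' I, a I) * ∏ i, (1 - a (w i)) := by
  have := sieve C ha (Finset.univ.image w) fun P hP => by
    obtain ⟨i, -, rfl⟩ := Finset.mem_image.1 hP
    exact P004C.Al.Eu.prime_iff.2 (hm i)
  rw [Finset.prod_image fun i _ j _ k => hi k] at this
  rw [this]
  refine tsum_congr fun I => if_congr ?_ rfl rfl
  simp only [Finset.forall_mem_image, Finset.mem_univ, true_implies, dvd_iff_le]
  refine forall_congr' fun i => ⟨fun k k' => (hm i).ne_top (by rwa [sup_of_le_right k'] at k),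
    fun k => ?_⟩
  obtain ⟨x, h1, h2⟩ := SetLike.not_le_iff_exists.1 k
  exact cop_of (hm i) h1 h2

variable [Algebra K M]

theorem rk_hc (H : HC J k f a) : HC J k (f * ∏ i, w i) (rk w a) := by
  have := hc_mul H (hc_ind (J := J) (∏ i, w i))
  refine (funext fun I => ?_ : (fun I => _) = rk w a) ▸ this
  by_cases k : I = ⊥
  · simp [rk, (H.zero I).2 (.inl k)]
  · simp only [rk, cop_pr, ne_eq, k, not_false_eq_true, true_and, ite_mul, one_mul, zero_mul]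

theorem pv_mul (h1 : Pv ι J f) (h2 : Pv ι J g) : Pv ι J (f * g) := by
  obtain ⟨s, a, b⟩ := h1
  obtain ⟨t, c, d⟩ := h2
  exact ⟨s * t, by simp [a, c], by rw [map_mul]; exact mul_mem_mul b d⟩

theorem pv_ne (h1 : Pv ι J f) : f ≠ ⊥ := by
  rintro rfl
  obtain ⟨s, a, b⟩ := h1
  exact Gx.ne_of (M := M) a (by rw [← Gx.coe_s, mem_bot.1 b]; rfl)

theorem pv_top : Pv ι J (⊤ : Ideal (𝓞 M)) := ⟨1, by simp, trivial⟩

theorem pv_max (p : P.IsMaximal) (h : 3 ∉ P) : Pv ι J P :=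
  Gx.pv_two (sup_comm P _ ▸ cop_of p (mem_span_singleton_self 3) h)

theorem sm_pv (S : Sm c l) : Pv ι J c := by
  refine ⟨l, ?_, by simpa using (sm_mem S).2⟩
  rw [RingOfIntegers.coe_eq_algebraMap, map_natCast, map_natCast, map_natCast]
  exact nm_cop fun k => S.2.1 ((Nat.prime_dvd_prime_iff_eq Nat.prime_three S.1).1 k).symm

theorem ps_fin {s : 𝓞 K} (hs : ‖ι (J s)‖ = 1) : (Ps M s).Finite := by
  have h0 : span {algebraMap (𝓞 K) (𝓞 M) s} ≠ ⊥ := pv_ne ⟨s, hs, mem_span_singleton_self _⟩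
  exact (P004C.Al.Eu.fin_dvd h0).subset fun P p =>
    dvd_iff_le.2 ((span_singleton_le_iff_mem _).2 p.2)

theorem ls_eq {s : 𝓞 K} (f : (Ps M s).Finite) (C : P004C.Al.Cm a) (ha : Summable a) :
    (∑' I, if I ⊔ span {algebraMap (𝓞 K) (𝓞 M) s} = ⊤ then a I else 0) =
      (∑' I, a I) * ∏ P ∈ f.toFinset, (1 - a P) := by
  refine (tsum_congr fun I => if_congr ?_ rfl rfl).trans (sieve C ha f.toFinset
    fun P p => P004C.Al.Eu.prime_iff.2 (f.mem_toFinset.1 p).1).symm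
  simp only [f.mem_toFinset, dvd_iff_le]
  refine ⟨fun k P p k' => p.1.ne_top (top_le_iff.1 (k.ge.trans
    (sup_le k' ((span_singleton_le_iff_mem _).2 p.2)))), fun k => ?_⟩
  by_contra k'
  obtain ⟨P, p, q⟩ := exists_le_maximal _ k'
  exact k P ⟨p, q (mem_sup_right (mem_span_singleton_self _))⟩ (le_sup_left.trans q)

/-- **the measures are bounded** -/
theorem bd (hb : Cg.BNDR) (hl : LCM) (hm : MEA) (hs : SMX) (Bs : Base ι J Ω) (h2 : finrank M N = 2)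
    (hw : ∃ w : M, w ^ 2 + w + 1 = 0) {n : ℕ} {b : Basis (Fin n) K M} (v : Vb ι J b)
    {ψ : Ideal (𝓞 M) → ℂ} (Q : Qc ι J N ψ) (pg : Pv ι J g)
    (g3 : ∃ w : Ideal (𝓞 M), w.IsMaximal ∧ g ≤ w ∧ 3 ∉ w) {h : ℕ} (h0 : 0 < h) :
    ∃ l : ℕ, l ≠ 0 ∧ ∃ (C : ℝ) (B0 : ℕ), ∀ η, HC J 0 g η → (∀ I, ‖η I‖ ≤ 1) →
      (∀ P, P.IsMaximal → η P = 0 ∨ η P ^ 3 = 1) → ∀ e B, 1 ≤ e → B0 ≤ B →
      ∀ lam, La J h (3 ^ e) lam → ∀ (t : 𝓞 M) (κ : Type) [Fintype κ] (w : κ → Ideal (𝓞 M)) Φ φ,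
      ((3 * l : ℕ) : 𝓞 M) ∣ t → Sy t B w Φ φ → ∀ z,
      sc Ω (dv ι J b * cf ι J ψ) n (2 * h * 3 ^ e) *
        ‖ι (mw w Φ (fun I => ψ I * (η I * lam (relNorm (𝓞 K) I))) z)‖ ≤ C := by
  have : Algebra.IsQuadraticExtension M N := { finrank_eq_two' := h2 }
  obtain ⟨f, F, pf, L, hF⟩ := Q.lc
  obtain ⟨-, l, c, n1, S, i1, l1⟩ := hs M N h2 hw (absNorm (f * g))
    (absNorm_eq_zero_iff.not.2 (pv_ne (pv_mul pf pg)))
  obtain ⟨C, D⟩ := hb K ι J Ω Bs M n b v c l S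
  obtain ⟨B0, H⟩ := (hm ι 0 C).2.1 1 one_pos
  refine ⟨l, S.1.ne_zero, C, B0, fun η E η1 η3 e B e1 hB lam La t κ _ w Φ φ ht X => ?_⟩
  have p3 : 3 ≤ 3 ^ e := le_self_pow₀ (by norm_num) (by omega)
  have hh : (2 : ℝ) ≤ h * (3 ^ e : ℕ) := by exact_mod_cast (by nlinarith : 2 ≤ h * 3 ^ e)
  have w3 : ∀ i, (3 : 𝓞 M) ∉ w i ∧ (l : 𝓞 M) ∉ w i := fun i =>
    ⟨fun k => X.cop i (mem_of_dvd _ ht (by push_cast; exact mul_mem_right _ _ k)),
      fun k => X.cop i (mem_of_dvd _ ht (by push_cast; exact mul_mem_left _ _ k))⟩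
  have cl : span {(l : 𝓞 M)} ⊔ f * g = ⊤ := by
    obtain ⟨x, y, k⟩ : IsCoprime ((l : ℕ) : 𝓞 M) ((absNorm (f * g) : ℕ) : 𝓞 M) :=
      (S.1.coprime_iff_not_dvd.2 n1).cast
    exact (eq_top_iff_one _).2 (k ▸ add_mem (mem_sup_left (mul_mem_left _ x
      (mem_span_singleton_self _))) (mem_sup_right (mul_mem_left _ y (absNorm_mem _))))
  have cw : ∀ i, c ⊔ w i = ⊤ := fun i => cop_of (X.max i) (sm_mem S).2 (w3 i).2
  have L' := hl K ι J Ω Bs M _ f F _ ψ _ pf (pv_mul (pv_mul pv_top pg) (Gx.pv_two (sup_comm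
    (∏ i, w i) _ ▸ cop_pr.2 fun i => cop_of (X.max i) (mem_span_singleton_self 3) (w3 i).1))) L
    (rk_hc (w := w) (hc_mul (la_hc (M := M) Bs La) E))
  simp only [← rk_mul] at L'
  have u : Summable (rk w fun I => ψ I * (η I * lam (relNorm (𝓞 K) I))) :=
    sum_of one_lt_two fun I => (rk_le I).trans (by
      rw [norm_mul, norm_mul]
      exact (mul_le_of_le_one_left (by positivity) (Q.le I)).trans
        ((mul_le_of_le_one_left (norm_nonneg _) (η1 I)).trans (la_le Bs La hh I)))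
  have e1' : ψ c = -1 := (h2 ▸ gp_ine (by omega) (sm_max S) (Q.gp c (sm_max S)) i1).eq_neg_one_of_two_right
  have nr : ‖ι (l * (η c * lam (relNorm (𝓞 K) c))) - 1‖ < 1 := by
    rw [map_mul, map_mul]
    refine near ?_ (near (cube ?_) ((la_one Bs La (sm_pv S)).trans_lt
      (pow_lt_one₀ (by norm_num) (by norm_num) (by omega))))
    · rw [← Nat.div_add_mod l 3, l1]
      simp only [Nat.cast_add, Nat.cast_mul, map_add, map_mul, map_natCast, Nat.cast_one, map_one,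
        add_sub_cancel_right, norm_mul, Nat.cast_ofNat, map_ofNat, nm_two]
      linarith [nat_le (l / 3)]
    · rw [← map_pow, (η3 c (sm_max S)).resolve_left fun k => ((E.zero c).1 k).elim (sm_mem S).1
        fun k => k (top_unique ((cop_mul.1 cl).2.ge.trans (sup_le_sup_right
          ((span_singleton_le_iff_mem _).2 (sm_mem S).2) _))), map_one]
  have tt : rk w (fun I => ψ I * (η I * lam (relNorm (𝓞 K) I))) c =
      -(η c * lam (relNorm (𝓞 K) c)) := by rw [rk, if_pos cw, e1', neg_one_mul]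
  refine (H B hB _ (mu (rk w fun I => ψ I * (η I * lam (relNorm (𝓞 K) I))) Φ c l) _
    (l * rk w (fun I => ψ I * (η I * lam (relNorm (𝓞 K) I))) c) (Φ c)
    (sc_pos Bs (mul_pos (dv_pos b) (hF ▸ norm_pos_iff.2 (Nat.cast_ne_zero.2
      (absNorm_eq_zero_iff.not.2 L.ne)))) _ _) ?_ ?_ fun ω => mw_eq (w := w) ▸ sm_ch _ _ _ ω).1.2 fun z => ?_
  · rw [tt, mul_neg, map_neg, norm_neg, (near_nm nr).1]
  · rw [tt, mul_neg, sub_neg_eq_add, map_add, map_one, (near_nm nr).2]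
  · obtain ⟨u', h3, h4, h5⟩ := mu_eq (ι := ι) (f := f * (⊤ * g * ∏ i, w i)) X (by simp [La.1])
      (fun i => Ideal.mul_le_right.trans (Ideal.mul_le_right.trans
        (le_of_dvd (Finset.dvd_prod_of_mem _ (Finset.mem_univ i))))) u (sm_mem S).1 cw l z
    obtain ⟨w₀, a1, a2, a3⟩ := g3
    rw [h5, ← hF]
    refine D _ _ F _ u' (by nlinarith) ⟨h * 3 ^ e, by ring⟩ (pv_mul pf (pv_mul (pv_mul pv_top pg)
      (Gx.pv_two (sup_comm (∏ i, w i) _ ▸ cop_pr.2 fun i =>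
        cop_of (X.max i) (mem_span_singleton_self 3) (w3 i).1)))) ?_
      ⟨w₀, a1, Ideal.mul_le_right.trans (Ideal.mul_le_left.trans (Ideal.mul_le_right.trans a2)), a3⟩
      L' h3 h4
    rw [sup_comm, top_mul, ← mul_assoc]
    exact cop_mul.2 ⟨cl, cop_pr.2 fun i => cop_of (X.max i) (mem_span_singleton_self _) (w3 i).2⟩

end Vale.Agent.P014Y.C.Al.Cb
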