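import Vale.Agent.P014Y.C.Al.St0
import Vale.Agent.P004C.Al.A0

/-!
# P014 Y, block AL: the rows A0 and A1
-/

set_option autoImplicit false
set_option linter.all false

namespace Vale.Agent.P014Y.C.Al

open Subgroup
open Vale.Agent.P004C.Al.Ab (tr mh cut)

namespace R0

variable {X D : Type} [CommGroup X] [CommGroup D] {U : Subgroup X} {x y : X} {d : X →* D}

theorem n3_ap (s : X →* X) (x : X) : n3 s x = x * s x * s (s x) := rfl

theorem mem_Hn {t : D →* D} {I : Subgroup D} {p : D × X} :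
    p ∈ Hn d t U I ↔ (p.1 ∈ I ∧ p.2 ∈ U) ∧ n3 t p.1 = d p.2 := Iff.rfl

theorem mem_Hd {s : X →* X} {p : D × X} : p ∈ Hd d s U ↔ ∃ x ∈ U, d x = p.1 ∧ n3 s x = p.2 := by
  simp only [Hd, mem_map, Prod.ext_iff, MonoidHom.prod_apply]

variable {s : X →* X} {t : D →* D} {U' : Subgroup X} {I' I : Subgroup D}

theorem d_nm (h : P3 d s t U' U I' I) (x : X) : d (n3 s x) = n3 t (d x) := by
  rw [n3_ap, map_mul, map_mul, h.eq, h.eq, h.eq, n3_ap]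

theorem nm_mem (h : P3 d s t U' U I' I) (k : x ∈ U) : n3 s x ∈ U' := (h.st x k).2.2

theorem cb_of (k : s x = x) : n3 s x = x ^ 3 := by
  rw [n3_ap, k, k, pow_three']

theorem nm_cb (h : P3 d s t U' U I' I) (k : x ∈ U') : n3 s x = x ^ 3 := cb_of (h.fx x k)

theorem d_mem (h : P3 d s t U' U I' I) (k : x ∈ U) : d x ∈ I := h.dv ⟨x, k, rfl⟩

theorem Hd_le (h : P3 d s t U' U I' I) : Hd d s U ≤ Hn d t U' I := by
  intro p k
  obtain ⟨x, a, b, c⟩ := mem_Hd.1 k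
  rw [mem_Hn, ← b, ← c, d_nm h]
  exact ⟨⟨d_mem h a, nm_mem h a⟩, rfl⟩

end R0

open R0

/-- **row A0** -/
theorem a0 : A0 := by
  intro X D _ _ d s t U' U I' I h h1 h2
  rw [hh, cut ((U.map d).comap (MonoidHom.fst D X)) fun p k => by
    obtain ⟨x, a, b, -⟩ := mem_Hd.1 k
    exact ⟨x, a, b⟩]
  refine mul_ne_zero ?_ ?_
  · rw [← tr (A := (Hd d s U).comap (MonoidHom.inr D X)) (B := U' ⊓ d.ker) (C := Hd d s U)
      (E := (U.map d).comap (MonoidHom.fst D X) ⊓ Hn d t U' I) (mh (MonoidHom.inr D X) _)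
      (fun _ _ => Iff.rfl) (fun x k => ⟨one_mem (U.map d), mem_Hn.2 ⟨⟨one_mem I, k.1⟩,
        (map_one _).trans k.2.symm⟩⟩) ?_]
    · refine fun e => h2 (relIndex_eq_zero_of_le_left ?_ e)
      rintro _ ⟨x, a, rfl⟩
      exact mem_Hd.2 ⟨x, h.le a.1, a.2, nm_cb h a.1⟩
    · rintro p ⟨⟨x, a, b⟩, c⟩
      refine ⟨p.2 / n3 s x, ⟨U'.div_mem c.1.2 (nm_mem h a), show d _ = 1 from ?_⟩,
        mem_Hd.2 ⟨x, a, b.trans (div_one _).symm, (div_div_cancel _ _).symm⟩⟩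
      rw [map_div, div_eq_one, d_nm h, b]
      exact (mem_Hn.1 c).2.symm
  · rw [relIndex_comap]
    refine fun e => h1 (relIndex_eq_zero_of_le_right ?_ e)
    rintro _ ⟨p, k, rfl⟩
    exact k.1.1

/-- **row A1** -/
theorem a1 : A1 := by
  intro X D Y _ _ _ d s t f U' U I' I h hf _ _
  have hf' : Mu (f ∘ n3 s) U := hf.pre _ fun _ => nm_mem h
  have m1 := fun p => hf.mem_cl (d := d) (p := p)
  have m2 := fun p => hf'.mem_cl (d := d) (p := p)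
  let ν : D × Y →* D × Y := (n3 t).prodMap (MonoidHom.id Y)
  let ψ : D × X → D × Y := fun p => (p.1, f p.2)
  have hψ : Mu ψ (Hn d t U' I) := fun p a q b => Prod.ext rfl (hf _ a.1.2 _ b.1.2)
  let E : Subgroup (D × X) := Hd d s U ⊔ (Kf d f U').map (MonoidHom.inr D X)
  have e1 : Jx d (f ∘ n3 s) U I = _ := cut ((closure ((fun x => (d x, f x)) '' U')).comap ν)
    fun p k => by
      obtain ⟨x, a, b, c⟩ := (m2 p).1 k
      exact (m1 _).2 ⟨n3 s x, nm_mem h a, by rw [d_nm h, b]; rfl, c⟩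
  have e2 : Jx d f U' I' = _ := (relIndex_mul_relIndex _
    ((I.map (n3 t) ⊔ U'.map d).comap (MonoidHom.fst D Y) ⊓ I'.prod ⊤) _ (fun p k => by
      obtain ⟨x, a, b, -⟩ := (m1 p).1 k
      exact ⟨mem_sup_right ⟨x, a, b⟩, h.dv' ⟨x, a, b⟩, trivial⟩) inf_le_right).symm
  have e3 : ((I.map (n3 t) ⊔ U'.map d).comap (MonoidHom.fst D Y) ⊓ I'.prod ⊤).relIndex (I'.prod ⊤) =
      h2 d t U' I' I := tr (mh (MonoidHom.fst D Y) _) (fun _ k => ⟨fun a => a.1, fun a => ⟨a, k⟩⟩)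
    (fun p k => k.1) fun p k => ⟨(p, 1), ⟨k, trivial⟩, by
      rw [show MonoidHom.fst D Y (p, 1) = p from rfl, div_self']; exact one_mem _⟩
  have e4 : ((closure ((fun x => (d x, f x)) '' U')).comap ν).relIndex (I.prod ⊤) = _ :=
    tr (E := (I.map (n3 t) ⊔ U'.map d).comap (MonoidHom.fst D Y) ⊓ I'.prod ⊤) (mh ν _)
      (fun _ _ => Iff.rfl)
      (fun p k => ⟨mem_sup_left ⟨p.1, k.1, rfl⟩, (h.st' _ k.1).2.2, trivial⟩) fun p k => by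
      obtain ⟨_, ⟨q, a, rfl⟩, _, ⟨x, b, rfl⟩, c⟩ := mem_sup.1 k.1
      exact ⟨(q, p.2 / f x), ⟨a, trivial⟩, (m1 _).2 ⟨x, b, eq_div_of_mul_eq' ((mul_comm _ _).trans c),
        (div_div_cancel _ _).symm⟩⟩
  have e5 : hh d s t U' U I = _ := cut E le_sup_left
  have e6 : E.relIndex (Hn d t U' I) = (closure ((fun x => (d x, (f ∘ n3 s) x)) '' U)).relIndex
      ((closure ((fun x => (d x, f x)) '' U')).comap ν ⊓ I.prod ⊤) := by
    refine tr hψ (fun p k => ⟨fun a => ?_, fun a => ?_⟩)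
      (fun p k => ⟨(m1 _).2 ⟨p.2, k.1.2, (mem_Hn.1 k).2.symm, rfl⟩, k.1.1, trivial⟩) fun p k => ?_
    · obtain ⟨q, a', _, ⟨x, b, rfl⟩, rfl⟩ := mem_sup.1 a
      obtain ⟨z, c1, c2, c3⟩ := mem_Hd.1 a'
      have b := hf.mem_Kf.1 b
      refine (m2 _).2 ⟨z, c1, c2.trans (mul_one _).symm, ?_⟩
      show f (n3 s z) = f (q.2 * x)
      rw [← c3, hf _ (nm_mem h c1) _ b.1, b.2.2, mul_one]
    · obtain ⟨z, c1, c2, c3⟩ := (m2 _).1 a
      refine mem_sup.2 ⟨(d z, n3 s z), mem_Hd.2 ⟨z, c1, rfl, rfl⟩, _, ⟨p.2 / n3 s z,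
        hf.mem_Kf.2 ⟨div_mem k.1.2 (nm_mem h c1), ?_, ?_⟩, rfl⟩,
        Prod.ext ((mul_one _).trans c2) (mul_div_cancel _ _)⟩
      · rw [map_div, div_eq_one, d_nm h, c2]
        exact (mem_Hn.1 k).2.symm
      · rw [hf.div k.1.2 (nm_mem h c1), div_eq_one]
        exact c3.symm
    · obtain ⟨x, a, b, c⟩ := (m1 _).1 k.1
      exact ⟨(p.1, x), ⟨⟨k.2.1, a⟩, b.symm⟩, by
        rw [show ψ (p.1, x) = p from Prod.ext rfl c, div_self']; exact one_mem _⟩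
  have e7 : ((Kf d (f ∘ n3 s) U).map (n3 s)).relIndex (Kf d f U') =
      (Hd d s U).relIndex (E ⊓ Hn d t U' I) := by
    refine tr (mh (MonoidHom.inr D X) _) (fun x k => ⟨?_, fun a => ?_⟩)
      (fun x k => ⟨mem_sup_right ⟨x, k, rfl⟩, mem_Hn.2 ⟨⟨one_mem I, (hf.mem_Kf.1 k).1⟩,
        (map_one _).trans (hf.mem_Kf.1 k).2.1.symm⟩⟩) fun p k => ?_
    · rintro ⟨z, a, rfl⟩
      exact mem_Hd.2 ⟨z, (hf'.mem_Kf.1 a).1, (hf'.mem_Kf.1 a).2.1, rfl⟩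
    · obtain ⟨z, c1, c2, c3⟩ := mem_Hd.1 a
      exact ⟨z, hf'.mem_Kf.2 ⟨c1, c2, (congrArg f c3).trans (hf.mem_Kf.1 k).2.2⟩, c3⟩
    · obtain ⟨q, a, _, ⟨x, b, rfl⟩, rfl⟩ := mem_sup.1 k.1
      exact ⟨x, b, by rwa [mul_div_cancel_right]⟩
  refine ⟨((Kf d (f ∘ n3 s) U).map (n3 s)).relIndex (Kf d f U'), ?_⟩
  rw [e1, e2, e3, ← e4, e5, e6, e7]
  ring

end Vale.Agent.P014Y.C.Al
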