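import Vale.Agent.P014Y.C.Al.St1
import Vale.Agent.P014Y.C.Al.Dvf
import Vale.Agent.P014Y.C.Al.A0
import Vale.Agent.P014Y.C.Al.A4

/-!
# P014 Y, block AL: the rows PJ, MP3
-/

set_option linter.unusedSectionVars false

open NumberField Module IsDedekindDomain
open scoped Classical

noncomputable section

namespace Vale.Agent.P014Y.C.Al

open Vale.Agent.P027M.S (Pr)
open Vale.Agent.P022K.Exi (od)
open Df Subgroup Multiplicative

namespace Pjk

section abs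

variable {X D : Type} [CommGroup X] [CommGroup D] {d : X →* D} {u s : X →* X} {u' t π : D →* D}
  {U' U : Subgroup X} {I' I : Subgroup D}

theorem nm_of (c : ∀ x, s (u x) = u (s x)) {x : X} (k : nm s x = 1) : nm s (u x) = 1 := by
  change u x * s (u x) = 1
  rw [c, ← map_mul]
  exact (congrArg u k).trans (map_one u)

theorem nm_n3 (c : ∀ x, s (u x) = u (s x)) {x : X} (k : nm s x = 1) : nm s (n3 u x) = 1 := by
  change nm s (x * u x * u (u x)) = 1
  rw [map_mul, map_mul, k, nm_of c k, nm_of c (nm_of c k), one_mul, one_mul]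

/-- the minus parts of a cubic pair -/
theorem minus (h : P3 d u u' U' U I' I) (e : ∀ x, d (s x) = t (d x)) (c : ∀ x, s (u x) = u (s x))
    (c' : ∀ p, t (u' p) = u' (t p)) : P3 d u u' (mn s U') (mn s U) (mn t I') (mn t I) := by
  have k : ∀ x, nm s x = 1 → nm t (d x) = 1 := fun x k => by
    change d x * t (d x) = 1
    rw [← e, ← map_mul]
    exact (congrArg d k).trans (map_one d)
  refine ⟨h.eq, inf_le_inf_right _ h.le, fun x a => h.fx x a.1, fun x a => ?_,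
    inf_le_inf_right _ h.le', fun x a => h.fx' x a.1, fun x a => ?_, ?_, ?_,
    fun p a => h.tf p a.1⟩
  · exact ⟨⟨(h.st x a.1).1, nm_of c a.2⟩, (h.st x a.1).2.1, (h.st x a.1).2.2, nm_n3 c a.2⟩
  · exact ⟨⟨(h.st' x a.1).1, nm_of c' a.2⟩, (h.st' x a.1).2.1, (h.st' x a.1).2.2, nm_n3 c' a.2⟩
  · rintro _ ⟨x, a, rfl⟩
    exact ⟨h.dv' ⟨x, a.1, rfl⟩, k x a.2⟩
  · rintro _ ⟨x, a, rfl⟩
    exact ⟨h.dv ⟨x, a.1, rfl⟩, k x a.2⟩

/-- the projection of a cubic pair -/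
theorem proj (h : P3 d u u' U' U I' I) (c : ∀ p, π (u' p) = u' (π p))
    (tf : ∀ p : D, p ^ 3 = 1 → p = 1) : P3 (π.comp d) u u' U' U (I'.map π) (I.map π) := by
  refine ⟨fun x => (congrArg π (h.eq x)).trans (c _), h.le, h.fx, h.st, map_mono h.le', ?_, ?_,
    (map_map ..).ge.trans (map_mono h.dv'), (map_map ..).ge.trans (map_mono h.dv),
    fun p _ => tf p⟩
  · rintro _ ⟨p, a, rfl⟩
    rw [← c, h.fx' p a]
  · rintro _ ⟨p, a, rfl⟩
    obtain ⟨a1, a2, a3⟩ := h.st' p a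
    refine ⟨⟨_, a1, c p⟩, by rw [← c, ← c, ← c, a2], _, a3, ?_⟩
    change π (p * u' p * u' (u' p)) = π p * u' (π p) * u' (u' (π p))
    rw [map_mul, map_mul, c, c, c]

theorem rel_map (h : (U.map d).relIndex I ≠ 0) : (U.map (π.comp d)).relIndex (I.map π) ≠ 0 := by
  rw [← relIndex_comap, ← map_map]
  exact fun e => h (relIndex_eq_zero_of_le_left (le_comap_map _ _) e)

end abs

variable {K : Type} [Field K] [NumberField K] {ι : ℂ →+* ℂ_[3]} {J : K →+* ℂ}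
  {A : Type} [Field A] [NumberField A] [Algebra K A]

theorem pj_pj {S S' : Set (Pr A)} (h : S' ⊆ S) (p : Dv A) : pj S (pj S' p) = pj S p :=
  funext fun P => by
    rw [pj_apply, pj_apply, pj_apply]
    split_ifs with a b
    exacts [rfl, absurd (h b) a, rfl]

theorem dd_pj {S S' : Set (Pr A)} (h : S' ⊆ S) : (pj S).comp (dd S') = dd S :=
  MonoidHom.ext fun _ => pj_pj h _

theorem s1 {P : Pr A} : P ∈ Ss ι J A 1 ↔ Av ι J P.asIdeal :=
  or_iff_left (by rw [map_one]; exact P.isPrime.one_notMem)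

theorem pj_s (σ : A ≃ₐ[K] A) (s : 𝓞 K) (p : Dv A) :
    pj (Ss ι J A s) (ta σ p) = ta σ (pj (Ss ι J A s) p) :=
  pj_ta (fun P => or_congr (av_cm σ P) (s_cm σ s P)) p

theorem ta_ta {σ ρ : A ≃ₐ[K] A} (h : ∀ x, σ (ρ x) = ρ (σ x)) (p : Dv A) :
    ta σ (ta ρ p) = ta ρ (ta σ p) := funext fun P => by
  refine congrArg p (HeightOneSpectrum.ext (Ideal.ext fun x => ?_))
  change so σ (so ρ x) ∈ P.asIdeal ↔ so ρ (so σ x) ∈ P.asIdeal
  rw [show so σ (so ρ x) = so ρ (so σ x) from RingOfIntegers.ext (h x)]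

theorem tf (p : Dv A) (h : p ^ 3 = 1) : p = 1 := (pow_eq_one_iff_left three_ne_zero).1 h

theorem fg {S : Set (Pr A)} (hS : S.Finite) (E : Subgroup Aˣ) : (E ⊓ (dd S).ker).FG := by
  have := hS.to_subtype
  have : AddGroup.FG (S → ℤ) := Module.Finite.iff_addGroup_fg.1 inferInstance
  have : Group.FG (𝓞 A)ˣ := Group.fg_iff_monoid_fg.2 inferInstance
  let f : Aˣ →* Multiplicative (S → ℤ) := MonoidHom.mk'
    (fun x => ofAdd fun P => toAdd (od P.1 x)) fun x y => by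
      simp only [map_mul, toAdd_mul]
      rfl
  refine fg_of _ f (Units.map (algebraMap (𝓞 A) A : 𝓞 A →* A)) fun x hx => ?_
  obtain ⟨ε, hε⟩ := P027M.S.Cls.unit_of x.ne_zero fun P => by
    by_cases h : P ∈ S
    · exact congrFun (congrArg toAdd hx.2) ⟨P, h⟩
    · have k := congrFun (dd_eq S x ▸ hx.1.2 : pj S (dd ∅ x) = 1) P
      rw [pj_apply, if_neg h, dd_apply] at k
      exact congrArg toAdd k
  exact ⟨ε, Units.ext hε⟩

theorem i2_ne {S : Set (Pr A)} (hS : S.Finite) (E : Subgroup Aˣ) : i2 (E ⊓ (dd S).ker) ≠ 0 :=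
  (isFiniteRelIndex_map_powMonoidHom_of_fg (fg hS E) two_ne_zero).relIndex_ne_zero

end Pjk

open Pjk

/-- **row PJ** -/
theorem pj0 : PJ := by
  intro K _ _ ι J Ω _ A L₀ L _ _ _ _ _ _ _ _ _ _ _ T S hS
  have s0 : Ss ι J A 1 ⊆ S := fun P h => hS ▸ .inl (s1.1 h)
  have e : IL L (∅ : Set (Pr A)) ≤ (IL L (Ss ι J A 1)).comap (pj S) := IL_le fun I hI => by
    induction I using UniqueFactorizationMonoid.induction_on_prime with
    | h₁ => exact absurd rfl hI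
    | h₂ I u =>
      rw [Ideal.isUnit_iff.1 u, xt, Ideal.map_top, dI_top]
      exact one_mem _
    | h₃ I p h0 hp ih =>
      rw [xt, Ideal.map_mul, dI_mul (xt_ne L hp.ne_zero) (xt_ne L h0)]
      refine mul_mem (mem_comap.2 ?_) (ih h0)
      have k : ∀ P : Pr A, xt L p ≤ P.asIdeal → P.asIdeal.under (𝓞 L₀) = p.under (𝓞 L₀) :=
        fun P a => by
          rw [((Ideal.isPrime_of_prime hp).isMaximal hp.ne_zero).eq_of_le
            (Ideal.IsPrime.under _ P.asIdeal).ne_top (Ideal.map_le_iff_le_comap.1 a),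
            Ideal.under_under]
      by_cases a : p.under (𝓞 L₀) ∈ T
      · refine (funext fun P => ?_ : pj S (dI (xt L p)) = 1) ▸ one_mem _
        rw [pj_apply]
        split_ifs with b
        · rfl
        · exact dI_eq.2 fun c => b (hS ▸ .inr (k P c ▸ a))
      · refine ⟨_, (IL_empty L).le (mem_IL hp.ne_zero), funext fun P => ?_⟩
        rw [pj_apply, pj_apply]
        split_ifs with b c c
        · rfl
        · exact absurd (s0 b) c
        · exact dI_eq.2 fun f => a (k P f ▸ (hS.le c).resolve_left (mt s1.2 b))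
        · rfl
  have e1 : IL L S ≤ IL L (Ss ι J A 1) := by
    rintro _ ⟨p, hp, rfl⟩
    exact e ((IL_empty L).ge hp)
  refine ⟨e1, fun σ c => le_antisymm ?_ ?_⟩
  · rintro _ ⟨⟨p, hp, rfl⟩, k⟩
    exact ⟨_, ⟨e1 ⟨p, hp, rfl⟩, k⟩, pj_pj le_rfl p⟩
  · rintro _ ⟨_, ⟨⟨p, hp, rfl⟩, k⟩, rfl⟩
    refine ⟨⟨p, hp, (pj_pj s0 p).symm⟩, ?_⟩
    change pj S _ * ta σ (pj S _) = 1
    rw [← c, ← map_mul]
    exact (congrArg _ k).trans (map_one _)

/-- **row MP3** -/
theorem mp3 (pq : PQ) (pc : PC) : MP3 := by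
  intro K _ _ ι J Ω B q m S _ s0 hS c
  have f1 : (Ss ι J q.A 1).Finite := fin_S one_ne_zero
  have p : P3 (dd S) (ua q.ρ) (ta q.ρ) (q.Un ι J m) (q.Ua ι J m) (IM ι J q.σ q.N S)
      (IM ι J q.σ q.A S) := dd_pj s0 ▸ proj (minus (s := ua q.σ) (t := ta q.σ)
    ((pc K ι J Ω B q.A q.N q.A q.ω' q.ρ q.d3' q.o3' (fun _ => rfl) m).1 _ (pj_s q.ρ 1))
    (fun x => by rw [dd_eq, dd_ua, pj_s, ← dd_eq]) (fun x => Units.ext (q.cm x))
    (ta_ta q.cm)) c tf
  have rA : ((q.Ua ι J m).map (dd S)).relIndex (IM ι J q.σ q.A S) ≠ 0 := dd_pj s0 ▸ rel_map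
    (min' _ _ _ _ _ _ _ _ _ (pq K ι J Ω B q.A q.E q.A q.τ' q.σ q.d2' q.ne' (fun _ => rfl) m _
      (pj_s q.σ 1)) (ray_fin (fun _ => .inl) m) (i2_ne f1 _))
  have rN : ((q.Un ι J m).map (dd S)).relIndex (IM ι J q.σ q.N S) ≠ 0 := dd_pj s0 ▸ rel_map
    (min' _ _ _ _ _ _ _ _ _ (pq K ι J Ω B q.A q.M q.N q.τ q.σ q.d2 q.ne q.ct m _
      (pj_s q.σ 1)) (ray_fin (fun _ => .inl) m) (i2_ne f1 _))
  exact ⟨p, a0 _ _ _ _ _ _ _ _ _ p rA (i2_fin hS _),
    fun e => rN (relIndex_eq_zero_of_le_left le_sup_right e)⟩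

end Vale.Agent.P014Y.C.Al
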