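import Vale.Agent.P014Y.C.Al.St2
import Vale.Agent.P004C.Al.Icx
import Vale.Agent.P004C.Al.Lf0
import Vale.Agent.P022E.GW.Fix

/-!
# P014 Y, block AL: ramified primes divide the conductor, quadratic characters (rows PRI, QCX)
-/

set_option autoImplicit false
set_option linter.all false

open NumberField IsDedekindDomain Module
open scoped Classical

noncomputable section

namespace Vale.Agent.P014Y.C.Al

open Vale.Agent.P022 Vale.Agent.P022.C Vale.Agent.P022K Vale.Agent.P022K.PB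
open Vale.Agent.P027M.S (Pr Inert)
open Vale.Agent.P022E.GW (Ov)
open Vale.Agent.P004C.Al (Gc Ic Rm Gp)
open Vale.Agent.P004C.Al.Rc

namespace Pri

variable {M : Type} [Field M] [NumberField M] {j : M →+* Qb}

theorem ex_pow {c : 𝓞 M} (hc : c ≠ 0) : ∃ N : ℕ, 0 < N ∧ ∀ w : Pr M, c ∉ w.asIdeal ^ N := by
  have a0 : Ideal.absNorm (Ideal.span {c}) ≠ 0 :=
    Ideal.absNorm_eq_zero_iff.not.2 (Ideal.span_singleton_eq_bot.not.2 hc)
  refine ⟨_, Nat.pos_of_ne_zero a0, fun w h => ?_⟩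
  have a := Ideal.absNorm_dvd_absNorm_of_le ((Ideal.span_singleton_le_iff_mem _).2 h)
  rw [map_pow] at a
  have b : 1 < Ideal.absNorm w.asIdeal := by
    have := Ideal.absNorm_eq_zero_iff.not.2 w.ne_bot
    have := Ideal.absNorm_eq_one_iff.not.2 w.isPrime.ne_top
    omega
  exact (Nat.lt_pow_self b).not_ge (Nat.le_of_dvd (Nat.pos_of_ne_zero a0) a)

theorem val_lt {w : Pr M} {x c : 𝓞 M} {N : ℕ} (hx : x ∈ w.asIdeal ^ N) (hc : c ∉ w.asIdeal ^ N) :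
    w.valuation M (x : M) < w.valuation M (c : M) := by
  rw [show (x : M) = algebraMap (𝓞 M) M x from rfl, show (c : M) = algebraMap (𝓞 M) M c from rfl,
    w.valuation_of_algebraMap, w.valuation_of_algebraMap]
  exact ((w.intValuation_le_pow_iff_mem _ _).2 hx).trans_lt
    (lt_of_not_ge fun z => hc ((w.intValuation_le_pow_iff_mem _ _).1 z))

theorem val_lt' {w : Pr M} {x : 𝓞 M} {n N : ℕ} (hx : x - 1 ∈ w.asIdeal ^ N)
    (hc : (n : 𝓞 M) ^ 2 ∉ w.asIdeal ^ N) :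
    w.valuation M ((x : M) - 1) < w.valuation M ((n : M) ^ 2) := by
  simpa using val_lt hx hc

/-- the field of a character -/
theorem ex_fld {A : Type} [CommGroup A] (η : GK j →* A) (o : IsOpen (η.ker : Set (GK j))) :
    ∃ (L : Type) (_ : Field L) (_ : NumberField L) (_ : Algebra M L) (_ : IsGalois M L)
      (jL : L →+* Qb), (∀ x, jL (algebraMap M L x) = j x) ∧ ∀ g : GK j, g.1 ∈ GK jL ↔ η g = 1 := by
  obtain ⟨L, i1, i2, i3, i4, jL, ρ, D, e, -⟩ := H916.exists_fld j (H916.kerQ j η)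
    (H916.isOpen_kerQ j o) (H916.kerQ_le j η) (H916.kerQ_normal j η)
  exact ⟨L, i1, i2, i3, i4, jL, D.comp, fun g => e ▸ H916.mem_kerQ j η g⟩

section

variable {L : Type} [Field L] [NumberField L] [Algebra M L]

/-- the norm of an element which is one modulo `s` -/
theorem nm_one [IsGalois M L] {s : 𝓞 M} {y : 𝓞 L} (h : algebraMap (𝓞 M) (𝓞 L) s ∣ y - 1) :
    s ∣ Algebra.intNorm (𝓞 M) (𝓞 L) y - 1 := by
  have e : algebraMap (𝓞 M) (𝓞 L) (Algebra.intNorm (𝓞 M) (𝓞 L) y) =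
      ∏ σ : L ≃ₐ[M] L, RingOfIntegers.mapRingHom (σ : L →+* L) y := by
    apply RingOfIntegers.ext
    show algebraMap M L (algebraMap (𝓞 M) M _) = algebraMap (𝓞 L) L _
    rw [Algebra.algebraMap_intNorm (L := L), Algebra.norm_eq_prod_automorphisms, map_prod]
    rfl
  have k : algebraMap (𝓞 M) (𝓞 L) (Algebra.intNorm (𝓞 M) (𝓞 L) y - 1) ∈
      (Ideal.span {s}).map (algebraMap (𝓞 M) (𝓞 L)) := by
    rw [Ideal.map_span, Set.image_singleton, Ideal.mem_span_singleton, map_sub, map_one, e]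
    refine Finset.prod_induction _ (fun z => algebraMap (𝓞 M) (𝓞 L) s ∣ z - 1)
      (fun a b p q => ?_) (by simp) fun σ _ => ?_
    · rw [show a * b - 1 = (a - 1) * b + (b - 1) by ring]
      exact dvd_add (p.mul_right _) q
    · have := map_dvd (RingOfIntegers.mapRingHom (σ : L →+* L)) h
      rwa [map_sub, map_one, show RingOfIntegers.mapRingHom (σ : L →+* L)
        (algebraMap (𝓞 M) (𝓞 L) s) = algebraMap (𝓞 M) (𝓞 L) s from
          RingOfIntegers.ext (σ.commutes (s : M))] at this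
  rw [← Ideal.mem_comap, Ideal.comap_map_eq_self_of_faithfullyFlat] at k
  exact Ideal.mem_span_singleton.1 k

/-- a Frobenius element fixes the field: the degree is one -/
theorem rel_one {jL : L →+* Qb} (e : ∀ x, jL (algebraMap M L x) = j x) {v : Pr M}
    {P : Ideal (𝓞 Qb)} {φ : GK j} (h : FrI j v P φ) (m : φ.1 ∈ GK jL) {w : Pr L}
    (hw : below jL P = w.asIdeal) : Ideal.relNorm (𝓞 M) w.asIdeal = v.asIdeal := by
  have d : (dw M w).asIdeal = v.asIdeal := by rw [dw_eq, ← hw, ← below_dw e, h.2.1]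
  have q1 : 1 < Ideal.absNorm v.asIdeal := by
    have := Ideal.absNorm_eq_zero_iff.not.2 v.ne_bot
    have := Ideal.absNorm_eq_one_iff.not.2 v.isPrime.ne_top
    omega
  have := w.isPrime
  have b := (H853.card_le_of_pow_eq (R := 𝓞 L ⧸ w.asIdeal) q1 fun x => by
    obtain ⟨y, rfl⟩ := Ideal.Quotient.mk_surjective x
    have c := h.2.2 (RingOfIntegers.mapRingHom jL y)
    rw [show φ.1 • RingOfIntegers.mapRingHom jL y = RingOfIntegers.mapRingHom jL y from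
      RingOfIntegers.ext (m y), ← map_pow, ← map_sub] at c
    rw [← map_pow]
    exact (Ideal.Quotient.eq.2 (hw ▸ c : y - y ^ Ideal.absNorm v.asIdeal ∈ w.asIdeal)).symm).2
  rw [← Submodule.cardQuot_apply, ← Ideal.absNorm_apply, abs_pr (M := M), d] at b
  have f := Ideal.inertiaDeg_pos w.asIdeal (𝓞 M)
  have := (Nat.pow_le_pow_iff_right q1).1 (b.trans_eq (pow_one _).symm)
  rw [rel_pr, d, show w.asIdeal.inertiaDeg (𝓞 M) = 1 by omega, pow_one]

/-- a generator at `w` -/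
theorem ex_gen (w : Pr L) {V : Ideal (𝓞 L)} (V0 : V ≠ ⊥) {s : 𝓞 L} (hs : s ∉ w.asIdeal) :
    ∃ (y : 𝓞 L) (I : Ideal (𝓞 L)), s ∣ y - 1 ∧ Ideal.span {y} = w.asIdeal * I ∧ I ≠ ⊥ ∧
      I ⊔ V = ⊤ := by
  obtain ⟨n, J, nd, rfl⟩ := WfDvdMonoid.max_power_factor V0 w.irreducible
  obtain ⟨π, p1, p2⟩ := Ideal.exists_mem_pow_notMem_pow_succ w.asIdeal w.ne_bot w.isPrime.ne_top 1
  have c : ∀ A : Ideal (𝓞 L), ¬ A ≤ w.asIdeal → IsCoprime w.asIdeal A := fun A h =>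
    Ideal.isCoprime_iff_sup_eq.2 (w.isMaximal.out.2 _ (left_lt_sup.2 h))
  obtain ⟨a, a1, b, b1, e⟩ := Submodule.mem_sup.1 ((Ideal.eq_top_iff_one _).1
    (Ideal.isCoprime_iff_sup_eq.1 (((c J fun z => nd (Ideal.dvd_iff_le.2 z)).mul_right
      (c _ fun z => hs ((Ideal.span_singleton_le_iff_mem _).1 z))).pow_left (m := 2))))
  have y1 : a + π * b - 1 ∈ J * Ideal.span {s} := by
    rw [show a + π * b - 1 = (π - 1) * b by linear_combination e]
    exact Ideal.mul_mem_left _ _ b1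
  have y2 : a + π * b ∉ w.asIdeal ^ 2 := fun z => p2 (by
    have := add_mem (sub_mem z a1) (Ideal.mul_mem_left _ π a1)
    rwa [show a + π * b - a + π * a = π by linear_combination π * e] at this)
  obtain ⟨I, hI⟩ : w.asIdeal ∣ Ideal.span {a + π * b} := Ideal.dvd_span_singleton.2
    (add_mem (Ideal.pow_le_self two_ne_zero a1) (Ideal.mul_mem_right _ _ (pow_one w.asIdeal ▸ p1)))
  have m := hI.le (Ideal.mem_span_singleton_self _)
  refine ⟨_, I, Ideal.mem_span_singleton.1 (Ideal.mul_le_right y1), hI, fun z => y2 ?_,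
    Ideal.isCoprime_iff_sup_eq.1 (IsCoprime.mul_right (IsCoprime.pow_right (c I fun z => y2 ?_).symm)
      (Ideal.isCoprime_iff_sup_eq.2 ((Ideal.eq_top_iff_one _).2 ?_)))⟩
  · rw [z, Ideal.mul_bot, Ideal.mem_bot] at m
    rw [m]; exact zero_mem _
  · rw [pow_two]; exact Ideal.mul_mono_right z m
  · have := sub_mem (Ideal.mem_sup_left (T := J) (Ideal.mul_le_right m))
      (Ideal.mem_sup_right (Ideal.mul_le_left y1))
    rwa [sub_sub_cancel] at this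

end

variable [IsEmpty (M →+* ℝ)] {fr : Pr M → GK j} (hfr : ∀ v, ∃ P, FrI j v P (fr v))

include hfr

/-- the value of the class of `v` is read off any Frobenius element -/
theorem key {θ : GK j →* ℂˣ} (ho : IsOpen (θ.ker : Set (GK j))) {n : ℕ} (hn : 0 < n)
    (hθ : ∀ g, θ g ^ n = 1) {v : Pr M} {P : Ideal (𝓞 Qb)} {φ : GK j} (h : FrI j v P φ) {s : 𝓞 M}
    (sv : s ∉ v.asIdeal) (hs : ∀ w, w ≠ v → Un θ w ∨ s ∈ w.asIdeal) :
    ∃ (a : 𝓞 M) (I : Ideal (𝓞 M)), s ∣ a - 1 ∧ Ideal.span {a} = v.asIdeal * I ∧ I ≠ ⊥ ∧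
      I ⊔ v.asIdeal = ⊤ ∧ P004C.Al.Rc.ic θ fr I * θ φ = 1 := by
  obtain ⟨θ', D, m, D0, Dv, o', m0, hm, u', f'⟩ := ex_tw (j := j) v hn (z := (θ φ)⁻¹)
    (by rw [inv_pow, hθ, inv_one])
  obtain ⟨N, N0, hN⟩ := ex_pow (c := (m : 𝓞 M) ^ 2) (pow_ne_zero _ (Nat.cast_ne_zero.2 m0.ne'))
  have oη : IsOpen ((θ * θ').ker : Set (GK j)) := Subgroup.isOpen_mono (H₁ := θ.ker ⊓ θ'.ker)
    (fun g k => by rw [MonoidHom.mem_ker, MonoidHom.mul_apply, k.1, k.2, mul_one]) (ho.inter o')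
  obtain ⟨L, _, _, _, _, jL, e, tr⟩ := ex_fld (θ * θ') oη
  obtain ⟨l, o⟩ := ex_ov h.1 h.2.1
  have r := rel_one e h ((tr φ).2 (by rw [MonoidHom.mul_apply, f' P φ h, mul_inv_cancel])) (w := bl jL o) rfl
  have d : (bl jL o).asIdeal.under (𝓞 M) = v.asIdeal := (below_dw e P).symm.trans h.2.1
  have s1 : s * (D : 𝓞 M) ^ N ∉ v.asIdeal := fun z =>
    (v.isPrime.mem_or_mem z).elim sv fun z => Dv (v.isPrime.mem_of_pow_mem _ z)
  obtain ⟨y, I, y1, y2, I0, c⟩ := ex_gen (bl jL o) (V := v.asIdeal.map (algebraMap (𝓞 M) (𝓞 L)))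
    (Ideal.map_ne_bot_of_ne_bot v.ne_bot) (s := algebraMap (𝓞 M) (𝓞 L) (s * (D : 𝓞 M) ^ N))
    fun z => s1 (d ▸ z)
  have a1 := nm_one y1
  have a2 : Ideal.span {Algebra.intNorm (𝓞 M) (𝓞 L) y} = v.asIdeal * Ideal.relNorm (𝓞 M) I := by
    rw [← Ideal.relNorm_singleton, y2, map_mul, r]
  have J0 : Ideal.relNorm (𝓞 M) I ≠ ⊥ := Ideal.relNorm_eq_bot_iff.not.2 I0
  have c' := (P004C.Al.Lf.cop_rn _ I I0).2 c
  generalize Algebra.intNorm (𝓞 M) (𝓞 L) y = a at a1 a2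
  have un : ∀ w : Pr M, Ideal.relNorm (𝓞 M) I ≤ w.asIdeal → Un θ w ∧ Un θ' w := fun w le => by
    have am : a ∈ w.asIdeal := le (Ideal.mul_le_right (a2.le (Ideal.mem_span_singleton_self a)))
    have k : s * (D : 𝓞 M) ^ N ∉ w.asIdeal := fun z => w.isPrime.one_notMem (by
      have := w.asIdeal.sub_mem am (w.asIdeal.mem_of_dvd a1 z)
      rwa [sub_sub_cancel] at this)
    exact ⟨(hs w fun z => w.isPrime.ne_top (top_unique (c' ▸ sup_le le (z ▸ le_rfl)))).resolve_right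
      fun z => k (w.asIdeal.mul_mem_right _ z),
      u' w fun z => k (w.asIdeal.mul_mem_left _ (w.asIdeal.pow_mem_of_mem z N N0))⟩
  obtain ⟨fr', hfr'⟩ := exists_fr jL
  have n1 := ip_norm e (θ := θ * θ') hfr hfr' I0 fun w le Q hQ hb g hg => by
    have := un (dw M w) ((Ideal.relNorm_mono _ le).trans ((rel_pr w).le.trans
      (Ideal.pow_le_self (Ideal.inertiaDeg_pos w.asIdeal (𝓞 M)).ne')))
    rw [MonoidHom.mul_apply, this.1 Q hQ hb g hg, this.2 Q hQ hb g hg, mul_one]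
  rw [ip_congr (f' := fun _ => 1) I0 fun w _ => (tr _).1 (fr' w).2] at n1
  simp only [MonoidHom.mul_apply] at n1
  rw [ip_mul' J0, show ip (fun _ => (1 : ℂˣ)) I = 1 from
    finprod_eq_one_of_forall_eq_one fun _ => one_pow _] at n1
  have a0 : a ≠ 0 := fun z => mul_ne_zero v.ne_bot J0 (a2.symm.trans (by simp [z]))
  have n2 := ic_law hfr o' m0 hm a0 fun w => or_iff_not_imp_left.2 fun u => val_lt' (N := N)
    (Ideal.mem_of_dvd _ ((dvd_mul_left _ _).trans a1)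
      (Ideal.pow_mem_pow (by_contra fun z => u (u' w z)) N)) (hN w)
  rw [a2, ic_cm.mul, ic_fr hfr (u' v Dv) h, f' P φ h, ic_ip J0 fun w le => (un w le).2,
    ← Units.val_mul, Units.val_eq_one, inv_mul_eq_one] at n2
  refine ⟨a, _, (dvd_mul_right _ _).trans a1, a2, J0, c', ?_⟩
  rw [ic_ip J0 fun w le => (un w le).1, n2, ← Units.val_mul, n1, Units.val_one]

/-- **a ramified prime divides the conductor** -/
theorem pri0 {θ : GK j →* ℂˣ} (ho : IsOpen (θ.ker : Set (GK j))) {n : ℕ} (hn : 0 < n)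
    (hθ : ∀ g, θ g ^ n = 1) {v : Pr M} (hv : ¬ Un θ v) {g : Ideal (𝓞 M)} (hg : g ⊔ v.asIdeal = ⊤) :
    ∃ x : 𝓞 M, x - 1 ∈ g ∧ x ∉ v.asIdeal ∧ P004C.Al.Rc.ic θ fr (Ideal.span {x}) ≠ 1 := by
  have crt : ∀ I : Ideal (𝓞 M), I ⊔ g = ⊤ → I ⊔ v.asIdeal = ⊤ →
      ∃ d ∈ I, d - 1 ∈ g ∧ d ∉ v.asIdeal := fun I a b => by
    obtain ⟨d, d1, z, z1, e⟩ := Submodule.mem_sup.1 ((Ideal.eq_top_iff_one _).1
      (Ideal.isCoprime_iff_sup_eq.1 ((Ideal.isCoprime_iff_sup_eq.2 a).mul_right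
        (Ideal.isCoprime_iff_sup_eq.2 b))))
    refine ⟨d, d1, ?_, fun k => v.isPrime.one_notMem (e ▸ add_mem k (Ideal.mul_le_right z1))⟩
    rw [show d - 1 = -z by linear_combination e]
    exact neg_mem (Ideal.mul_le_left z1)
  by_cases hs : ∀ w, w ≠ v → Un θ w ∨ g ≤ w.asIdeal
  swap
  · simp only [not_forall, not_or] at hs
    obtain ⟨w, ne, u, k⟩ := hs
    obtain ⟨d, d1, d2, d3⟩ := crt w.asIdeal (w.isMaximal.out.2 _ (left_lt_sup.2 k))
      (w.isMaximal.coprime_of_ne v.isMaximal fun z => ne (HeightOneSpectrum.ext z))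
    obtain ⟨C, hC⟩ := Ideal.dvd_span_singleton.2 d1
    exact ⟨d, d2, d3, by rw [hC, ic_cm.mul, ic_ram u, zero_mul]; exact zero_ne_one⟩
  obtain ⟨s, s1, z, z1, e⟩ := Submodule.mem_sup.1 ((Ideal.eq_top_iff_one _).1 hg)
  have sv : s ∉ v.asIdeal := fun k => v.isPrime.one_notMem (e ▸ add_mem k z1)
  simp only [Un, not_forall] at hv
  obtain ⟨P, hP, hb, i, hi, ni⟩ := hv
  obtain ⟨φ, hφ⟩ := ex_fri hP hb
  have hs' : ∀ w, w ≠ v → Un θ w ∨ s ∈ w.asIdeal := fun w ne => (hs w ne).imp_right fun k => k s1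
  obtain ⟨a, I, a1, a2, I0, c, p⟩ := key hfr ho hn hθ hφ sv hs'
  obtain ⟨a', I', a1', a2', I0', c', p'⟩ := key hfr ho hn hθ (φ := i * φ) ⟨hP, hb, fun x => by
    have := add_mem (hi (φ.1 • x)) (hφ.2.2 x)
    rwa [sub_add_sub_cancel, ← mul_smul] at this⟩ sv hs'
  have b := g.mem_of_dvd a1 s1
  have b' := g.mem_of_dvd a1' s1
  obtain ⟨d, d1, d2, d3⟩ := crt I' ((Ideal.eq_top_iff_one _).2 (by
    have := sub_mem (Ideal.mem_sup_left (T := g)
      (Ideal.mul_le_right (a2'.le (Ideal.mem_span_singleton_self a')))) (Ideal.mem_sup_right b')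
    rwa [sub_sub_cancel] at this)) c'
  obtain ⟨C, hC⟩ := Ideal.dvd_span_singleton.2 d1
  have e2 : Ideal.span {d * a} = Ideal.span {a'} * (C * I) := by
    rw [← Ideal.span_singleton_mul_span_singleton, hC, a2, a2']; ring
  obtain ⟨x, hx⟩ := Ideal.span_singleton_le_span_singleton.1 (e2.le.trans Ideal.mul_le_left)
  rw [hx, ← Ideal.span_singleton_mul_span_singleton] at e2
  replace e2 := mul_left_cancel₀ (a2' ▸ mul_ne_zero v.ne_bot I0') e2
  by_contra k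
  simp only [not_exists, not_and, not_not] at k
  have k1 := k d d2 d3
  have k2 := k x (by
    rw [show x - 1 = (d - 1) * a + (a - 1) - (a' - 1) * x by linear_combination -hx]
    exact sub_mem (add_mem (g.mul_mem_right _ d2) b) (g.mul_mem_right _ b')) fun m => by
      rcases v.isPrime.mul_le.1 (e2.ge.trans ((Ideal.span_singleton_le_iff_mem _).2 m)) with t | t
      · exact d3 (t (Ideal.mul_le_right (hC.le (Ideal.mem_span_singleton_self d))))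
      · exact v.isPrime.ne_top (top_unique (c ▸ sup_le t le_rfl))
  rw [hC, ic_cm.mul] at k1
  rw [e2, ic_cm.mul] at k2
  rw [map_mul, Units.val_mul] at p'
  refine ni (Units.ext ?_)
  show (θ i : ℂ) = 1
  have t : P004C.Al.Rc.ic θ fr I' = P004C.Al.Rc.ic θ fr I := by
    linear_combination P004C.Al.Rc.ic θ fr I * k1 - P004C.Al.Rc.ic θ fr I' * k2
  rw [t] at p'
  linear_combination p' - (θ i : ℂ) * p

omit hfr in
theorem pv_prod {K : Type} [Field K] [NumberField K] [Algebra K M] {ι : ℂ →+* ℂ_[3]} {J : K →+* ℂ}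
    {κ : Type} (T : Finset κ) (f : κ → Ideal (𝓞 M)) (h : ∀ i ∈ T, Pv ι J (f i)) :
    Pv ι J (∏ i ∈ T, f i) :=
  Finset.prod_induction _ (Pv ι J) (fun _ _ ⟨s, a, b⟩ ⟨t, c, d⟩ => ⟨s * t, by
    rw [RingOfIntegers.coe_eq_algebraMap, map_mul, map_mul, map_mul, norm_mul]
    exact (congrArg₂ _ a c).trans (mul_one _), map_mul (algebraMap (𝓞 K) (𝓞 M)) s t ▸
      Ideal.mul_mem_mul b d⟩) ⟨1, by simp, by simp⟩ h

end Pri

/-- **row PRI** -/
theorem pri : PRI := fun M _ _ j θ n ψ im G k P g hP z _ c => by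
  obtain ⟨fr, hfr⟩ := exists_fr j
  rw [G.ic_eq hfr k] at z ⊢
  exact Pri.pri0 hfr G.hopn G.pos G.hpow (v := mx hP) (ic_zero.1 z) c

namespace Pri

variable {M : Type} [Field M] [NumberField M] {j : M →+* Qb} {θ : GQ → ℂ} {n : ℕ}
  {ψ : Ideal (𝓞 M) → ℂ}

theorem val (G : Gc j θ n) (k : Ic j θ ψ) (I : Ideal (𝓞 M)) : ψ I = 0 ∨ ψ I ^ n = 1 := by
  by_cases b : I = ⊥
  · exact .inl (b ▸ k.bot)
  obtain ⟨fr, hfr⟩ := exists_fr j
  refine ind (p := fun I => ψ I = 0 ∨ ψ I ^ n = 1) (.inr (by rw [k.cm.one, one_pow]))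
    (fun v I _ h => ?_) b
  have e : ψ v.asIdeal = 0 ∨ ψ v.asIdeal ^ n = 1 := by
    rw [G.ic_eq hfr k]
    by_cases u : Un G.hom v
    · exact .inr (by rw [ic_un u, G.coe, G.pow _ (fr v).2])
    · exact .inl (ic_ram u)
  rw [k.cm.mul, mul_pow]
  rcases e with e | e <;> rcases h with h | h <;> simp [e, h]

/-- finitely many zeros -/
theorem fin (G : Gc j θ n) (k : Ic j θ ψ) : {v : Pr M | ψ v.asIdeal = 0}.Finite := by
  obtain ⟨W, o, hW⟩ := G.opn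
  obtain ⟨N, N0, hN⟩ := P022E.GW.Fx2.fin_ram W o
  refine (over_fin N0).subset fun v z => by_contra fun m => ?_
  obtain ⟨l, P, ov, e⟩ := ex_ab j v
  obtain ⟨i, a, b, c⟩ := (k.zero G ov).1 (e ▸ z)
  exact c (hW i a (hN P ov.2.1 (fun d => m (e.le ((H651.natCast_mem_below j).2 d))) i b))

theorem zero_iff (k : Ic j θ ψ) {I : Ideal (𝓞 M)} (h : I ≠ ⊥) :
    ψ I = 0 ↔ ∃ v : Pr M, I ≤ v.asIdeal ∧ ψ v.asIdeal = 0 := by
  refine ⟨ind (p := fun I => ψ I = 0 → ∃ v : Pr M, I ≤ v.asIdeal ∧ ψ v.asIdeal = 0)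
    (fun z => absurd (k.cm.one ▸ z) one_ne_zero) (fun v I _ ih z => ?_) h, fun ⟨v, a, b⟩ => ?_⟩
  · rw [k.cm.mul, mul_eq_zero] at z
    exact z.elim (fun z => ⟨v, Ideal.mul_le_left, z⟩) fun z =>
      (ih z).imp fun w p => ⟨Ideal.mul_le_right.trans p.1, p.2⟩
  · obtain ⟨C, rfl⟩ := Ideal.dvd_iff_le.2 a
    rw [k.cm.mul, b, zero_mul]

theorem prod_le {T : Finset (Pr M)} {a : ℕ} {w : Pr M}
    (h : ∏ v ∈ T, v.asIdeal ^ a ≤ w.asIdeal) : w ∈ T := by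
  obtain ⟨v, m, d⟩ := (w.prime.dvd_finsetProd_iff _).1 (Ideal.dvd_iff_le.2 h)
  rwa [HeightOneSpectrum.ext (v.isMaximal.eq_of_le w.isPrime.ne_top
    (Ideal.dvd_iff_le.1 (w.prime.dvd_of_dvd_pow d))).symm]

theorem nm2 : ‖(2 : ℂ_[3])‖ = 1 := by
  rw [show (2 : ℂ_[3]) = 3 + -1 by norm_num, IsUltrametricDist.norm_add_eq_max_of_norm_ne_norm
    (by rw [Cm.nm_two, norm_neg, norm_one]; norm_num), Cm.nm_two, norm_neg, norm_one]
  norm_num

end Pri

open Pri in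
/-- **row QCX** -/
theorem qcx : QCX := by
  intro K _ _ ι J Ω B M N _ _ _ _ _ _ j j' θ ψ e _ G hk k
  have im : IsEmpty (M →+* ℝ) := ⟨fun φ => B.im.false (φ.comp (algebraMap K M))⟩
  refine ⟨k.le G, fun p m => ?_, ?_⟩
  · obtain ⟨l, P, o, rfl⟩ : ∃ l P, Ov l P ∧ below j P = p := ex_ab j (mx m)
    refine k.gp G e hk o fun ⟨t, t1, t2, t3⟩ g a => (sq_eq_one_iff.1 (G.pow g a)).elim
      (fun z => ⟨1, one_mem _, fun x => by simp, G.one.trans z.symm⟩) fun z =>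
      ⟨t, t1, t2, ((sq_eq_one_iff.1 (G.pow t t1)).resolve_left t3).trans z.symm⟩
  obtain ⟨a, a0, ha⟩ := ex_pow (c := ((2 : ℕ) : 𝓞 M) ^ 2) (by norm_num)
  obtain ⟨T, hT⟩ : ∃ T : Finset (Pr M), ∀ v, v ∈ T ↔ ψ v.asIdeal = 0 ∧ Pv ι J v.asIdeal :=
    ⟨(fin G k).toFinset.filter fun v => Pv ι J v.asIdeal, fun v => by simp⟩
  obtain ⟨U, hU⟩ : ∃ U : Finset (Pr M), ∀ v, v ∈ U ↔ ψ v.asIdeal = 0 ∧ ¬ Pv ι J v.asIdeal :=
    ⟨(fin G k).toFinset.filter fun v => ¬ Pv ι J v.asIdeal, fun v => by simp⟩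
  have n0 : ∀ (T : Finset (Pr M)) (a : ℕ), ∏ v ∈ T, v.asIdeal ^ a ≠ ⊥ := fun T a =>
    Finset.prod_ne_zero_iff.2 fun v _ => pow_ne_zero _ v.ne_bot
  have le : ∀ (T : Finset (Pr M)) (a : ℕ), ∀ v ∈ T, ∏ v ∈ T, v.asIdeal ^ a ≤ v.asIdeal ^ a :=
    fun T a v m => Ideal.dvd_iff_le.1 (Finset.dvd_prod_of_mem _ m)
  have z : ∀ v : Pr M, (∏ v ∈ T, v.asIdeal ^ a) * ∏ v ∈ U, v.asIdeal ^ 1 ≤ v.asIdeal ↔
      ψ v.asIdeal = 0 := fun v => ⟨fun h => (v.isPrime.mul_le.1 h).elim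
        (fun h => ((hT v).1 (prod_le h)).1) fun h => ((hU v).1 (prod_le h)).1, fun h =>
      (em (Pv ι J v.asIdeal)).elim (fun p => Ideal.mul_le_left.trans
        ((le T a v ((hT v).2 ⟨h, p⟩)).trans (Ideal.pow_le_self a0.ne'))) fun p =>
      Ideal.mul_le_right.trans ((le U 1 v ((hU v).2 ⟨h, p⟩)).trans (pow_one _).le)⟩
  refine ⟨∏ v ∈ T, v.asIdeal ^ a, ∏ v ∈ U, v.asIdeal ^ 1, pv_prod _ _ fun v m => ?_,
    ⟨⟨k.cm.one, k.cm.mul, fun I => ?_, fun x x0 h => ?_⟩, n0 U 1, fun P m d => ?_,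
      fun P F' m d => ?_, 0, fun x _ => ?_⟩, ?_⟩
  · simpa using pv_prod (Finset.range a) (fun _ => v.asIdeal) fun _ _ => ((hT v).1 m).2
  · by_cases b : I = ⊥
    · simp [b, k.bot]
    rw [zero_iff k b, or_iff_right b]
    refine ⟨fun ⟨v, p, q⟩ c => v.isPrime.ne_top (top_unique (c ▸ sup_le p ((z v).2 q))), fun c => ?_⟩
    obtain ⟨m, hm, l⟩ := Ideal.exists_le_maximal _ c
    exact ⟨mx hm, le_sup_left.trans l, (z (mx hm)).1 (le_sup_right.trans l)⟩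
  · rw [pow_zero]
    refine k.law G x0 fun v l P o b r => ?_
    have q : ψ v.asIdeal = 0 := b ▸ k.ram l P o r
    by_cases p : Pv ι J v.asIdeal
    · exact val_lt' (le T a v ((hT v).2 ⟨q, p⟩) (Ideal.mul_le_left h)) (ha v)
    · refine val_lt' (le U 1 v ((hU v).2 ⟨q, p⟩) (Ideal.mul_le_right h)) fun t => p ⟨2, ?_, ?_⟩
      · rw [RingOfIntegers.coe_eq_algebraMap, map_ofNat, map_ofNat, map_ofNat, nm2]
      · rw [map_ofNat]
        exact_mod_cast v.isPrime.mem_of_pow_mem 2 (pow_one v.asIdeal ▸ t)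
  · exact ⟨m, ((hU _).1 (prod_le (w := mx m) (Ideal.dvd_iff_le.1 d))).2⟩
  · have w : mx m ∈ U := prod_le (d.le.trans Ideal.mul_le_left)
    simp only [pow_zero]
    refine pri M j θ 2 ψ im G k P _ m ((hU _).1 w).1 (mul_ne_zero (n0 T a)
      (right_ne_zero_of_mul (d ▸ n0 U 1 : P * F' ≠ 0))) (sup_comm P _ ▸ m.out.2 _
        (left_lt_sup.2 fun t => (m.isPrime.mul_le.1 t).elim (fun t => ((hU _).1 w).2
          ((hT _).1 (prod_le (w := mx m) t)).2) fun t => ?_))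
    rw [← Finset.mul_prod_erase _ _ w, pow_one] at d
    exact Finset.notMem_erase _ _ (prod_le (w := mx m)
      ((mul_left_cancel₀ (mx m).ne_bot d).le.trans t))
  · simpa using val G k (Ideal.span {x})
  · rw [Tp.cf, show {w : Ideal (𝓞 M) | Av ι J w ∧ ψ w = 0} = (fun v : Pr M => v.asIdeal) '' U from
      Set.ext fun w => ⟨fun h => ⟨mx h.1.1, (hU _).2 ⟨h.2, h.1.2⟩, rfl⟩, fun ⟨v, m, h⟩ =>
        h ▸ ⟨⟨v.isMaximal, ((hU v).1 m).2⟩, ((hU v).1 m).1⟩⟩,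
      finprod_mem_image fun _ _ _ _ => HeightOneSpectrum.ext, finprod_mem_coe_finset]
    simp

end Vale.Agent.P014Y.C.Al
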