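import Vale.Agent.P014Y.Tp.Defs
import Vale.Agent.P014Y.C.Al.Dis0
import Vale.Agent.P014Y.C.Al.Gbx
import Vale.Agent.P014Y.C.Al.Hc
import Vale.Agent.P014Y.C.As.Val
import Vale.Agent.P004C.Al.Icx
import Vale.Agent.P004C.Al.Dis

/-!
# P014 Y, block AL: the discriminant at `v` in unramified and in quadratic steps
-/

set_option linter.all false

open NumberField Module Ideal
open scoped Classical Pointwise

noncomputable section

namespace Vale.Agent.P014Y.C.Al.Ds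

open Vale.Agent.P022 Vale.Agent.P022K Vale.Agent.P022.H916
open Vale.Agent.P027M.S (Inert)
open Vale.Agent.P022E.GW (Ov)
open Vale.Agent.P004C.Al (Gc Ic Rm)
open Vale.Agent.P004C.Al.Rc (bl mx ex_ov ram_deg unr_deg below_dw ex_fri)
open Gx Tp

variable {K : Type} [Field K] [NumberField K] {ι : ℂ →+* ℂ_[3]} {J : K →+* ℂ} {Ω : ℝ}
  {M : Type} [Field M] [NumberField M] [Algebra K M]

/-- the norm of a generator of a prime above `v` -/
theorem nm_gen (B : Base ι J Ω) {P : Ideal (𝓞 M)} (hA : Av ι J P) {g : 𝓞 M} (G : Gn ι J P g) :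
    ‖ι (J (Algebra.norm K (g : M)))‖ = ‖(absNorm P : ℂ_[3])‖ := by
  obtain ⟨⟨π, p1, p2⟩, v2, -⟩ := As.val K ι J Ω B
  obtain ⟨m, m0, hm⟩ := ex_pow (𝓞 M)
  obtain ⟨x, e⟩ := hm P (mx hA.1).ne_bot
  have pm : algebraMap (𝓞 K) (𝓞 M) π ∈ P := by
    have := hA.1
    by_contra c
    obtain ⟨u, b, hb, r⟩ := (inferInstance :
      (P.comap (algebraMap (𝓞 K) (𝓞 M))).IsMaximal).exists_inv c
    refine hA.2 ⟨b, not_vv.1 fun w => ?_, hb⟩
    exact (ne_top_iff_one _).1 vv_prime.ne_top (r ▸ add_mem (mul_mem_left _ _ p1) w)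
  have d : RingOfIntegers.norm K x ∣ π ^ (finrank K M * m) := by
    rw [pow_mul, ← RingOfIntegers.norm_algebraMap, ← map_pow]
    exact map_dvd _ (mem_span_singleton.1 (e ▸ pow_mem_pow pm m))
  have c := (v2 (RingOfIntegers.norm K x) fun s hs =>
    (p2 s hs).pow_left.of_isCoprime_of_dvd_left d).1
  rw [RingOfIntegers.coe_norm] at c
  have e1 : ‖J (Algebra.norm K (x : M))‖ ^ 2 = (absNorm P : ℝ) ^ m := by
    rw [norm_J B.two B.im, Algebra.norm_norm, ← Nat.cast_pow, ← map_pow, e,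
      absNorm_span_singleton, ← Algebra.coe_norm_int, Nat.cast_natAbs]
    simp
  have e2 : ‖(absNorm P : ℂ_[3])‖ ^ m = ‖ι (J (Algebra.norm K (x : M)))‖ := by
    have := congrArg (fun z => ‖ι z‖) (Complex.mul_conj' (J (Algebra.norm K (x : M))))
    rw [← Complex.ofReal_pow, e1] at this
    simpa [c] using this.symm
  have G' : Gn ι J (P ^ m) x := gn_of (L := ⊤) (by rw [e, mul_top]) ⟨1, by simp, trivial⟩
  refine (pow_left_inj₀ (norm_nonneg _) (norm_nonneg _) m0).1 ?_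
  rw [e2, G'.eq (G.pow m)]
  simp

theorem gn_prod (B : Base ι J Ω) (T : Finset (Ideal (𝓞 M))) (h : ∀ P ∈ T, Av ι J P) :
    ∃ g, Gn ι J (∏ P ∈ T, P) g ∧
      ‖ι (J (Algebra.norm K (g : M)))‖ = ∏ P ∈ T, ‖(absNorm P : ℂ_[3])‖ := by
  induction T using Finset.induction_on with
  | empty => exact ⟨1, gn_one, by simp⟩
  | insert P T n ih =>
    obtain ⟨g, a, b⟩ := ih fun Q m => h Q (Finset.mem_insert_of_mem m)
    have p := h P (Finset.mem_insert_self _ _)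
    obtain ⟨g', -, c⟩ := gn_ex (ι := ι) (J := J) (mx p.1).ne_bot
    refine ⟨g' * g, by rw [Finset.prod_insert n]; exact c.mul a, ?_⟩
    rw [Finset.prod_insert n, ← b, ← nm_gen B p c]
    simp

theorem Gn.loc {I L : Ideal (𝓞 M)} {g g' : 𝓞 M} (h : Gn ι J I g) (h' : Gn ι J (I * L) g')
    (p : Pv ι J L) : ‖ι (J (Algebra.norm K (g' : M)))‖ = ‖ι (J (Algebra.norm K (g : M)))‖ := by
  obtain ⟨s, a, c⟩ := p
  refine (h.le (mul_le_left h'.1)).antisymm ?_
  simpa [coe_s, Algebra.norm_algebraMap, a] using h'.le (mul_mem_mul h.1 c)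

variable {N : Type} [Field N] [NumberField N] [Algebra K N] [Algebra M N] [IsScalarTower K M N]

theorem av_under {Q : Ideal (𝓞 N)} (q : Q.IsMaximal) : Av ι J (Q.under (𝓞 M)) ↔ Av ι J Q := by
  have : (Q.under (𝓞 M)).IsMaximal := inferInstance
  refine (and_iff_right this).trans ((not_congr (exists_congr fun s => and_congr_right fun _ =>
    ?_)).trans (and_iff_right q).symm)
  rw [under_def, mem_comap, ← IsScalarTower.algebraMap_apply]

theorem av_three {Q : Ideal (𝓞 M)} (h : Av ι J Q) : (3 : 𝓞 M) ∈ Q := by_contra fun k =>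
  h.2 (pv_two (h.1.out.2 _ (left_lt_sup.2 (mt (span_singleton_le_iff_mem _).1 k))))

variable {j : M →+* Qb} {j' : N →+* Qb} {θ : GQ → ℂ} {ψ : Ideal (𝓞 M) → ℂ}

/-- the primes of a quadratic extension -/
theorem quad (e : ∀ x, j' (algebraMap M N x) = j x) (r : finrank M N = 2) (h : Gc j θ 2)
    (hk : ∀ g, g ∈ GK j' ↔ g ∈ GK j ∧ θ g = 1) (k : Ic j θ ψ) {Q : Ideal (𝓞 N)} (q : Q.IsMaximal) :
    (Q ∣ differentIdeal (𝓞 M) (𝓞 N) ↔ ψ (Q.under (𝓞 M)) = 0) ∧ (ψ (Q.under (𝓞 M)) = 0 →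
      (Q.under (𝓞 M)).map (algebraMap (𝓞 M) (𝓞 N)) = Q ^ 2 ∧ absNorm (Q.under (𝓞 M)) = absNorm Q) := by
  obtain ⟨P, hP, rfl⟩ := exists_above j' Q q.isPrime
  obtain ⟨l, o⟩ := ex_ov (v := mx q) hP rfl
  have hk' : ∀ g : GK j, h.hom g = 1 ↔ g.1 ∈ GK j' := fun g => by
    rw [h.eq_one, hk, and_iff_right g.2]
  rw [← below_dw e, k.zero h o, dvd_differentIdeal_iff, ← ramificationIdx_eq_one_iff]
  have a : Rm j θ P → (below j' P).ramificationIdx (𝓞 M) = 2 := fun ⟨t, t1, t2, t3⟩ =>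
    r ▸ (ram_deg (v := bl j o) e hk' hP rfl fun g => (sq_eq_one_iff.1 (h.pow g g.2)).elim
      (fun z => ⟨1, fun x => by simp, Units.ext (h.one.trans z.symm)⟩) fun z => ⟨⟨t, t1⟩, t2,
        Units.ext (((sq_eq_one_iff.1 (h.pow t t1)).resolve_left t3).trans z.symm)⟩).2
  refine ⟨⟨fun n => by_contra fun u => n ?_, fun u => by rw [a u]; decide⟩, fun u => ?_⟩
  · obtain ⟨g, hg⟩ := ex_fri (v := bl j o) hP rfl
    exact (unr_deg e hk' (fun g m => h.eq_one.2 (by_contra fun z => u ⟨g, g.2, m, z⟩)) hg).2.1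
  have lo : (below j' P).LiesOver (below j P) := ⟨below_dw e P⟩
  have w0 : below j P ≠ ⊥ := (bl j o).ne_bot
  have n0 : (below j P).map (algebraMap (𝓞 M) (𝓞 N)) ≠ ⊥ :=
    (map_eq_bot_iff_of_injective (FaithfulSMul.algebraMap_injective _ _)).not.2 w0
  have a2 := a u
  rw [IsDedekindDomain.ramificationIdx_eq_multiplicity (below j P) _ n0] at a2
  obtain ⟨L, hL⟩ : below j' P ^ 2 ∣ _ := a2 ▸ pow_multiplicity_dvd _ _
  have n1 := congrArg absNorm hL
  rw [absNorm_algebraMap, show finrank (𝓞 M) (𝓞 N) = 2 from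
    (IsFractionRing.finrank_eq (𝓞 M) M (𝓞 N) N).symm.trans r, map_mul, map_pow] at n1
  have n2 : absNorm (below j P) ∣ absNorm (below j' P) := by
    rw [absNorm_apply, absNorm_apply, Submodule.cardQuot_apply, Submodule.cardQuot_apply]
    exact AddSubgroup.card_dvd_of_injective (algebraMap (𝓞 M ⧸ below j P) (𝓞 N ⧸ below j' P))
      (FaithfulSMul.algebraMap_injective _ _)
  have n3 : absNorm (below j P) = absNorm (below j' P) :=
    Nat.dvd_antisymm n2 ((Nat.pow_dvd_pow_iff two_ne_zero).1 ⟨_, n1⟩)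
  refine ⟨?_, n3⟩
  rw [n3, left_eq_mul₀ (pow_ne_zero _ (mt absNorm_eq_zero_iff.1
    (show below j' P ≠ ⊥ from (mx q).ne_bot))),
    absNorm_eq_one_iff] at n1
  rw [hL, n1, mul_top]

/-- **quadratic steps** -/
theorem ds3 (B : Base ι J Ω) (e : ∀ x, j' (algebraMap M N x) = j x) (r : finrank M N = 2)
    (h : Gc j θ 2) (hk : ∀ g, g ∈ GK j' ↔ g ∈ GK j ∧ θ g = 1) (k : Ic j θ ψ) {n n' : ℕ}
    {b : Basis (Fin n) K M} {b' : Basis (Fin n') K N} (hb : Vb ι J b) (hb' : Vb ι J b') :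
    dv ι J b' = dv ι J b ^ 2 * cf ι J ψ := by
  have d0 : differentIdeal (𝓞 M) (𝓞 N) ≠ ⊥ := differentIdeal_ne_bot
  have fin : {Q : Ideal (𝓞 N) | Av ι J Q ∧ Q ∣ differentIdeal (𝓞 M) (𝓞 N)}.Finite :=
    Set.Finite.subset (s := {Q | Q ∣ differentIdeal (𝓞 M) (𝓞 N)})
      (UniqueFactorizationMonoid.fintypeSubtypeDvd _ d0).finite fun _ a => a.2
  have m : ∀ {Q}, Q ∈ fin.toFinset ↔ Av ι J Q ∧ Q ∣ differentIdeal (𝓞 M) (𝓞 N) := fin.mem_toFinset
  obtain ⟨g, g1, g2⟩ := gn_prod B fin.toFinset fun Q a => (m.1 a).1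
  obtain ⟨g', g3, g4⟩ := dg_ex (ι := ι) (J := J) (M := M) (N := N)
  obtain ⟨L, hL⟩ : ∏ Q ∈ fin.toFinset, Q ∣ differentIdeal (𝓞 M) (𝓞 N) :=
    Finset.prod_dvd_of_coprime (fun Q a Q' a' c => (m.1 a).1.1.coprime_of_ne (m.1 a').1.1 c |>
      isCoprime_iff_sup_eq.2) fun Q a => (m.1 a).2
  have pv : Pv ι J L := pv_of fun Q p le c => by
    have L0 : L ≠ ⊥ := right_ne_zero_of_mul (hL ▸ d0)
    have q : Q.IsMaximal := p.isMaximal fun z => L0 (eq_bot_iff.2 (z ▸ le))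
    have a : Av ι J Q := ⟨q, fun ⟨s, s1, s2⟩ => not_vv.2 s1 (c.le s2)⟩
    have d : Q ∣ differentIdeal (𝓞 M) (𝓞 N) := hL ▸ (dvd_iff_le.2 le).mul_left _
    obtain ⟨q1, q2⟩ := quad e r h hk k q
    refine not_dvd_differentIdeal_of_intTrace_not_mem (𝓞 M) (Q ^ 2) ⊤
      ((mul_top _).trans (q2 (q1.1 d)).1.symm) 1 trivial (fun t => ?_)
      (hL ▸ sq Q ▸ mul_dvd_mul (Finset.dvd_prod_of_mem _ (m.2 ⟨a, d⟩)) (dvd_iff_le.2 le))
    have t2 : Algebra.intTrace (𝓞 M) (𝓞 N) 1 = 2 := RingOfIntegers.ext (by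
      rw [RingOfIntegers.coe_eq_algebraMap, Algebra.algebraMap_intTrace (L := N), map_one,
        ← map_one (algebraMap M N), Algebra.trace_algebraMap, r]
      simp
      rfl)
    have a' := (av_under (M := M) q).2 a
    have := sub_mem (av_three a') (t2 ▸ t)
    exact a'.1.ne_top ((eq_top_iff_one _).2 (by convert this using 1; norm_num))
  rw [dv_tower hb hb' g4, r, mul_comm, g1.loc (hL ▸ g3) pv, g2, cf, ← finprod_mem_eq_finite_toFinset_prod]
  congr 1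
  refine finprod_mem_eq_of_bijOn (fun Q => Q.under (𝓞 M)) ⟨fun Q a => ⟨(av_under a.1.1).2 a.1,
    (quad e r h hk k a.1.1).1.1 a.2⟩, fun Q a Q' a' c => ?_, fun w a => ?_⟩ fun Q a => ?_
  · have q := quad e r h hk k a.1.1
    have q' := quad e r h hk k a'.1.1
    have z : Q ^ 2 = Q' ^ 2 := by
      rw [← (q.2 (q.1.1 a.2)).1, ← (q'.2 (q'.1.1 a'.2)).1]
      exact congrArg _ c
    have := a'.1.1.isPrime
    exact a.1.1.eq_of_le a'.1.1.ne_top (IsPrime.le_of_pow_le (z.le.trans (pow_le_self two_ne_zero)))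
  · have := a.1.1
    obtain ⟨Q, q1, q2⟩ := exists_maximal_ideal_liesOver_of_isIntegral (S := 𝓞 N) w
    obtain rfl := q2.over
    exact ⟨Q, ⟨(av_under q1).1 a.1, (quad e r h hk k q1).1.2 a.2⟩, rfl⟩
  · have q := quad e r h hk k a.1.1
    rw [(q.2 (q.1.1 a.2)).2]

/-- **steps which are unramified at `v`** -/
theorem dis (j' : N →+* Qb) (h : ∀ P, Ab ι J (j'.comp (algebraMap K N)) P →
    ∀ g ∈ GK (j'.comp (algebraMap M N)), Inert P g → g ∈ GK j') {n n' : ℕ}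
    {b : Basis (Fin n) K M} {b' : Basis (Fin n') K N} (hb : Vb ι J b) (hb' : Vb ι J b') :
    dv ι J b' = dv ι J b ^ finrank M N := by
  have un : ∀ (Q : Ideal (𝓞 N)) [Q.IsPrime], Q.comap (algebraMap (𝓞 K) (𝓞 N)) = vv ι J →
      Algebra.IsUnramifiedAt (𝓞 M) Q := fun Q hQ e => by
    have t : (3 : 𝓞 N) ∈ Q := map_ofNat (algebraMap (𝓞 K) (𝓞 N)) 3 ▸ e.ge two_vv
    obtain ⟨P, hP, rfl⟩ := exists_above j' Q hQ
    refine P004C.Al.Di.unr j' hP (fun k => by simp [k] at t) fun g hg => h _ ⟨⟨Nat.prime_three,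
      inferInstance, ?_⟩, fun x => ?_⟩
    · rw [mem_pointwise_smul_iff_inv_smul_mem, show g⁻¹ • ((3 : ℕ) : 𝓞 Qb) = (3 : ℕ) from
        map_natCast (MulSemiringAction.toRingHom _ _ g⁻¹) 3]
      exact (P004R.Gl.mem_below 3).1 t
    · rw [← mem_vv, ← e]
      show RingOfIntegers.mapRingHom _ x ∈ g • P ↔
        RingOfIntegers.mapRingHom j' (algebraMap (𝓞 K) (𝓞 N) x) ∈ P
      rw [mem_pointwise_smul_iff_inv_smul_mem]
      refine iff_of_eq (congrArg (· ∈ P) (RingOfIntegers.ext ?_))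
      have := inv_mem hg (algebraMap K M x)
      rw [RingHom.comp_apply, ← IsScalarTower.algebraMap_apply] at this
      exact this
  obtain ⟨s, a, c⟩ : Pv ι J (differentIdeal (𝓞 M) (𝓞 N)) := pv_of fun Q hQ le e =>
    dvd_differentIdeal_iff.1 (dvd_iff_le.2 le) (un Q e)
  have g : Gn ι J (differentIdeal (𝓞 M) (𝓞 N)) (algebraMap (𝓞 K) (𝓞 N) s) :=
    ⟨c, s, a, fun x _ => mem_span_singleton.2 (dvd_mul_right _ _)⟩
  rw [dv_tower hb hb' (dg_of (RingOfIntegers.coe_ne_zero_iff.1 (ne_of (M := N) a)) g), coe_s,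
    Algebra.norm_algebraMap]
  simp [a]

end Vale.Agent.P014Y.C.Al.Ds
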