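import Vale.Agent.P014Y.C.Al.St2
import Vale.Agent.P014Y.C.Al.Ds3

/-!
# P014 Y, block AL: steps which are unramified at `v` (row TRC)
-/

set_option linter.all false

open NumberField Module Ideal
open scoped Classical Pointwise

noncomputable section

namespace Vale.Agent.P014Y.C.Al

namespace Ds

open Vale.Agent.P022 Vale.Agent.P022K Vale.Agent.P022.H916
open Vale.Agent.P027M.S (Inert)
open Gx Tp

variable {K : Type} [Field K] [NumberField K] {ι : ℂ →+* ℂ_[3]} {J : K →+* ℂ}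
  {M : Type} [Field M] [NumberField M] [Algebra K M]
  {N : Type} [Field N] [NumberField N] [Algebra K N] [Algebra M N] [IsScalarTower K M N]

theorem unr3 (j' : N →+* Qb) (h : ∀ P, Ab ι J (j'.comp (algebraMap K N)) P →
    ∀ g ∈ GK (j'.comp (algebraMap M N)), Inert P g → g ∈ GK j') (Q : Ideal (𝓞 N)) [hQ : Q.IsPrime]
    (e : Q.comap (algebraMap (𝓞 K) (𝓞 N)) = vv ι J) : Algebra.IsUnramifiedAt (𝓞 M) Q := by
  have t : (3 : 𝓞 N) ∈ Q := map_ofNat (algebraMap (𝓞 K) (𝓞 N)) 3 ▸ e.ge two_vv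
  obtain ⟨P, hP, rfl⟩ := exists_above j' Q hQ
  refine P004C.Al.Di.unr j' hP (fun k => by simp [k] at t) fun g hg => h _ ⟨⟨Nat.prime_three,
    inferInstance, ?_⟩, fun x => ?_⟩
  · rw [mem_pointwise_smul_iff_inv_smul_mem, show g⁻¹ • ((3 : ℕ) : 𝓞 Qb) = (3 : ℕ) from
      map_natCast (MulSemiringAction.toRingHom _ _ g⁻¹) 3]
    exact (P004R.Gl.mem_below 3).1 t
  · rw [← mem_vv, ← e]
    show RingOfIntegers.mapRingHom _ x ∈ g • P ↔
      RingOfIntegers.mapRingHom j' (algebraMap (𝓞 K) (𝓞 N) x) ∈ P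
    rw [mem_pointwise_smul_iff_inv_smul_mem]
    refine iff_of_eq (congrArg (· ∈ P) (RingOfIntegers.ext ?_))
    have := inv_mem hg (algebraMap K M x)
    rw [RingHom.comp_apply, ← IsScalarTower.algebraMap_apply] at this
    exact this

theorem av_vv {Q : Ideal (𝓞 M)} (h : Av ι J Q) : Q.comap (algebraMap (𝓞 K) (𝓞 M)) = vv ι J := by
  have := h.1
  exact (inferInstance : (Q.comap (algebraMap (𝓞 K) (𝓞 M))).IsMaximal).eq_of_le vv_prime.ne_top
    fun s hs => by_contra fun n => h.2 ⟨s, not_vv.1 n, hs⟩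

theorem av_fin : {Q : Ideal (𝓞 M) | Av ι J Q}.Finite :=
  Set.Finite.subset (s := {Q | Q ∣ span {(3 : 𝓞 M)}})
    (UniqueFactorizationMonoid.fintypeSubtypeDvd _ (by simp)).finite
    fun _ a => dvd_span_singleton.2 (av_three a)

/-- the conductor in a step which is unramified at `v` -/
theorem cf_norm (j' : N →+* Qb) (h : ∀ P, Ab ι J (j'.comp (algebraMap K N)) P →
    ∀ g ∈ GK (j'.comp (algebraMap M N)), Inert P g → g ∈ GK j') {ψ : Ideal (𝓞 M) → ℂ}
    (c : P004C.Al.Cm ψ) :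
    cf ι J (fun I : Ideal (𝓞 N) => ψ (relNorm (𝓞 M) I)) = cf ι J ψ ^ finrank M N := by
  have f1 : {w : Ideal (𝓞 M) | Av ι J w ∧ ψ w = 0}.Finite := av_fin.subset fun _ a => a.1
  have f2 : {w : Ideal (𝓞 N) | Av ι J w ∧ ψ (relNorm (𝓞 M) w) = 0}.Finite :=
    av_fin.subset fun _ a => a.1
  have z : ∀ Q : Ideal (𝓞 N), Q.IsMaximal →
      (ψ (relNorm (𝓞 M) Q) = 0 ↔ ψ (Q.under (𝓞 M)) = 0) := fun Q q => by
    rw [P004C.Al.Eu.norm_max, c.pow, pow_eq_zero_iff (inertiaDeg_pos Q (𝓞 M)).ne']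
  rw [cf, cf, finprod_mem_eq_finite_toFinset_prod _ f1, finprod_mem_eq_finite_toFinset_prod _ f2,
    ← Finset.prod_pow, ← Finset.prod_fiberwise_of_maps_to (t := f1.toFinset)
    (g := fun Q => Q.under (𝓞 M)) fun Q a => by
      have a := f2.mem_toFinset.1 a
      exact f1.mem_toFinset.2 ⟨(av_under a.1.1).2 a.1, (z Q a.1.1).1 a.2⟩]
  refine Finset.prod_congr rfl fun w a => ?_
  obtain ⟨a, a0⟩ := f1.mem_toFinset.1 a
  have := a.1
  have := (IsDedekindDomain.primesOver_finite w (𝓞 N)).fintype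
  have mx : ∀ Q : w.primesOver (𝓞 N), Q.1.IsMaximal := fun Q =>
    haveI := Q.2.1
    haveI := Q.2.2
    IsMaximal.of_liesOver_isMaximal Q.1 w
  rw [(IsFractionRing.finrank_eq (𝓞 M) M (𝓞 N) N : finrank M N = _),
    ← sum_ramification_inertia_eq_finrank w (𝓞 N), ← Finset.prod_pow_eq_pow_sum,
    Finset.prod_subtype (p := (· ∈ w.primesOver (𝓞 N))) (F := inferInstance)]
  · refine Finset.prod_congr rfl fun Q _ => ?_
    have := mx Q
    have u := Q.2.2.over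
    have := unr3 j' h Q.1 (av_vv ((av_under (mx Q)).1 (u ▸ a)))
    rw [ramificationIdx_eq_one, one_mul, ← absNorm_relNorm (𝓞 M) (𝓞 N), P004C.Al.Eu.norm_max, ← u,
      map_pow, Nat.cast_pow, norm_pow]
  · intro Q
    rw [Finset.mem_filter, f2.mem_toFinset]
    refine ⟨fun ⟨b, e⟩ => ⟨b.1.1.isPrime, ⟨e.symm⟩⟩, fun b => ?_⟩
    have u := b.2.over
    have q := mx ⟨Q, b⟩
    exact ⟨⟨(av_under q).1 (u ▸ a), (z Q q).2 (u ▸ a0)⟩, u.symm⟩

end Ds

open Gx Ds in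
theorem trc : TRC := fun K M N _ _ _ _ _ _ _ _ _ _ ι J Ω _ j' h => by
  obtain ⟨s, a, c⟩ : Pv ι J (differentIdeal (𝓞 M) (𝓞 N)) := pv_of fun Q hQ le e =>
    dvd_differentIdeal_iff.1 (dvd_iff_le.2 le) (unr3 j' h Q e)
  have g := dg_of (RingOfIntegers.coe_ne_zero_iff.1 (ne_of (M := N) a))
    (⟨c, s, a, fun x _ => mem_span_singleton.2 (dvd_mul_right _ _)⟩ :
      Gn ι J (differentIdeal (𝓞 M) (𝓞 N)) (algebraMap (𝓞 K) (𝓞 N) s))
  have tr : ∀ x : 𝓞 N, (Algebra.intTrace (𝓞 M) (𝓞 N) x : M) = Algebra.trace M N x := fun x => by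
    rw [RingOfIntegers.coe_eq_algebraMap, Algebra.algebraMap_intTrace (L := N)]
  have sm : ∀ (z : K) (x : N), Algebra.trace M N (algebraMap K N z * x) =
      algebraMap K M z * Algebra.trace M N x := fun z x => by
    rw [IsScalarTower.algebraMap_apply K M N, ← Algebra.smul_def, map_smul, smul_eq_mul]
  obtain ⟨s', a', x, c'⟩ : Pv ι J (LinearMap.range (Algebra.intTrace (𝓞 M) (𝓞 N))) := by
    refine pv_of fun p hp le e => ?_
    have t : (3 : 𝓞 M) ∈ p := map_ofNat (algebraMap (𝓞 K) (𝓞 M)) 3 ▸ e.ge two_vv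
    obtain ⟨y, y0, y1, s₀, a₀, y2⟩ := gn_ex (ι := ι) (J := J) (I := p) fun k => by simp [k] at t
    have n0 := RingOfIntegers.coe_ne_zero_iff.2 y0
    have := (g.2 (algebraMap M N (y : M)⁻¹)).1 fun x ⟨s₂, a₂, c₂⟩ => by
      obtain ⟨w, hw⟩ := mem_span_singleton'.1 (y2 _ (le ⟨⟨_, c₂⟩, rfl⟩))
      have hw' : (w : M) * y = algebraMap K M s₀ * Algebra.trace M N (algebraMap K N s₂ * x) :=
        (congrArg (fun z : 𝓞 M => (z : M)) hw).trans (congrArg (algebraMap K M s₀ * ·) (tr _))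
      refine ⟨s₀ * s₂, by simp [a₀, a₂], ?_⟩
      rw [← Algebra.smul_def (y : M)⁻¹ x, map_smul, smul_eq_mul]
      convert w.isIntegral_coe
      rw [sm] at hw'
      show algebraMap K M (s₀ * s₂) * _ = (w : M)
      rw [map_mul]
      field_simp
      linear_combination -hw'
    rw [coe_s, IsScalarTower.algebraMap_apply K M N, ← map_mul, ov_map] at this
    obtain ⟨s₁, a₁, c₁⟩ := this
    refine not_vv.2 (show ‖ι (J (s₁ * s : 𝓞 K))‖ = 1 by simp [a, a₁]) (e.le ?_)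
    convert p.mul_mem_left ⟨_, c₁⟩ y1 using 1
    refine iff_of_eq (congrArg (· ∈ p) (RingOfIntegers.ext ?_))
    show algebraMap K M (s₁ * s) = algebraMap K M s₁ * (algebraMap K M s * (y : M)⁻¹) * y
    rw [map_mul, mul_assoc, inv_mul_cancel_right₀ n0]
  have n := ne_of (M := N) a'
  refine ⟨algebraMap K N (s' : K)⁻¹ * x, ⟨s', a', ?_⟩, ?_⟩
  · rw [map_inv₀, mul_inv_cancel_left₀ n]
    exact x.isIntegral_coe
  · rw [sm, ← tr, c', coe_s, map_inv₀, inv_mul_cancel₀ (ne_of a')]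

end Vale.Agent.P014Y.C.Al
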