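import Vale.Agent.P014Y.C.Al.Alx
import Vale.Agent.P014Y.C.Al.Cor
import Vale.Agent.P014Y.C.Al.AxAll
import Vale.Agent.P014Y.C.Al.Cb3
import Vale.Agent.P014Y.C.Al.Fld
import Vale.Agent.P014Y.C.Al.Pj
import Vale.Agent.P014Y.C.Al.Pq
import Vale.Agent.P014Y.C.Al.Pra
import Vale.Agent.P014Y.C.Al.Hb
import Vale.Agent.P014Y.C.Al.Gal
import Vale.Agent.P014Y.C.Al.Pri
import Vale.Agent.P014Y.C.Al.Prn1
import Vale.Agent.P014Y.C.Al.Jm2
import Vale.Agent.P014Y.C.Al.Tw2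
import Vale.Agent.P014Y.C.Al.Chr
import Vale.Agent.P014Y.C.Al.Trc
import Vale.Agent.P014Y.C.Al.Dic
import Vale.Agent.P014Y.C.Al.Umf
import Vale.Agent.P014Y.C.Al.Smx
import Vale.Agent.P014Y.C.Al.Mea
import Vale.Agent.P014Y.C.Al.Spl
import Vale.Agent.P004C.Al.Icx
import Vale.Agent.P014Y.C.All

/-!
# P014 Y, block AL, closed
-/

set_option linter.all false

namespace Vale.Agent.P014Y.C.Al

/-- **the export for a sign character which is not trivial** -/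
theorem alx : Tp.ALX1 :=
  alx1 (cor gbx cplx mjxx bupx pc (jm' two') (pra pq pj0) (prn Wi.bnd Wi.bndr Wi.lead smx lcm mea spl)
    (cb3 Wi.bndr lcm mea smx) cnt) (hb pq pc rku (mp3 pq pc)) fld (gal trc) (chr qcx) dic gbx
    P004C.Al.icx

end Vale.Agent.P014Y.C.Al
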