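import Vale.Agent.P014Y.C.Al.St2
import Vale.Agent.P014Y.C.Al.Lf

/-!
# P014 Y, block AL: the export from the rows
-/

set_option linter.all false

open NumberField Module

noncomputable section

namespace Vale.Agent.P014Y.C.Al

open Vale.Agent.P022 (Qb GQ GK)
open Vale.Agent.P027M.M (ze)
open P004C.Al (Gc Ic ICX)
open Tp (Ts Lw)

theorem gc_le {L M : Type} [Field L] [NumberField L] [Field M] [NumberField M] {j : L →+* Qb}
    {j' : M →+* Qb} {θ : GQ → ℂ} {n : ℕ} (h : Gc j θ n) (le : ∀ g ∈ GK j', g ∈ GK j) : Gc j' θ n :=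
  ⟨fun g a t b => h.mul g (le g a) t (le t b), h.pos, fun g a => h.pow g (le g a),
    h.opn.imp fun W w => ⟨w.1, fun g a => w.2 g (le g a)⟩⟩

theorem gc_sg {K L : Type} [Field K] [NumberField K] [Field L] [NumberField L] [Algebra K L]
    {ι : ℂ →+* ℂ_[3]} {J : K →+* ℂ} {j : L →+* Qb} {ε : GQ → ZMod 3} {c k : ℕ}
    {e : GQ → ZMod (3 * 3 ^ k)} {S : Finset ℕ} {s : 𝓞 K} (T : Ts ι J j ε c k e S s) :
    Gc j (fun g => ((ε g).valMinAbs : ℂ)) 2 := by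
  have a : ∀ x y : ZMod 3, (x * y).valMinAbs = x.valMinAbs * y.valMinAbs := by decide
  have b : ∀ x : ZMod 3, x ≠ 0 → x.valMinAbs ^ 2 = 1 := by decide
  have d : (1 : ZMod 3).valMinAbs = 1 := by decide
  refine ⟨fun g p t q => by rw [T.mul g p t q, a, Int.cast_mul], two_pos, fun g p => ?_,
    T.opn.imp fun W w => ⟨w.1, fun g p q => by rw [w.2 g p q, d, Int.cast_one]⟩⟩
  exact_mod_cast b _ (T.ne g p)

/-- **the export** -/
theorem alx1 (cor : COR) (hb : HB) (fld : FLD) (gal : GAL) (chr : CHR) (dic : DIC) (gbx : GBX)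
    (icx : ICX) : Tp.ALX1 := by
  intro K L _ _ _ _ _ ι J Ω B j jL P ε c k e S s hL hP hw W T nt n b hb' χ ψ hχ hψ N hN N0 N1 h hh
  obtain ⟨q, _, _, jA, γ, G⟩ := fld K L ι J jL ε c k e S s hw W T nt
  have le : ∀ g ∈ GK (jA.comp (algebraMap q.M q.A)), g ∈ GK jL := fun g a => ((G.gM g).1 a).1
  obtain ⟨η, hη⟩ := (icx q.M _ _ _ (gc_le (Lf.gc W) le)).1
  obtain ⟨ψ', hψ'⟩ := (icx q.M _ _ _ (gc_le (gc_sg T) le)).1
  obtain ⟨b', v'⟩ := (gbx K ι J Ω B q.M).1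
  obtain ⟨g1, g2, g3, g4, g5⟩ := gal K L ι J Ω B jL ε c k e S s q jA γ W T G
  obtain ⟨c1, c2, c3, c4, c5, c6, c7⟩ := chr K L ι J Ω B jL ε c k e S s q jA γ W T G ψ ψ' hψ hψ'
    n b _ b' hb' v'
  have hA : ∀ x, jA (algebraMap K q.A x) = j x := fun x => by
    rw [IsScalarTower.algebraMap_apply K q.M q.A, IsScalarTower.algebraMap_apply K L q.M, G.cL, hL]
  have s0 : s ≠ 0 := fun z => by simpa [z] using T.uni
  obtain ⟨t, ht, t1, t0, hσ⟩ := G.sg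
  subst hN
  have : Finite _ := Nat.finite_of_card_ne_zero N0
  obtain ⟨a, e0, a1, a2⟩ := cor K ι J Ω B q jA g1 _ b' ψ' η v' c1 c2 (g5 η hη) c3 c4 c5 c6 s T.uni
    g2 g3 (Tp.nq (GK j) (GK jL) (S ∪ c.primeFactors) (Tp.ax (3 * 3 ^ k) ε fun g => (e g).val) P)
    (fun m hm => by
      obtain ⟨m, rfl⟩ : ∃ m', m = m' + 1 := ⟨m - 1, by omega⟩
      obtain ⟨κ, hκ⟩ := dic K L q.A ι J Ω B j jL jA P ε c k e S s hL hA hP hw W T G.gA q.σ t ht t1 t0
        hσ m (by omega)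
      exact hb K ι J Ω B q γ k s G.cm G.pw G.pr g4 s0 m (by omega) _ κ hκ N1) h hh
  refine ⟨a, max e0 1, a1, fun e' he lam La => (a2 e' (le_of_max_le_left he) lam La).trans_eq ?_⟩
  rw [mul_mul_mul_comm, ← norm_mul, ← map_mul, Lf.lf (j' := jA.comp (algebraMap q.M q.A)) G.cL W
    G.gM B (gc_sg T) hχ hη hψ hψ' hh (le_of_max_le_right he) La, c7, map_prod, norm_prod,
    Finset.prod_mul_distrib, Finset.prod_const, Lf.card_fa, two_mul (3 ^ k), pow_add]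

end Vale.Agent.P014Y.C.Al
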