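import Vale.Agent.P014Y.C.St
import Vale.Agent.P004C.Al.St

/-!
# P014 Y, block AL: elements and divisors in an ambient field (words and rows)
-/

open NumberField Module IsDedekindDomain
open scoped Classical

noncomputable section

namespace Vale.Agent.P014Y.C.Al

open Vale.Agent.P027M.S (Pr)

export Vale.Agent.P004C.Al (Dv pj dd ua ta IL Ine Ps Ls Mu Jx Kf nm n3 A7)

section abs

variable {X : Type} [CommGroup X]

/-- the cubes of a subgroup -/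
abbrev cb (A : Subgroup X) : Subgroup X := A.map (powMonoidHom 3)

/-- the index of the cubes -/
abbrev ic (A : Subgroup X) : ℕ := (cb A).relIndex A

/-- the valuation at three -/
abbrev v3 (n : ℕ) : ℕ := padicValNat 3 n

/-- a filtration by congruence subgroups -/
structure Fi (F : ℕ → Subgroup X) : Prop where
  le : ∀ m, F (m + 1) ≤ F m
  cb : ∀ m, 2 ≤ m → cb (F m) ≤ F (m + 1)
  rt : ∀ m, ∀ x ∈ F 2, x ^ 3 ∈ F (m + 1) → x ∈ F m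
  sep : ∀ x, (∀ m, x ∈ F m) → x = 1

end abs

section amb

variable {K : Type} [Field K] [NumberField K] (ι : ℂ →+* ℂ_[3]) (J : K →+* ℂ)
  (A : Type) [Field A] [NumberField A] [Algebra K A]

/-- the elements which are `1` modulo `v ^ m` -/
def Um (m : ℕ) : Subgroup Aˣ := Subgroup.closure {x | V1 ι J m (x : A)}

/-- the primes above `v` or above `s` -/
def Ss (s : 𝓞 K) : Set (Pr A) := {P | Av ι J P.asIdeal ∨ algebraMap (𝓞 K) (𝓞 A) s ∈ P.asIdeal}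

/-- the primes above `v` or above one of the `W i` -/
def Sw {L : Type} [Field L] [Algebra L A] {κ : Type} (W : κ → Ideal (𝓞 L)) : Set (Pr A) :=
  {P | Av ι J P.asIdeal ∨ ∃ i, (W i).map (algebraMap (𝓞 L) (𝓞 A)) ≤ P.asIdeal}

variable {A}

/-- the elements of `L` of level `m` -/
def UL (L : Type) [Field L] [Algebra L A] (m : ℕ) : Subgroup Aˣ :=
  Um ι J A m ⊓ (Units.map (algebraMap L A : L →* A)).range

end amb

/-- the size of the leading term -/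
def Dt {K : Type} [Field K] [NumberField K] {L : Type} [Field L] [NumberField L] [Algebra K L]
    (ι : ℂ →+* ℂ_[3]) (J : K →+* ℂ) {n r B : ℕ} (b : Basis (Fin n) K L) (m : ℕ)
    (φ : Fin (r + 1) → L → ZMod (3 ^ B)) (γ : Fin n ⊕ Fin r → L) (R : Finset (Ideal (𝓞 L))) : ℝ :=
  ‖(R.card : ℂ_[3]) * Matrix.det (Matrix.of fun j j' => Sum.elim
    (fun i => ι (J (b.repr ((γ j - 1) / 3 ^ m) i)))
    (fun i : Fin r => ((φ i.succ (γ j)).val : ℂ_[3])) j')‖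

/-- the completion at `v` -/
def KV : Prop := ∀ (K : Type) [Field K] [NumberField K] (ι : ℂ →+* ℂ_[3]) (J : K →+* ℂ) (Ω : ℝ),
  Base ι J Ω → ∃ ρ : K →+* ℚ_[3], ∀ x, ι (J x) = algebraMap ℚ_[3] ℂ_[3] (ρ x)

/-- bases and representatives exist -/
def GBX : Prop := ∀ (K : Type) [Field K] [NumberField K] (ι : ℂ →+* ℂ_[3]) (J : K →+* ℂ) (Ω : ℝ),
  Base ι J Ω → ∀ (L : Type) [Field L] [NumberField L] [Algebra K L],
  (∃ b : Basis (Fin (finrank K L)) K L, Vb ι J b) ∧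
  ∀ (r m : ℕ) (W : Fin (r + 1) → Ideal (𝓞 L)), 2 ≤ m → (∀ i, (W i).IsMaximal ∧ 3 ∉ W i) →
    Function.Injective W → (∃ γ : Fin (finrank K L) ⊕ Fin r → L, Gb ι J W m γ) ∧
      ∀ t : 𝓞 L, t ≠ 0 → 3 ∣ t → ∃ R, Rp ι J W m t R

/-- the filtration -/
def UMF : Prop := ∀ (K : Type) [Field K] [NumberField K] (ι : ℂ →+* ℂ_[3]) (J : K →+* ℂ) (Ω : ℝ),
  Base ι J Ω → ∀ (A : Type) [Field A] [NumberField A] [Algebra K A], Fi (Um ι J A) ∧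
  (∀ m x, 1 ≤ m → (x ∈ Um ι J A m ↔ V1 ι J m (x : A))) ∧
  (∀ m (σ : A ≃ₐ[K] A), (Um ι J A m).map (ua σ) ≤ Um ι J A m) ∧
  ∀ (L : Type) [Field L] [NumberField L] [Algebra K L] [Algebra L A] [IsScalarTower K L A],
    (∀ x : L, Vi ι J (algebraMap L A x) ↔ Vi ι J x) ∧
    ∀ m i, 1 ≤ m → (UL ι J L (m + i) : Subgroup Aˣ).relIndex (UL ι J L m) = 3 ^ (finrank K L * i)

/-- divisors: equivariance, norms, finiteness -/
def DVF : Prop := ∀ (K : Type) [Field K] [NumberField K] (ι : ℂ →+* ℂ_[3]) (J : K →+* ℂ) (Ω : ℝ),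
  Base ι J Ω → ∀ (A : Type) [Field A] [NumberField A] [Algebra K A],
  (∀ (σ : A ≃ₐ[K] A) x, dd ∅ (ua σ x) = ta σ (dd ∅ x)) ∧
  (∀ (σ : A ≃ₐ[K] A) s p, pj (Ss ι J A s) (ta σ p) = ta σ (pj (Ss ι J A s) p)) ∧
  ∀ (L : Type) [Field L] [NumberField L] [Algebra K L] [Algebra L A] [IsScalarTower K L A],
    (∀ x : Lˣ, dd ∅ (Units.map (algebraMap L A : L →* A) x) ∈ IL L (∅ : Set (Pr A))) ∧
    (∀ σ : A ≃ₐ[K] A, (∀ x : L, σ (algebraMap L A x) = algebraMap L A x) →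
      (∀ p ∈ IL L (∅ : Set (Pr A)), ta σ p = p) ∧ ∀ (κ : Type) (W : κ → Ideal (𝓞 L)) p,
        pj (Sw ι J A W) (ta σ p) = ta σ (pj (Sw ι J A W) p)) ∧
    (∀ σ : A ≃ₐ[K] A, (∀ x : L, ∃ y : L, σ (algebraMap L A x) = algebraMap L A y) →
      (IL L ∅).map (ta σ) ≤ IL L (∅ : Set (Pr A))) ∧
    (∀ s m, s ≠ 0 → 2 ≤ m →
      ((UL ι J L m).map (dd (Ss ι J A s))).relIndex (IL L (Ss ι J A s)) ≠ 0 ∧
      ic (UL ι J L m ⊓ (dd (Ss ι J A s)).ker) ≠ 0) ∧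
    ∀ (L₂ : Type) [Field L₂] [NumberField L₂] [Algebra L L₂] [Algebra L₂ A]
      [IsScalarTower L L₂ A], IL L ∅ ≤ IL L₂ (∅ : Set (Pr A)) ∧
      (∀ (d : ℕ) (σ : A ≃ₐ[K] A) (σ₂ : L₂ ≃ₐ[L] L₂), finrank L L₂ = d → orderOf σ₂ = d →
        (∀ x, algebraMap L₂ A (σ₂ x) = σ (algebraMap L₂ A x)) →
        ∀ p ∈ IL L₂ (∅ : Set (Pr A)), ∏ i ∈ Finset.range d, ta (σ ^ i) p ∈ IL L ∅) ∧
      ∀ T : Set (Ideal (𝓞 L)), T.Finite → (∀ P ∈ T, P.IsMaximal ∧ Ine L₂ P ∧ Pv ι J P) →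
        ∀ S : Set (Pr A), S = {P | Av ι J P.asIdeal ∨ P.asIdeal.under (𝓞 L) ∈ T} →
        IL L₂ (Ss ι J A 1) ⊓ (pj S).ker ≤ IL L (Ss ι J A 1) ∧
        ic (IL L₂ (Ss ι J A 1) ⊓ (pj S).ker) = 3 ^ T.ncard

/-- the leading term is the order of a finite group -/
def DJ : Prop := ∀ (K : Type) [Field K] [NumberField K] (ι : ℂ →+* ℂ_[3]) (J : K →+* ℂ) (Ω : ℝ),
  Base ι J Ω → ∀ (A L : Type) [Field A] [NumberField A] [Field L] [NumberField L] [Algebra K A]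
  [Algebra K L] [Algebra L A] [IsScalarTower K L A] (r B : ℕ) (W : Fin (r + 1) → Ideal (𝓞 L))
  (t : 𝓞 L), (∀ i, (W i).IsMaximal ∧ t ∉ W i) → t ≠ 0 → 3 ∣ t → ∀ m, 2 ≤ m →
  (∀ x : Lˣ, Ev ι J W m 1 1 (x : L) ↔ Units.map (algebraMap L A : L →* A) x ∈
    UL ι J L m ⊓ (dd (Sw ι J A W)).ker) ∧
  ∀ R, Rp ι J W m t R →
  ((UL ι J L m).map (dd (Sw ι J A W))).relIndex (IL L (Sw ι J A W)) = R.card ∧ R.card ≠ 0 ∧
  ∀ (n : ℕ) (b : Basis (Fin n) K L) (φ : Fin (r + 1) → L → ZMod (3 ^ B))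
    (γ : Fin n ⊕ Fin r → L) (a : ℕ) (f : Aˣ → Multiplicative (Fin r → ZMod (3 ^ a))),
    Vb ι J b → (∀ i x y, x ≠ 0 → y ≠ 0 → φ i (x * y) = φ i x + φ i y) → Gb ι J W m γ → a ≤ m →
    a ≤ B → (∀ (x : Lˣ) i, (f (Units.map (algebraMap L A : L →* A) x)).toAdd i =
      (φ i.succ (x : L)).cast) →
    ic (Kf (dd (Sw ι J A W)) f (UL ι J L (m + a))) = 3 ^ (n + r) ∧
    Jx (dd (Sw ι J A W)) f (UL ι J L (m + a)) (IL L (Sw ι J A W)) ≠ 0 ∧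
    (v3 (Jx (dd (Sw ι J A W)) f (UL ι J L (m + a)) (IL L (Sw ι J A W))) < a →
      Dt ι J b m φ γ R =
        (1 / 3) ^ v3 (Jx (dd (Sw ι J A W)) f (UL ι J L (m + a)) (IL L (Sw ι J A W))))

/-- the logarithm -/
def LOG : Prop := ∀ (K : Type) [Field K] [NumberField K] (ι : ℂ →+* ℂ_[3]) (J : K →+* ℂ) (Ω : ℝ),
  Base ι J Ω → ∀ (L : Type) [Field L] [NumberField L] [Algebra K L],
  ∃ ℓ : L → Fin (finrank K L) → ℤ_[3],
    (∀ x y, V1 ι J 2 x → V1 ι J 2 y → ℓ (x * y) = ℓ x + ℓ y) ∧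
    (∀ x m, V1 ι J 2 x → (V1 ι J (m + 2) x ↔ ∀ i, 3 ^ m ∣ ℓ x i)) ∧
    ∀ (y : Fin (finrank K L) → ℤ_[3]) (m : ℕ) (t : 𝓞 L), t ≠ 0 → ∃ x : 𝓞 L, V1 ι J 2 (x : L) ∧
      Ideal.span {x} ⊔ Ideal.span {t} = ⊤ ∧ ∀ i, 3 ^ m ∣ ℓ x i - y i

/-- linear algebra over `ℤ₃` -/
def LIN : Prop := ∀ (a : ℕ) (B : Matrix (Fin a) (Fin (a + 1)) ℤ_[3]), ∃ (r c : ℕ)
  (k μ : Fin r → Fin a → ℤ_[3]) (l u : Fin (r + 1) → Fin (a + 1) → ℤ_[3]),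
  (∀ i, Matrix.vecMul (k i) B = 0) ∧ (∀ i i', μ i ⬝ᵥ k i' = if i = i' then 1 else 0) ∧
  (∀ i, B.mulVec (l i) = 0) ∧ (∀ i i', l i ⬝ᵥ u i' = if i = i' then 1 else 0) ∧
  ∀ y, (∀ i, l i ⬝ᵥ y = 0) → ∃ x, Matrix.vecMul x B = 3 ^ c • y

end Vale.Agent.P014Y.C.Al
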