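import Vale.Agent.P004C.Al.Ext

/-!
# P014 Y, C, block AL: the existence theorem for ray class characters of order a power of three
-/

set_option linter.all false

noncomputable section

namespace Vale.Agent.P014Y.C.Al.Xt

open NumberField IsDedekindDomain
open scoped Pointwise nonZeroDivisors
open Vale.Agent.P022 Vale.Agent.P022.C Vale.Agent.P022.H916 Vale.Agent.P022K Vale.Agent.P022K.Exi
open Vale.Agent.P027M.S (Pr Inert)
open Vale.Agent.P027M.S.Cls (ordv_of)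
open Vale.Agent.P022D.W (dec)
open Vale.Agent.P022D.Sel (ov Big)
open Vale.Agent.P022E.GW (Ov Fb)
open Vale.Agent.P022E.GW.Kc (ex_below nat_mem prime_mem not_ov fin_ord)
open Vale.Agent.P004C.Al.Xt (Al Rc Un al_un triv unit_of fac big ai ai_eq ai_span un_of rc_fr art_map
  ext2 dw dg dg_dvd le_L mem_L bel fr_up inv)

variable {K : Type} [Field K] [NumberField K] {j : K →+* Qb} {N : ℕ} [NeZero N] {Q : Finset ℕ}
  {f : Pr K → ZMod N}

/-- **existence** when the roots of unity are in the field -/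
theorem kum [IsEmpty (K →+* ℝ)] {r : ℕ} (hr : r.Prime) {ζ : Qb} (hζ : IsPrimitiveRoot ζ N)
    (hz : ∀ g : GK j, g.1 ζ = ζ) (hQ : ∀ l : ℕ, l.Prime → l ∣ r * N → l ∉ Q) (hf : Rc Q f) : ∃ b : Kˣ,
      Al Q fun v => Un (ka hζ hz b) v ∧ (ka hζ hz b (fr j v)).toAdd = f v := by
  classical
  obtain ⟨m₀, m₀0, mQ, hf⟩ := hf
  have N0 := NeZero.ne N
  obtain ⟨A₀, a1, a2⟩ := big (K := K) Q
  let A := A₀ ∪ (r * N * m₀).primeFactors
  have hA' : ∀ l ∈ A, l.Prime ∧ l ∉ Q := fun l hl => (Finset.mem_union.1 hl).elim (a1 l) fun h =>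
    have p := Nat.prime_of_mem_primeFactors h
    ⟨p, (p.dvd_mul.1 (Nat.dvd_of_mem_primeFactors h)).elim (hQ l p) (mQ l p)⟩
  have hA : ∀ l ∈ A, l.Prime := fun l hl => (hA' l hl).1
  have h4 : ∀ l : ℕ, l.Prime → l ∣ r * N * m₀ → l ∈ A := fun l hl d =>
    Finset.mem_union_right _ (Nat.mem_primeFactors.2 ⟨hl, d,
      mul_ne_zero (mul_ne_zero hr.ne_zero N0) m₀0⟩)
  have hN : ∀ l : ℕ, l.Prime → l ∣ N → l ∈ A := fun l hl d => h4 l hl ((d.mul_left _).mul_right _)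
  have hB := a2 A Finset.subset_union_left
  obtain ⟨z, rfl⟩ := fixed j hz
  have hz' : IsPrimitiveRoot z N := hζ.of_map_of_injective j.injective
  have a0 : ∏ l ∈ A, l ≠ 0 := Finset.prod_ne_zero_iff.2 fun l hl => (hA l hl).ne_zero
  have fin : (ov K A).Finite := (Ideal.finite_factors (I := Ideal.span {((∏ l ∈ A, l : ℕ) : 𝓞 K)})
    (by simpa only [Ne, Ideal.zero_eq_bot, Ideal.span_singleton_eq_bot, Nat.cast_eq_zero])).subset
    fun v ⟨l, hl, _, k⟩ => Ideal.dvd_span_singleton.2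
      (v.asIdeal.mem_of_dvd (Nat.cast_dvd_cast (Finset.dvd_prod_of_mem _ hl)) k)
  obtain ⟨u, hu, ind⟩ := ex_ind hz' fin.toFinset
  rw [fin.coe_toFinset] at hu
  have up : ∀ a : _ → ℤ, ∏ i, u i ^ a i ∈ ES (ov K A) := fun a =>
    prod_mem fun i _ => zpow_mem (hu i) _
  choose m m0 m1 m2 using fun i => recip (ka hζ hz (u i)) (ka_open hζ hz _)
  have out : ∀ {x} (_ : x ∈ ES (ov K A)) {p P} (_ : Ov p P) (_ : p ∉ A) (g : GK j),
      Inert P g → ka hζ hz x g = 1 := fun {x} hx {p P} hP hp g hg => by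
    obtain ⟨v, hv, k⟩ := ex_below j hP.1.ne_zero hP.2.1 hP.2.2
    have o := not_ov (fun l h => Or.inr (hA l h)) hP.1 hp k
    exact un_out hζ hz hN o (mem_ES.1 hx v o) P hP.2.1 hv g hg
  set M := N * ((∏ l ∈ A, l) * (m₀ * ∏ i, m i)) with hM
  have M0 : M ≠ 0 := mul_ne_zero N0 (mul_ne_zero a0 (mul_ne_zero m₀0
    (Finset.prod_ne_zero_iff.2 fun i _ => m0 i)))
  have dM : ∀ l ∈ A, l * N * N ∣ N * M := fun l hl => by
    rw [mul_comm]
    exact mul_dvd_mul_left _ (by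
      rw [mul_comm]; exact mul_dvd_mul_left _ ((Finset.dvd_prod_of_mem _ hl).mul_right _))
  have hS : ∀ v : Pr K, ((N * M : ℕ) : 𝓞 K) ∈ v.asIdeal ↔ v ∈ ov K A := fun v => by
    refine ⟨fun k => ?_, fun ⟨l, hl, _, k⟩ => v.asIdeal.mem_of_dvd
      (Nat.cast_dvd_cast (((dvd_mul_right _ _).mul_right _).trans (dM l hl))) k⟩
    obtain ⟨l, hl, k'⟩ := prime_mem v
    refine ⟨l, ?_, hl.ne_zero, k'⟩
    have d := dvd_of_mem hl k' k
    simp only [hM, hl.dvd_mul, hl.prime.dvd_finsetProd_iff] at d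
    rcases d with d | d | ⟨p, hp, d⟩ | d | ⟨i, -, d⟩
    · exact hN l hl d
    · exact hN l hl d
    · exact (Nat.prime_dvd_prime_iff_eq hl (hA p hp)).1 d ▸ hp
    · exact h4 l hl (d.mul_left _)
    · obtain ⟨P, hP, g, h1, h2⟩ := m1 i l hl d
      exact by_contra fun k => h2 (out (hu i) hP k g h1)
  choose π π0 π1 π2 using hB
  let ct : (Pr K → ZMod N) → Kˣ →* Multiplicative (ZMod N) := fun h =>
    art fun v => if v ∈ ov K A then 0 else h v
  let Φ : Kˣ →* Multiplicative (_ → ZMod N) := MonoidHom.mk' (fun x => Multiplicative.ofAdd fun i =>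
    (ct (fun v => (ka hζ hz (u i) (fr j v)).toAdd) x).toAdd) fun x y =>
      congrArg Multiplicative.ofAdd (funext fun i => by rw [map_mul]; rfl)
  have sg : ∀ {h : Pr K → ZMod N}, (∀ v ∈ ov K A, h v = 0) → ∀ w hw,
      (art h (Units.mk0 _ (π0 w hw))).toAdd = h w := fun h w hw =>
    art_single (π1 w hw) fun v hv => (em (v ∈ ov K A)).elim (fun k => Or.inr (h v k))
      fun k => Or.inl (π2 w hw v k hv)
  have cπ : ∀ h w hw, (ct h (Units.mk0 _ (π0 w hw))).toAdd = h w :=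
    fun h w hw => (sg (fun v hv => if_pos hv) w hw).trans (if_neg hw)
  have cE : ∀ h, ∀ x ∈ ES (ov K A), ct h x = 1 := fun h x hx =>
    (art_congr (f' := 0) fun v => (em (v ∈ ov K A)).elim (fun k => Or.inr (if_pos k))
      fun k => Or.inl (mem_ES.1 hx v k)).trans (by simp [art])
  have cB : ∀ h (n : ℕ), n ∣ M → (∀ (x : Kˣ) (a : 𝓞 K), (x : K) = a → (n : 𝓞 K) ∣ a - 1 →
      art h x = 1) → Bs K N (N * M) ≤ (ct h).ker := fun h n d k => (Subgroup.closure_le _).2 (by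
    rintro x (⟨y, rfl⟩ | ⟨a, h1, h2⟩)
    · exact (map_pow (ct h) y N).trans (pow_self _)
    · exact (art_congr fun v => (em (v ∈ ov K A)).imp (fun c => unit_of h1 h2 ((hS v).2 c))
        fun c => if_neg c).trans (k x a h1 ((Nat.cast_dvd_cast (d.mul_left _)).trans h2)))
  have lin : ∀ (a : _ → ZMod N) g, (ka hζ hz (∏ i, u i ^ ((a i).val : ℤ)) g).toAdd =
      ∑ i, a i * (ka hζ hz (u i) g).toAdd := fun a g => by
    rw [map_prod, MonoidHom.finsetProd_apply, toAdd_prod]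
    refine Finset.sum_congr rfl fun i _ => ?_
    rw [map_zpow, MonoidHom.zpow_apply, toAdd_zpow, zsmul_eq_mul, Int.cast_natCast,
      ZMod.natCast_zmod_val]
  have hs : Function.Surjective Φ := by
    have := dual (Subgroup.toAddSubgroup' Φ.range) fun a ha => funext fun i => by
      obtain ⟨y, hy⟩ := kill hζ hz hA hN (up fun i => (a i).val) fun w hw =>
        (lin a _).trans ((Finset.sum_congr rfl fun i _ => congrArg _ (cπ _ w hw).symm).trans
          (ha (Φ (Units.mk0 _ (π0 w hw))).toAdd ⟨_, rfl⟩))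
      have := (ZMod.intCast_zmod_eq_zero_iff_dvd _ _).2 (ind _ y hy i)
      rwa [Int.cast_natCast, ZMod.natCast_zmod_val] at this
    exact fun y => (show y.toAdd ∈ Subgroup.toAddSubgroup' Φ.range from this ▸ trivial)
  have hI : ∀ a : _ → ℤ, ∏ i, u i ^ a i ∈ Bs K N (N * M) → ∀ i, (N : ℤ) ∣ a i := fun a ha => by
    obtain ⟨m, -, h1, h2⟩ := recip (ka hζ hz (∏ i, u i ^ a i)) (ka_open hζ hz _)
    obtain rfl : m = 1 := Nat.eq_one_iff_not_exists_prime_dvd.2 fun p hp d => by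
      obtain ⟨P, hP, g, k1, k2⟩ := h1 p hp d
      exact k2 ((em (p ∈ A)).elim (fun k => dec_Bs hζ hz (dM p k) ha hP (GW.Pl.inert_dec k1))
        fun k => out (up a) hP k g k1)
    obtain ⟨y, hy⟩ := kill hζ hz hA hN (up a) fun w hw => by
      refine (sg (h := fun v => (ka hζ hz _ (fr j v)).toAdd) (fun v hv => ?_) w hw).symm.trans ?_
      · obtain ⟨l, hl, -, k⟩ := hv
        obtain ⟨P, hP⟩ := fr_spec (j := j) v
        exact dec_Bs hζ hz (dM l hl) ha ⟨hA l hl, hP.1, (nat_mem j hP.2.1 l).1 k⟩ (fri_dec hP)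
      · obtain ⟨c, d, hd, e⟩ := IsFractionRing.div_surjective (A := 𝓞 K) (π w hw)
        have d0 : (d : K) ≠ 0 := RingOfIntegers.coe_ne_zero_iff.2 (nonZeroDivisors.ne_zero hd)
        have k1 := h2 (Units.mk0 _ (π0 w hw) * Units.mk0 _ d0) c
          (by rw [Units.val_mul, Units.val_mk0, Units.val_mk0, ← e]; exact div_mul_cancel₀ _ d0)
          (by simp)
        rwa [map_mul, h2 (Units.mk0 _ d0) d rfl (by simp), mul_one] at k1
    exact ind a y hy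
  obtain ⟨P₀, hP₀⟩ := GW.Pl.ex_ov hr
  obtain ⟨v₀, -, k₀⟩ := ex_below j hr.ne_zero hP₀.2.1 hP₀.2.2
  obtain ⟨i0, i1⟩ := index_Bs hz' fin.toFinset M0 (fun v => (hS v).trans fin.mem_toFinset.symm)
    ⟨v₀, fin.mem_toFinset.2 ⟨r, h4 r hr ((dvd_mul_right _ _).mul_right _), hr.ne_zero, k₀⟩⟩
  haveI : IsTotallyComplex K := ⟨fun w => InfinitePlace.not_isReal_iff_isComplex.1 fun h =>
    isEmptyElim (InfinitePlace.embedding_of_isReal h)⟩
  have key := squeeze _ u Φ hs (fun x hx => funext fun i => cB _ (m i) ((((Finset.dvd_prod_of_mem m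
    (Finset.mem_univ i)).mul_left _).mul_left _).mul_left _) (m2 i) hx)
    (fun i => funext fun _ => cE _ _ (hu i)) hI i0 (i1.trans_eq (by
      have h1 : Units.rank K + 1 = InfinitePlace.nrComplexPlaces K := by
        rw [Units.rank, Nat.sub_add_cancel Fintype.card_pos,
          InfinitePlace.card_eq_nrRealPlaces_add_nrComplexPlaces,
          IsTotallyComplex.nrRealPlaces_eq_zero, zero_add]
      rw [IsTotallyComplex.finrank, Fintype.card_fin, h1]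
      ring))
  obtain ⟨a, ha⟩ := fac Φ hs (ct f) (key.trans (sup_le (cB f m₀
    (((dvd_mul_right _ _).mul_left _).mul_left _) hf) ((Subgroup.closure_le _).2 (by
      rintro _ ⟨i, rfl⟩
      exact cE f _ (hu i)))))
  exact ⟨_, A, hA', fun w hw => ⟨un_out hζ hz hN hw (mem_ES.1 (up _) w hw), (lin a _).trans
    ((Finset.sum_congr rfl fun i _ => congrArg _ (cπ _ w hw).symm).trans
      ((ha _).symm.trans (cπ f w hw)))⟩⟩

/-- extension of an invariant character from the kernel of a character of prime order -/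
theorem extp {G A : Type} [Group G] [CommGroup A] {p : ℕ} (hp : p.Prime)
    (φ : G →* Multiplicative (ZMod p)) (T : G → A)
    (mul : ∀ g ∈ φ.ker, ∀ g' ∈ φ.ker, T (g * g') = T g * T g')
    (cj : ∀ s, ∀ g ∈ φ.ker, T (s * g * s⁻¹) = T g)
    (rt : ∀ g, ∃ a, a ^ p = T g) : ∃ θ : G →* A, ∀ g ∈ φ.ker, θ g = T g := by
  classical
  haveI := Fact.mk hp
  by_cases e : ∀ g, g ∈ φ.ker
  · exact ⟨.mk' T fun a b => mul a (e a) b (e b), fun _ _ => rfl⟩
  obtain ⟨s₀, hs₀⟩ := not_forall.1 e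
  obtain ⟨s, hs⟩ : ∃ s, (φ s).toAdd = 1 := ⟨s₀ ^ ((φ s₀).toAdd⁻¹).val, by
    rw [map_pow, toAdd_pow, nsmul_eq_mul, ZMod.natCast_zmod_val]
    exact inv_mul_cancel₀ hs₀⟩
  obtain ⟨a, ha⟩ := rt (s ^ p)
  have m : ∀ (n : ℕ) g, (n : ZMod p) = (φ g).toAdd → (s ^ n)⁻¹ * g ∈ φ.ker := fun n g h =>
    Multiplicative.toAdd.injective (by
      rw [map_mul, map_inv, map_pow, toAdd_mul, toAdd_inv, toAdd_pow, hs, nsmul_one, h,
        neg_add_cancel, toAdd_one])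
  have sp : s ^ p ∈ φ.ker := (map_pow φ s p).trans (by
    haveI : NeZero p := ⟨hp.ne_zero⟩
    exact pow_self _)
  have st : ∀ (k n : ℕ) g, (n : ZMod p) = (φ g).toAdd →
      a ^ (n + p * k) * T ((s ^ (n + p * k))⁻¹ * g) = a ^ n * T ((s ^ n)⁻¹ * g) := fun k n g h => by
    induction k with
    | zero => rfl
    | succ k ih =>
      rw [← ih, show (s ^ (n + p * k))⁻¹ * g = s ^ p * ((s ^ (n + p * (k + 1)))⁻¹ * g) by
        rw [mul_add_one, ← add_assoc, pow_add _ _ p]; group, mul _ sp _ (m _ g (by simp [h])), ← ha,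
        mul_add_one, ← add_assoc, pow_add _ _ p, mul_assoc]
  refine ⟨.mk' (fun g => a ^ (φ g).toAdd.val * T ((s ^ (φ g).toAdd.val)⁻¹ * g)) fun g g' => ?_,
    fun g h => ?_⟩
  · have v : ∀ g, (((φ g).toAdd.val : ℕ) : ZMod p) = (φ g).toAdd := fun g => ZMod.natCast_zmod_val _
    have k := st (((φ g).toAdd.val + (φ g').toAdd.val) / p) _ (g * g') (v _)
    rw [map_mul, toAdd_mul, ZMod.val_add, Nat.mod_add_div] at k
    rw [map_mul, toAdd_mul, ZMod.val_add, ← k, pow_add, pow_add, mul_mul_mul_comm,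
      ← cj (s ^ (φ g').toAdd.val)⁻¹ _ (m _ g (v g)),
      ← mul _ (φ.normal_ker.conj_mem _ (m _ g (v g)) _) _ (m _ g' (v g'))]
    congr 2
    group
  · show a ^ _ * T ((s ^ _)⁻¹ * g) = _
    rw [show φ g = 1 from h, toAdd_one, ZMod.val_zero, pow_zero, pow_zero, inv_one, one_mul, one_mul]

section prime

variable {p : ℕ} (hp : p.Prime)

include hp

theorem ex_e {n : ℕ} (hn : N = n * p) : ∃ e : ZMod p →+ ZMod N, Function.Injective e ∧
    ∀ y, p • y = 0 → ∃ x, e x = y := by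
  haveI : NeZero p := ⟨hp.ne_zero⟩
  have n0 : 0 < n := Nat.pos_of_mul_pos_right (hn ▸ NeZero.pos N)
  have z : ∀ k : ℕ, (k : ZMod N) = 0 ↔ n * p ∣ k := fun k => hn ▸ ZMod.natCast_eq_zero_iff _ _
  let e := ZMod.lift p ⟨zmultiplesHom _ (n : ZMod N), by simpa [mul_comm] using (z _).2 dvd_rfl⟩
  have k : ∀ k : ℕ, e k = ((n * k : ℕ) : ZMod N) := fun k => by
    rw [← Int.cast_natCast, ZMod.lift_coe]
    simp [mul_comm]
  refine ⟨e, (injective_iff_map_eq_zero e).2 fun x h => ?_, fun y h => ?_⟩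
  · obtain ⟨x, rfl⟩ := ZMod.natCast_zmod_surjective x
    rw [k, z, Nat.mul_dvd_mul_iff_left n0] at h
    exact (ZMod.natCast_eq_zero_iff _ _).2 h
  · obtain ⟨y, rfl⟩ := ZMod.natCast_zmod_surjective y
    rw [nsmul_eq_mul, ← Nat.cast_mul, z, mul_comm, Nat.mul_dvd_mul_iff_left hp.pos] at h
    obtain ⟨x, rfl⟩ := h
    exact ⟨x, k x⟩

omit hp in
theorem part {n : ℕ} (hn : N = n * p) {y : ZMod N} (h : n • y = 0) : ∃ a, p • a = y := by
  obtain ⟨y, rfl⟩ := ZMod.natCast_zmod_surjective y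
  rw [nsmul_eq_mul, ← Nat.cast_mul, ZMod.natCast_eq_zero_iff, hn,
    Nat.mul_dvd_mul_iff_left (Nat.pos_of_mul_pos_right (hn ▸ NeZero.pos N))] at h
  obtain ⟨x, rfl⟩ := h
  exact ⟨x, by rw [nsmul_eq_mul, Nat.cast_mul]⟩

/-- characters of prime order -/
theorem ord [IsEmpty (K →+* ℝ)] {ζ : Qb} (hζ : IsPrimitiveRoot ζ p) (hz : ∀ g : GK j, g.1 ζ = ζ)
    {e : ZMod p →+ ZMod N} (he : Function.Injective e)
    (he' : ∀ y, p • y = 0 → ∃ x, e x = y) (hQ : p ∉ Q) (hf : Rc Q f)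
    (h : Al Q fun v => p • f v = 0) : ∃ φ : GK j →* Multiplicative (ZMod p), IsOpen {g | φ g = 1} ∧
      Al Q fun v => (∀ P : Ideal (𝓞 Qb), P.IsPrime → below j P = v.asIdeal → ∀ g, InI j P g →
        φ g = 1) ∧ e (φ (fr j v)).toAdd = f v := by
  classical
  haveI : NeZero p := ⟨hp.ne_zero⟩
  choose! r hr using he'
  have k := h.mono fun v a => hr _ a
  obtain ⟨m, m0, q, hm⟩ := hf.congr (k.mono fun v => Eq.symm)
  obtain ⟨b, hb⟩ := kum (j := j) hp hζ hz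
    (f := fun v => r (f v)) (fun l h d => (Nat.prime_dvd_prime_iff_eq h hp).1
      ((h.dvd_mul.1 d).elim id id) ▸ hQ) ⟨m, m0, q, fun x a c d =>
      he ((art_map e x).symm.trans ((hm x a c d).trans (map_zero e).symm))⟩
  exact ⟨_, ka_open _ _ b, (hb.and k).mono fun v a => ⟨a.1.1, by rw [a.1.2, a.2]⟩⟩

theorem ind {ζ : Qb} (hζ : IsPrimitiveRoot ζ p) {C : ℕ} (hN : N = p ^ C * p) (hQ : p ∉ Q) (B : ℕ) :
    B ≤ C + 1 → ∀ (K : Type) [Field K] [NumberField K] [IsEmpty (K →+* ℝ)] (j : K →+* Qb),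
    (∀ g : GK j, g.1 ζ = ζ) → ∀ f : Pr K → ZMod N, Rc Q f →
    (Al Q fun v => p ^ B • f v = 0) → ∃ θ : GK j →* Multiplicative (ZMod N), IsOpen {g | θ g = 1} ∧
      (∀ g, θ g ^ p ^ B = 1) ∧ Al Q fun v => Un θ v ∧ (θ (fr j v)).toAdd = f v := by
  classical
  haveI : NeZero p := ⟨hp.ne_zero⟩
  obtain ⟨e, he, he'⟩ := ex_e hp hN
  induction B with
  | zero => exact fun _ K _ _ _ j _ f _ h =>
      ⟨1, by simp, by simp, h.mono fun v a => ⟨fun _ _ _ _ _ => rfl, by simpa [eq_comm] using a⟩⟩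
  | succ B ih =>
  intro hB K _ _ _ j hz f hf h
  obtain ⟨φ, ho, hφ⟩ := ord hp hζ hz he he' hQ (hf.map (nsmulAddMonoidHom (p ^ B)))
    (h.mono fun v a => by rw [← a, pow_succ' p B, mul_smul]; rfl)
  obtain ⟨L, _, _, _, _, jL, ρ, D, hρ, cy⟩ := exists_cyc j (φ := φ) ho
  haveI : IsEmpty (L →+* ℝ) := ⟨fun ψ => isEmptyElim (ψ.comp (algebraMap K L))⟩
  have mL : ∀ g : GK j, g.1 ∈ GK jL ↔ g ∈ φ.ker := fun g => (mem_L D g).trans (hρ g)
  have z3 : ∀ a : Multiplicative (ZMod p), a ^ p = 1 := pow_self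
  obtain ⟨θ, t0, t1, t2⟩ := ih (by omega) L jL (fun g => hz ⟨g, le_L D g.2⟩) _ hf.up
    (hφ.up.mono fun w a => by
    rw [smul_comm, show p ^ B • f (dw K w) = _ from a.2.symm, ← map_nsmul, ← toAdd_pow,
      ← fr_up D a.1, show φ _ = 1 from (mL _).1 (fr jL w).2]
    exact map_zero e)
  obtain ⟨θ', t3⟩ := extp hp φ
    (fun g => if c : g.1 ∈ GK jL then θ ⟨g, c⟩ else 1) (fun g a g' b => by
      rw [dif_pos ((mL _).2 a), dif_pos ((mL _).2 b), dif_pos ((mL _).2 (mul_mem a b)), ← map_mul]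
      rfl) (fun s g a => by
      rw [dif_pos ((mL _).2 a), dif_pos ((mL _).2 (φ.normal_ker.conj_mem g a s))]
      exact inv D t0 (f := fun v => dg L v • f v) (t2.weak.mono fun _ a => a.2) s _ _ rfl)
    fun g => part hN (by
      split_ifs
      · obtain ⟨n, hn⟩ := pow_dvd_pow p (show B ≤ C by omega)
        exact (show θ _ ^ p ^ C = 1 by rw [hn, pow_mul, t1, one_pow])
      · exact smul_zero _)
  have t4 : ∀ g : GK jL, θ' ⟨g, le_L D g.2⟩ = θ g := fun g =>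
    (t3 _ ((mL _).1 g.2)).trans (dif_pos g.2)
  have o' : IsOpen {g | θ' g = 1} := Subgroup.isOpen_mono (H₁ := (kerQ jL θ).subgroupOf (GK j))
    (H₂ := θ'.ker) (fun g a => (t4 ⟨g, kerQ_le jL θ a⟩).trans ((mem_kerQ jL θ _).1 a))
    ((isOpen_kerQ jL t0).preimage continuous_subtype_val)
  have d2 : Nat.card (L ≃ₐ[K] L) ∣ p := by
    rw [← IsCyclic.exponent_eq_card]
    refine Monoid.exponent_dvd_of_forall_pow_eq_one fun σ => ?_
    obtain ⟨g, rfl⟩ := D.surj σ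
    rw [← map_pow, hρ, map_pow, z3]
  have u' : Al Q (Un θ') := (hφ.and t2.all).mono fun v a P hP hb g hg => by
    obtain ⟨l, hl, k⟩ := prime_mem v
    obtain ⟨w, b, -⟩ := ex_below jL hl.ne_zero hP ((nat_mem j hb l).1 k)
    have m := (mL g).2 (a.1.1 P hP hb g hg)
    exact (t4 ⟨g, m⟩).trans ((a.2 w (HeightOneSpectrum.ext ((bel D b).symm.trans hb))).1
      P hP b _ hg)
  obtain ⟨φ', o2, h2⟩ := ord hp hζ hz he he' hQ (hf.sub (rc_fr o' u'))
    (P004C.Al.Xt.Al.down (L := L) ((t2.and u'.up).mono fun w a => by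
      obtain ⟨n, hn⟩ := (dg_dvd (dw K w)).trans d2
      rw [hn, mul_comm, mul_smul, Pi.sub_apply, smul_sub, ← toAdd_pow, ← fr_up D a.2, t4, a.1.2,
        sub_self, smul_zero]))
  let φ'' := (AddMonoidHom.toMultiplicative e).comp φ'
  refine ⟨θ' * φ'', Subgroup.isOpen_mono (H₁ := θ'.ker ⊓ φ'.ker) (H₂ := (θ' * φ'').ker)
    (fun g a => by simp [φ'', show θ' g = 1 from a.1, show φ' g = 1 from a.2]) (o'.inter o2),
    fun g => ?_, (h2.and u').mono fun v a => ⟨fun P hP hb g hg => by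
      simp [φ'', a.2 P hP hb g hg, a.1.1 P hP hb g hg],
      (congrArg (_ + ·) a.1.2).trans (add_sub_cancel _ _)⟩⟩
  have m := (mL (g ^ p)).2 ((map_pow φ g p).trans (z3 _))
  rw [pow_succ' p B, pow_mul, ← map_pow, MonoidHom.mul_apply, show θ' (g ^ p) = _ from t4 ⟨_, m⟩,
    MonoidHom.comp_apply, map_pow φ', z3, map_one, mul_one, t1]

/-- existence over a field with the roots of unity of order `p` -/
theorem ex_mu [IsEmpty (K →+* ℝ)] {ζ : Qb} (hζ : IsPrimitiveRoot ζ p) (hz : ∀ g : GK j, g.1 ζ = ζ)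
    {C : ℕ} [NeZero (p ^ C)] {f : Pr K → ZMod (p ^ C)} (hQ : p ∉ Q)
    (hf : Rc Q f) : ∃ θ : GK j →* Multiplicative (ZMod (p ^ C)), IsOpen {g | θ g = 1} ∧
      Al Q fun v => Un θ v ∧ (θ (fr j v)).toAdd = f v := by
  cases C with
  | zero =>
    haveI : Subsingleton (ZMod (p ^ 0)) := ZMod.subsingleton_iff.2 rfl
    exact ⟨1, by simp only [MonoidHom.one_apply, Set.setOf_true, isOpen_univ], ∅, by simp, fun v _ => ⟨fun _ _ _ _ _ => rfl, Subsingleton.elim _ _⟩⟩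
  | succ C =>
    obtain ⟨θ, a, -, b⟩ := ind hp hζ (pow_succ p C) hQ _ le_rfl K j hz f hf ⟨∅, by simp, fun v _ =>
      (nsmul_eq_mul _ _).trans (by rw [ZMod.natCast_self, zero_mul])⟩
    exact ⟨θ, a, b⟩

end prime

theorem two_inj {C : ℕ} {a b : Multiplicative (ZMod (3 ^ C))} (h : a ^ 2 = b ^ 2) : a = b := by
  rw [← div_eq_one, ← div_pow] at h
  have := pow_gcd_eq_one.2 ⟨h, pow_self _⟩
  rwa [(Nat.Coprime.pow_right C (by norm_num : Nat.Coprime 2 3)).gcd_eq_one, pow_one,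
    div_eq_one] at this

/-- the character of the third roots of unity -/
theorem ex_cyc (j : K →+* Qb) {ζ : Qb} (hζ : IsPrimitiveRoot ζ 3) :
    ∃ φ : GK j →* Multiplicative (ZMod 2), ∀ g, φ g = 1 ↔ g.1 ζ = ζ := by
  classical
  have z := hζ.pow_eq_one
  have o : ∀ g : GK j, g.1 ζ ≠ ζ → g.1 ζ = ζ ^ 2 := fun g h => by
    obtain ⟨i, hi, e⟩ := hζ.eq_pow_of_pow_eq_one (ξ := g.1 ζ) (by rw [← map_pow, z, map_one])
    interval_cases i
    · exact absurd (g.1.injective (e.symm.trans ((pow_zero ζ).trans (map_one _).symm)))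
        (hζ.ne_one (by norm_num))
    · exact absurd (e.symm.trans (pow_one ζ)) h
    · exact e.symm
  refine ⟨.mk' (fun g => if g.1 ζ = ζ then 1 else Multiplicative.ofAdd 1) fun g g' => ?_,
    fun g => ?_⟩
  · rw [Subgroup.coe_mul, AlgEquiv.mul_apply]
    by_cases h : g.1 ζ = ζ <;> by_cases h' : g'.1 ζ = ζ
    · rw [h', if_pos h, if_pos rfl, mul_one]
    · rw [if_pos h, if_neg h', if_neg fun k => h' (g.1.injective (k.trans h.symm)), one_mul]
    · rw [h', if_neg h, if_pos rfl, mul_one]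
    · rw [if_neg h, if_neg h', if_pos (by
        rw [o g' h', map_pow, o g h, ← pow_mul, show 2 * 2 = 3 + 1 from rfl, pow_succ, z, one_mul])]
      decide
  · show (if g.1 ζ = ζ then 1 else _) = _ ↔ _
    split_ifs with h
    · exact iff_of_true rfl h
    · exact iff_of_false (by decide) h

/-- **the existence theorem** -/
theorem ex_gal [IsEmpty (K →+* ℝ)] (j : K →+* Qb) {C : ℕ} {f : Pr K → ZMod (3 ^ C)} (hQ : 3 ∉ Q)
    (hf : Rc Q f) : ∃ θ : GK j →* Multiplicative (ZMod (3 ^ C)), IsOpen {g | θ g = 1} ∧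
      Al Q fun v => Un θ v ∧ (θ (fr j v)).toAdd = f v := by
  classical
  obtain ⟨ζ, hζ⟩ := HasEnoughRootsOfUnity.exists_primitiveRoot Qb 3
  obtain ⟨φ, hφ⟩ := ex_cyc j hζ
  obtain ⟨L, _, _, _, _, jL, ρ, D, hρ, cy⟩ := exists_cyc j (φ := φ) (by
    rw [show (φ.ker : Set (GK j)) = _ from Set.ext hφ]
    exact (P022E.GW.Kc.stab_open ζ).preimage continuous_subtype_val)
  haveI : IsEmpty (L →+* ℝ) := ⟨fun ψ => isEmptyElim (ψ.comp (algebraMap K L))⟩
  have mL : ∀ g : GK j, g.1 ∈ GK jL ↔ g ∈ φ.ker := fun g => (mem_L D g).trans (hρ g)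
  have z2 : ∀ a b : Multiplicative (ZMod 2), a ≠ 1 → b ≠ 1 → a * b = 1 := by decide
  have z3 : ∀ a : Multiplicative (ZMod 2), a ^ 2 = 1 := by decide
  obtain ⟨θ, t0, t2⟩ := ex_mu (j := jL) Nat.prime_three hζ
    (fun g => (hφ ⟨g, le_L D g.2⟩).1 ((mL _).1 g.2)) hQ hf.up
  obtain ⟨θ', t3⟩ := ext2 φ.ker (fun g a g' b => (map_mul φ g g').trans (z2 _ _ a b))
    (fun g => if c : g.1 ∈ GK jL then θ ⟨g, c⟩ else 1) (fun g a g' b => by
      rw [dif_pos ((mL _).2 a), dif_pos ((mL _).2 b), dif_pos ((mL _).2 (mul_mem a b)), ← map_mul]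
      rfl) (fun s g a => by
      rw [dif_pos ((mL _).2 a), dif_pos ((mL _).2 (φ.normal_ker.conj_mem g a s))]
      exact inv D t0 (f := fun v => dg L v • f v) (t2.weak.mono fun _ a => a.2) s _ _ rfl)
    fun g => (Finite.injective_iff_surjective.1 (fun a b h => two_inj
      ((sq a).trans (h.trans (sq b).symm)) : Function.Injective fun a => a * a) _)
  have t4 : ∀ g : GK jL, θ' ⟨g, le_L D g.2⟩ = θ g := fun g =>
    (t3 _ ((mL _).1 g.2)).trans (dif_pos g.2)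
  have d2 : Nat.card (L ≃ₐ[K] L) ∣ 2 := by
    rw [← IsCyclic.exponent_eq_card]
    refine Monoid.exponent_dvd_of_forall_pow_eq_one fun σ => ?_
    obtain ⟨g, rfl⟩ := D.surj σ
    rw [← map_pow, hρ, map_pow, z3]
  have u' : Al Q (Un θ') := t2.all.mono fun v a P hP hb g hg => two_inj (by
    obtain ⟨l, hl, k⟩ := prime_mem v
    obtain ⟨w, b, -⟩ := ex_below jL hl.ne_zero hP ((nat_mem j hb l).1 k)
    have m := (mL (g ^ 2)).2 ((map_pow φ g 2).trans (z3 _))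
    rw [one_pow, ← map_pow]
    refine (t4 ⟨_, m⟩).trans ((a w (HeightOneSpectrum.ext ((bel D b).symm.trans hb))).1
      P hP b _ fun x => ?_)
    have := P.add_mem (hg (g.1 • x)) (hg x)
    rw [sub_add_sub_cancel, ← mul_smul, ← sq] at this
    exact this)
  refine ⟨θ', Subgroup.isOpen_mono (H₁ := (kerQ jL θ).subgroupOf (GK j))
    (H₂ := θ'.ker) (fun g a => (t4 ⟨g, kerQ_le jL θ a⟩).trans ((mem_kerQ jL θ _).1 a))
    ((isOpen_kerQ jL t0).preimage continuous_subtype_val),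
    u'.and (P004C.Al.Xt.Al.down (L := L) ((t2.and u'.up).mono fun w a => ?_))⟩
  obtain ⟨n, hn⟩ := (dg_dvd (dw K w)).trans d2
  refine congrArg Multiplicative.toAdd (two_inj (b := Multiplicative.ofAdd (f (dw K w))) ?_)
  rw [hn, pow_mul, pow_mul, ← fr_up D a.2, t4, ← ofAdd_nsmul, ← a.1.2, ofAdd_toAdd]

/-- the same for additive functions on the ideals prime to `c` -/
theorem ex_ray [IsEmpty (K →+* ℝ)] (j : K →+* Qb) {C : ℕ} {c : Ideal (𝓞 K)} (Q : Finset ℕ)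
    (hQ : ∀ q ∈ Q, q.Prime ∧ q ≠ 3 ∧ Ideal.span {(q : 𝓞 K)} ⊔ c = ⊤) (hc : c ≠ ⊥)
    {ψ : Ideal (𝓞 K) → ZMod (3 ^ C)} (h : ∀ I I', I ≠ ⊥ → I' ≠ ⊥ → I ⊔ c = ⊤ → I' ⊔ c = ⊤ →
      ψ (I * I') = ψ I + ψ I') (hp : ∀ x : 𝓞 K, x ≠ 0 → x - 1 ∈ c → ψ (Ideal.span {x}) = 0) :
    ∃ θ : GK j →* Multiplicative (ZMod (3 ^ C)), IsOpen {g | θ g = 1} ∧ ∃ A : Finset ℕ,
      (∀ l ∈ A, l.Prime) ∧ Disjoint A Q ∧
      (∀ l ∉ A, ∀ P, Ov l P → ∀ g : GK j, Inert P g → θ g = 1) ∧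
      ∀ v ∉ ov K A, ∀ P g, FrI j v P g → (θ g).toAdd = ψ v.asIdeal := by
  classical
  have ex : ∃ m : ℕ, m ≠ 0 ∧ (m : 𝓞 K) ∈ c :=
    ⟨_, Ideal.absNorm_eq_zero_iff.not.2 hc, Ideal.absNorm_mem c⟩
  obtain ⟨m0, mc⟩ := Nat.find_spec ex
  obtain ⟨θ, ho, A, hA, k⟩ := ex_gal (Q := Q) (f := fun v => ψ v.asIdeal) j
    (fun a => (hQ 3 a).2.1 rfl) ⟨_, m0, fun l p ⟨n, d⟩ a => by
      obtain ⟨x, hx, y, hy, e⟩ := Submodule.mem_sup.1 ((Ideal.eq_top_iff_one _).1 (hQ l a).2.2)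
      obtain ⟨x, rfl⟩ := Ideal.mem_span_singleton'.1 hx
      have n0 : n ≠ 0 := fun z => m0 (by rw [d, z, mul_zero])
      refine Nat.find_min ex (d ▸ lt_mul_left n0.bot_lt p.one_lt) ⟨n0, ?_⟩
      rw [← mul_one (n : 𝓞 K), ← e, mul_add, mul_left_comm, mul_comm (n : 𝓞 K), ← Nat.cast_mul, ← d]
      exact add_mem (c.mul_mem_left _ mc) (c.mul_mem_left _ hy), fun x a e d => by
      have a0 : a ≠ 0 := fun k => x.ne_zero (by rw [e, k]; rfl)
      have m := c.mem_of_dvd d mc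
      have t : Ideal.span {a} ⊔ c = ⊤ := (Ideal.eq_top_iff_one _).2 (sub_sub_cancel a 1 ▸
        sub_mem (Ideal.mem_sup_left (Ideal.mem_span_singleton_self a)) (Ideal.mem_sup_right m))
      exact (ai_span e).trans ((ai_eq h (fun _ _ => rfl) _
        (Ideal.span_singleton_eq_bot.not.2 a0) t).trans (hp a a0 m))⟩
  exact ⟨θ, ho, A, fun l a => (hA l a).1, Finset.disjoint_left.2 fun l a => (hA l a).2,
    fun l a P b g d => un_of (fun l a => (hA l a).1) (fun v a => (k v a).1) a b d,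
    fun v a P g b => (congrArg _ (fr_eq (k v a).1 b)).trans (k v a).2⟩

/-- the existence theorem (no root of unity is assumed) -/
def EXT : Prop := ∀ (K : Type) [Field K] [NumberField K] [IsEmpty (K →+* ℝ)] (j : K →+* Qb) (C : ℕ)
  (c : Ideal (𝓞 K)) (ψ : Ideal (𝓞 K) → ZMod (3 ^ C)) (Q : Finset ℕ),
  (∀ q ∈ Q, q.Prime ∧ q ≠ 3 ∧ Ideal.span {(q : 𝓞 K)} ⊔ c = ⊤) → c ≠ ⊥ →
  (∀ I I', I ≠ ⊥ → I' ≠ ⊥ → I ⊔ c = ⊤ → I' ⊔ c = ⊤ → ψ (I * I') = ψ I + ψ I') →
  (∀ x, x ≠ 0 → x - 1 ∈ c → ψ (Ideal.span {x}) = 0) →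
  ∃ θ : GK j →* Multiplicative (ZMod (3 ^ C)), IsOpen {g | θ g = 1} ∧ ∃ A : Finset ℕ,
    (∀ l ∈ A, l.Prime) ∧ Disjoint A Q ∧ (∀ l ∉ A, ∀ P, Ov l P → ∀ g : GK j, Inert P g → θ g = 1) ∧
    ∀ v ∉ ov K A, ∀ P g, FrI j v P g → (θ g).toAdd = ψ v.asIdeal

theorem ext : EXT := fun _ _ _ _ j _ _ _ Q a b c d => ex_ray j Q a b c d

end Vale.Agent.P014Y.C.Al.Xt
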