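import Vale.Agent.P004C.Al.Aux0
import Vale.Agent.P014Y.C.Al.Gb0
import Vale.Agent.P014Y.C.Al.Ext

/-!
# P014 Y, C, block AL: the auxiliary prime
-/

set_option linter.all false

noncomputable section

namespace Vale.Agent.P014Y.C.Al.Kn

open NumberField IsDedekindDomain Module Ideal
open Vale.Agent.P022 Vale.Agent.P022.C Vale.Agent.P022.H916
open Vale.Agent.P027M.S (Pr Inert)
open Vale.Agent.P022E.GW (Ov)
open Vale.Agent.P014Y.C.Al.Gx (vv not_vv two_vv vv_prime)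
open Vale.Agent.P022K.Exi (ex_root pow_self)
open Vale.Agent.P004C.Al.Kn (dual root_eq fr_root Gz mem_Gz ku ku_one ku_tame kin cop_of)

section base

variable {K : Type} [Field K] [NumberField K] {ι : ℂ →+* ℂ_[3]} {J : K →+* ℂ} {Ω : ℝ}

theorem emb (hB : Base ι J Ω) (x : 𝓞 K) :
    ((Algebra.norm ℤ x : ℤ) : ℂ) = J x * starRingEnd ℂ (J x) ∧
      ((Algebra.trace ℤ (𝓞 K) x : ℤ) : ℂ) = J x + starRingEnd ℂ (J x) := by
  classical
  obtain ⟨π, h1, h2⟩ := hB.spl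
  have ne : J.toRatAlgHom ≠ ((starRingEnd ℂ).comp J).toRatAlgHom := fun e =>
    h1.ne ((congrArg (fun σ : K →ₐ[ℚ] ℂ => ‖ι (σ π)‖) e).trans h2)
  have u : ({J.toRatAlgHom, ((starRingEnd ℂ).comp J).toRatAlgHom} : Finset (K →ₐ[ℚ] ℂ)) =
      Finset.univ := (Finset.card_eq_iff_eq_univ _).1
    ((Finset.card_pair ne).trans ((AlgHom.card ℚ K ℂ).trans hB.two).symm)
  have a := Algebra.norm_eq_prod_embeddings ℚ ℂ (x : K)
  have b := trace_eq_sum_embeddings ℂ (K := ℚ) (x := (x : K))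
  rw [← u, Finset.prod_pair ne, ← Algebra.coe_norm_int, map_intCast] at a
  rw [← u, Finset.sum_pair ne, ← Algebra.coe_trace_int, map_intCast] at b
  exact ⟨a, b⟩

theorem int_vv {z : ℤ} : (z : 𝓞 K) ∈ vv ι J ↔ 3 ∣ z := by
  refine ⟨fun h => by_contra fun k => (vv_prime (ι := ι) (J := J)).one_notMem ?_, ?_⟩
  · obtain ⟨a, b, e⟩ := (Int.prime_three.coprime_iff_not_dvd.2 k).map (Int.castRingHom (𝓞 K))
    rw [← e]
    exact (vv ι J).add_mem ((vv ι J).mul_mem_left _ (by simpa using two_vv))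
      ((vv ι J).mul_mem_left _ h)
  · rintro ⟨a, rfl⟩
    push_cast
    exact (vv ι J).mul_mem_right _ two_vv

/-- approximate idempotents -/
theorem eps (hB : Base ι J Ω) {D : ℤ} (hD : ¬ 3 ∣ D) (k : ℕ) : ∃ (ε ε' : 𝓞 K) (S n : ℤ),
    ε + ε' = S ∧ ε * ε' = n ∧ 3 ^ (k + 1) ∣ S - 1 ∧ 3 ^ (k + 1) ∣ n ∧
      J ε' = starRingEnd ℂ (J ε) ∧ ε' ∉ vv ι J ∧ (D : 𝓞 K) ∣ ε := by
  induction k with
  | zero =>
    obtain ⟨π, h1, h2⟩ := hB.spl
    obtain ⟨a, b⟩ := emb hB π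
    have e : J ((Algebra.trace ℤ (𝓞 K) π : ℤ) - π : 𝓞 K) = starRingEnd ℂ (J π) := by
      simp only [map_sub, map_intCast, b, add_sub_cancel_left]
    generalize Algebra.trace ℤ (𝓞 K) π = T at e
    have k1 : (T - π : 𝓞 K) ∉ vv ι J := not_vv.2 (e ▸ h2)
    have k2 : π * (T - π) = (Algebra.norm ℤ π : ℤ) := RingOfIntegers.ext (J.injective (by
      simp only [map_mul, e, map_intCast, a]))
    have k3 : ¬ 3 ∣ T := fun d => k1 ((vv ι J).sub_mem (int_vv.2 d) h1)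
    have k4 := int_vv.1 (k2 ▸ (vv ι J).mul_mem_right _ h1)
    have k5 : D * (T - π : 𝓞 K) ∉ vv ι J :=
      fun m => (vv_prime.mem_or_mem m).elim (fun m => hD (int_vv.1 m)) k1
    refine ⟨D * π * (D * π), D * (T - π) * (D * (T - π)),
      D * T * (D * T) - 2 * (D * D * Algebra.norm ℤ π),
      D * D * Algebra.norm ℤ π * (D * D * Algebra.norm ℤ π), by push_cast; rw [← k2]; ring,
      by push_cast; rw [← k2]; ring, ?_, (k4.mul_left _).mul_left _, ?_,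
      fun m => k5 ((vv_prime.mem_or_mem m).elim id id), (dvd_mul_right _ _).mul_right _⟩
    · have := (Int.prime_three.dvd_mul (a := D) (b := T)).not.2 (not_or.2 ⟨hD, k3⟩)
      generalize D * T = S at this
      obtain ⟨c, hc⟩ := k4
      obtain ⟨s, hs | hs⟩ : ∃ s, S = 3 * s + 1 ∨ S = 3 * s + 2 := ⟨S / 3, by omega⟩
      · exact ⟨3 * s * s + 2 * s - 2 * (D * D * c), by rw [hs, hc]; ring⟩
      · exact ⟨3 * s * s + 4 * s + 1 - 2 * (D * D * c), by rw [hs, hc]; ring⟩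
    · simp only [map_mul, e, map_intCast]
  | succ k h =>
    obtain ⟨ε, ε', S, n, a, b, ⟨c, hc⟩, ⟨d, hd⟩, e, f, g⟩ := h
    refine ⟨ε ^ 3, ε' ^ 3, S ^ 3 - 3 * S * n, n ^ 3, by push_cast; rw [← a, ← b]; ring,
      by push_cast; rw [← b]; ring,
      ⟨c + 3 ^ (k + 1) * c ^ 2 + 3 ^ k * 3 ^ (k + 1) * c ^ 3 - S * d, ?_⟩,
      ⟨3 ^ k * 3 ^ (k + 1) * d ^ 3, ?_⟩, by simp only [map_pow, e],
      fun m => f (vv_prime.mem_of_pow_mem 3 m), dvd_pow g three_ne_zero⟩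
    · rw [eq_add_of_sub_eq hc, hd]; ring
    · rw [hd]; ring

/-- an element which is one at `v` and prime to `D`, with a given norm -/
theorem ex_x (hB : Base ι J Ω) {D : ℕ} (hD : D ≠ 0) (k : ℕ) {e : ℕ} (he : ¬ 3 ∣ e) : ∃ x : 𝓞 K,
    (∀ p : ℕ, p.Prime → p ∣ D → IsCoprime x (p : 𝓞 K)) ∧ absNorm (span {x}) ≡ e [MOD 3 ^ k] ∧
      ∃ s r : 𝓞 K, s ∉ vv ι J ∧ s * (x - 1) = 3 ^ k * r := by
  obtain ⟨a, D, h1, rfl⟩ := Nat.exists_eq_pow_mul_and_not_dvd hD 3 (by norm_num)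
  obtain ⟨ε, ε', S, n, h2, h3, ⟨c, hc⟩, ⟨d, hd⟩, h4, h5, h6⟩ := eps hB (D := D)
    (by exact_mod_cast h1) k
  obtain ⟨b, hb⟩ : ∃ b : ℤ, (e : ℤ) = b + 1 := ⟨e - 1, by ring⟩
  refine ⟨1 + b * ε, fun p hp h => ?_, ?_, ε', 3 * b * d, h5, ?_⟩
  · rcases hp.dvd_mul.1 h with h | h
    · obtain rfl := (Nat.prime_dvd_prime_iff_eq hp Nat.prime_three).1 (hp.dvd_of_dvd_pow h)
      obtain ⟨u, w, q⟩ := (Int.prime_three.coprime_iff_not_dvd.2
        (show ¬ (3 : ℤ) ∣ e by exact_mod_cast he)).map (Int.castRingHom (𝓞 K))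
      rw [hb] at q
      rw [eq_add_of_sub_eq hc] at h2
      rw [hd] at h3
      simp only [eq_intCast] at q
      push_cast at q h2 h3
      exact ⟨w * (1 + b * ε'), u - w * 3 ^ k * (b * c + b * b * d), by
        push_cast
        linear_combination q + w * b * h2 + w * b * b * h3⟩
    · obtain ⟨t, ht⟩ : (p : 𝓞 K) ∣ ε := (Nat.cast_dvd_cast h).trans (by exact_mod_cast h6)
      exact ⟨1, -(b * t), by rw [ht]; ring⟩
  · have a := (emb hB (1 + b * ε)).1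
    have n0 : 0 ≤ Algebra.norm ℤ (1 + b * ε) := by
      rw [Complex.mul_conj] at a
      have := congrArg Complex.re a
      rw [Complex.intCast_re, Complex.ofReal_re] at this
      exact Int.cast_nonneg_iff.1 (this.ge.trans' (Complex.normSq_nonneg _))
    have k2 := congrArg (fun y : 𝓞 K => J y) h2
    have k3 := congrArg (fun y : 𝓞 K => J y) h3
    simp only [map_add, map_mul, map_intCast, map_one, ← h4] at a k2 k3
    have e : Algebra.norm ℤ (1 + b * ε) = 1 + b * S + b * b * n :=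
      Int.cast_injective (α := ℂ) (by push_cast; rw [a, ← k2, ← k3]; ring)
    rw [absNorm_span_singleton, Nat.modEq_iff_dvd, Int.natAbs_of_nonneg n0, e,
      eq_add_of_sub_eq hc, hd, hb]
    exact ⟨-(3 * b * c + 3 * b * b * d), by push_cast; ring⟩
  · rw [hd] at h3
    push_cast at h3
    linear_combination b * h3

end base

variable {M : Type} [Field M] [NumberField M] {j : M →+* Qb}

/-- an element with a fixed action on the roots of unity of three power order -/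
theorem ex_sig (j : M →+* Qb) : ∃ (b : ℕ) (σ : GK j), b ≠ 0 ∧
    ∀ (A : ℕ) (ζ : Qb), ζ ^ 3 ^ A = 1 → σ.1 ζ = ζ ^ (b + 1) := by
  haveI := P022K.GW.Pl.cpt
  haveI : Finite (GQ ⧸ GK j) := (GK j).quotient_finite_of_isOpen (isOpen_GK j)
  haveI : (GK j).FiniteIndex := Subgroup.finiteIndex_of_finite_quotient
  obtain ⟨P, hP⟩ := P022K.GW.Pl.ex_ov Nat.prime_two
  obtain ⟨φ, hφ⟩ := P022D.W.exists_phi hP.1 hP.2.1 hP.2.2
  have d0 := (GK j).normalCore.index_ne_zero_of_finite (G := GQ)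
  have h3 := Nat.one_lt_pow d0 (show 1 < 2 by norm_num)
  refine ⟨2 ^ (GK j).normalCore.index - 1, ⟨_, (GK j).normalCore_le
    ((GK j).normalCore.pow_index_mem φ)⟩, by omega, fun A ζ h => ?_⟩
  rw [Nat.sub_add_cancel h3.le]
  refine fr_root hP.2.1 (fun m => ?_) h
    (P022K.GW.Pl.pw (P022K.GW.Pl.fr_dec hP.2.1 two_ne_zero hφ) hφ _)
  rw [Nat.cast_pow] at m
  exact absurd (P022K.GW.Pl.ov_uniq hP ⟨Nat.prime_three, hP.2.1, hP.2.1.mem_of_pow_mem _ m⟩)
    (by norm_num)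

section art

variable {κ : Type} {A T : ℕ} {θ : κ → GK j →* Multiplicative (ZMod (3 ^ A))}
  {ψ : κ → Ideal (𝓞 M) → ZMod (3 ^ A)} {ζ : Qb}

/-- Artin symbols -/
theorem art (h2 : 3 ∣ T) (add : ∀ i I I', I ≠ ⊥ → I' ≠ ⊥ → I ⊔ span {(T : 𝓞 M)} = ⊤ →
      I' ⊔ span {(T : 𝓞 M)} = ⊤ → ψ i (I * I') = ψ i I + ψ i I')
    (fr : ∀ i (v : Pr M), (T : 𝓞 M) ∉ v.asIdeal → ∀ P g, FrI j v P g →
      (θ i g).toAdd = ψ i v.asIdeal) (hζ : ζ ^ 3 ^ A = 1) (I : Ideal (𝓞 M)) :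
    I ≠ ⊥ → I ⊔ span {(T : 𝓞 M)} = ⊤ →
      ∃ g : GK j, (∀ i, (θ i g).toAdd = ψ i I) ∧ g.1 ζ = ζ ^ absNorm I := by
  refine UniqueFactorizationMonoid.induction_on_prime I (fun h => absurd rfl h)
    (fun I h a b => ⟨1, fun i => ?_, ?_⟩) fun I p I0 hp ih _ b => ?_
  · obtain rfl := Ideal.isUnit_iff.1 h
    have := add i ⊤ ⊤ a a b b
    rw [top_mul, left_eq_add] at this
    rw [this, map_one, toAdd_one]
  · rw [Ideal.isUnit_iff.1 h, absNorm_top, pow_one]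
    rfl
  · have b1 : I ⊔ span {(T : 𝓞 M)} = ⊤ := top_unique (b ▸ sup_le_sup_right mul_le_right _)
    have b2 : p ⊔ span {(T : 𝓞 M)} = ⊤ := top_unique (b ▸ sup_le_sup_right mul_le_left _)
    obtain ⟨g, g1, g2⟩ := ih I0 b1
    let v : Pr M := ⟨p, isPrime_of_prime hp, hp.ne_zero⟩
    have tv : (T : 𝓞 M) ∉ p := fun m => v.isPrime.ne_top
      (top_unique (b2 ▸ sup_le le_rfl ((span_singleton_le_iff_mem _).2 m)))
    obtain ⟨l, P, hP, e⟩ := P022K.GW.Pl.dn_onto j v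
    obtain ⟨φ, hφ⟩ := P022K.GW.Pl.ex_fri j hP (congrArg HeightOneSpectrum.asIdeal e)
    refine ⟨φ * g, fun i => ?_, ?_⟩
    · rw [map_mul, toAdd_mul, g1, fr i v tv P φ hφ, add i p I hp.ne_zero I0 b2 b1]
    · have := fr_root hP.2.1 (fun m => tv (p.mem_of_dvd (Nat.cast_dvd_cast h2)
        ((P022E.GW.Kc.nat_mem j hφ.2.1 3).2 (hP.2.1.mem_of_pow_mem A (by exact_mod_cast m)))))
        hζ hφ.2.2
      rw [Subgroup.coe_mul, AlgEquiv.mul_apply, g2, map_pow, this, map_mul, pow_mul]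

end art

section cyc

variable {M2 : Type} [Field M2] [NumberField M2] [Algebra M M2] {j2 : M2 →+* Qb}
  (hj : ∀ x, j2 (algebraMap M M2 x) = j x)

include hj

theorem six_mem (h3 : finrank M M2 ≤ 3) (h : GK j) : h.1 ^ 6 ∈ GK j2 := by
  classical
  letI := j.toAlgebra
  let f : GK j → M2 →ₐ[M] Qb := fun g =>
    ⟨(g.1 : Qb →+* Qb).comp j2, fun x => (congrArg g.1 (hj x)).trans (g.2 x)⟩
  have e : ∀ g x, f g x = g.1 (j2 x) := fun g x => rfl
  have k : ∀ a b : Fin 4, a < b → f (h ^ a.val) = f (h ^ b.val) → h.1 ^ 6 ∈ GK j2 := fun a b c d => by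
    obtain ⟨n, hn⟩ := Nat.exists_eq_add_of_lt (show a.val < b.val from c)
    have m : h.1 ^ (n + 1) ∈ GK j2 := fun x => (h.1 ^ a.val).injective (by
      rw [← AlgEquiv.mul_apply, ← pow_add, ← add_assoc, ← hn]
      exact (DFunLike.congr_fun d x).symm)
    obtain ⟨r, hr⟩ : n + 1 ∣ 6 := by
      have : n ≤ 2 := by omega
      interval_cases n <;> norm_num
    rw [hr, pow_mul]
    exact pow_mem m r
  obtain ⟨a, b, ne, d⟩ := Fintype.exists_ne_map_eq_of_card_lt (fun i : Fin 4 => f (h ^ i.val))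
    (by rw [AlgHom.card, Fintype.card_fin]; omega)
  exact ne.lt_or_gt.elim (fun c => k a b c d) fun c => k b a c d.symm

/-- inert primes -/
theorem inert [IsGalois M M2] (h2 : (finrank M M2).Prime) {P : Ideal (𝓞 Qb)} (hP : P.IsPrime)
    {l : ℕ} (hl : l.Prime)
    (hW : absNorm (below j P) = l) {φ : GQ} (hφ : ∀ x : 𝓞 Qb, φ • x - x ^ l ∈ P) {y : 𝓞 M2}
    (hy : φ • RingOfIntegers.mapRingHom j2 y - RingOfIntegers.mapRingHom j2 y ∉ P) :
    ((below j P).map (algebraMap (𝓞 M) (𝓞 M2))).IsMaximal := by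
  have p2 := H20.below_prime j2 hP
  have cm : (below j2 P).comap (algebraMap (𝓞 M) (𝓞 M2)) = below j P := Ideal.ext fun x => by
    show RingOfIntegers.mapRingHom j2 (algebraMap (𝓞 M) (𝓞 M2) x) ∈ P ↔ _
    rw [show RingOfIntegers.mapRingHom j2 (algebraMap (𝓞 M) (𝓞 M2) x) =
      RingOfIntegers.mapRingHom j x from RingOfIntegers.ext (hj x)]
    rfl
  have n := absNorm_algebraMap (S := 𝓞 M2) (𝓞 M) (below j P)
  rw [← IsFractionRing.finrank_eq (𝓞 M) M (𝓞 M2) M2, hW] at n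
  obtain ⟨C, hC⟩ := dvd_iff_le.2 (map_le_iff_le_comap.2 cm.ge)
  have n2 : absNorm (below j2 P) * absNorm C = l ^ finrank M M2 := by rw [← map_mul, ← hC, n]
  have n0 : below j2 P ≠ ⊥ := fun e => by
    rw [e, absNorm_bot, zero_mul] at n2
    exact pow_ne_zero _ hl.ne_zero n2.symm
  have mx := p2.isMaximal n0
  let w : Pr M2 := ⟨below j2 P, p2, n0⟩
  have e : absNorm (below j2 P) = l ^ P004C.Al.Xt.dg M2 (P004C.Al.Xt.dw M w) :=
    (P004C.Al.Xt.abs_eq (K := M) w).trans (congrArg (· ^ _) ((congrArg absNorm cm).trans hW))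
  have d := P004C.Al.Xt.dg_dvd (L := M2) (P004C.Al.Xt.dw M w)
  rw [IsGalois.card_aut_eq_finrank] at d
  rcases (Nat.dvd_prime h2).1 d with i | i <;> rw [i] at e
  · refine absurd ?_ hy
    letI := Quotient.field (below j2 P)
    haveI : Finite (𝓞 M2 ⧸ below j2 P) := finiteQuotientOfFreeOfNeBot _ n0
    letI := Fintype.ofFinite (𝓞 M2 ⧸ below j2 P)
    rw [absNorm_apply, Submodule.cardQuot_apply, Nat.card_eq_fintype_card, pow_one] at e
    have m : y ^ l - y ∈ below j2 P :=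
      Ideal.Quotient.eq.1 (by rw [map_pow, ← e, FiniteField.pow_card])
    have := P.add_mem (hφ (RingOfIntegers.mapRingHom j2 y)) m
    rwa [map_sub, map_pow, sub_add_sub_cancel] at this
  · rw [e, mul_eq_left₀ (pow_ne_zero _ hl.ne_zero), absNorm_eq_one_iff] at n2
    rwa [hC, n2, mul_top]

end cyc

theorem cop_kill {A n c : ℕ} (o : ¬ 3 ∣ n) {z : Multiplicative (ZMod (3 ^ A))}
    (h : z ^ (3 ^ c * n) = 1) : z ^ 3 ^ c = 1 := by
  rw [pow_mul] at h
  have := pow_gcd_eq_one.2 ⟨h, pow_self _⟩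
  rwa [((Nat.prime_three.coprime_iff_not_dvd.2 o).symm.pow_right A).gcd_eq_one, pow_one] at this

/-- the prime, from the characters -/
theorem core {K : Type} [Field K] [NumberField K] {ι : ℂ →+* ℂ_[3]} {J : K →+* ℂ} {Ω : ℝ}
    (hB : Base ι J Ω) [Algebra K M] (j : M →+* Qb) : ∃ c : ℕ, ∀ (A m T : ℕ) (κ : Type) [Finite κ]
    (θ : κ → GK j →* Multiplicative (ZMod (3 ^ A))) (ψ : κ → Ideal (𝓞 M) → ZMod (3 ^ A)),
    T ≠ 0 → 3 ∣ T → (∀ i, IsOpen {g | θ i g = 1}) →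
    (∀ i I I', I ≠ ⊥ → I' ≠ ⊥ → I ⊔ span {(T : 𝓞 M)} = ⊤ →
      I' ⊔ span {(T : 𝓞 M)} = ⊤ → ψ i (I * I') = ψ i I + ψ i I') →
    (∀ i (v : Pr M), (T : 𝓞 M) ∉ v.asIdeal → ∀ P g, FrI j v P g →
      (θ i g).toAdd = ψ i v.asIdeal) →
    (∀ i (x : 𝓞 M), x ≠ 0 → V1 ι J m (x : M) → span {x} ⊔ span {(T : 𝓞 M)} = ⊤ →
      ψ i (span {x}) = 0) →
    ∀ I : Ideal (𝓞 M), I ≠ ⊥ → I ⊔ span {(T : 𝓞 M)} = ⊤ →
    ∀ (κ' : Type) [Fintype κ'] (b : κ' → Mˣ) (y : κ' → ZMod (3 ^ A)),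
    (∀ n : κ' → ℕ, (∃ z : Mˣ, ∏ i, b i ^ n i = z ^ 3 ^ A) → ∑ i, n i • y i = 0) → ∀ g : GK j,
    (∀ z : Qb, z ^ 3 ^ A = 1 → g.1 z = z) → (∀ i, θ i g = 1) →
    (∀ i (z : Qb), z ^ 3 ^ A = j (b i) → g.1 z = z) → ∀ U : Subgroup GQ, IsOpen (U : Set GQ) →
    ∀ S : Finset ℕ, ∃ (l : ℕ) (P : Ideal (𝓞 Qb)) (φ : GQ) (h : GK j)
      (δ : Mˣ →* Multiplicative (ZMod (3 ^ A))), Ov l P ∧ l ∉ S ∧ absNorm (below j P) = l ∧
      (∀ x : 𝓞 Qb, φ • x - x ^ l ∈ P) ∧ (g.1 * h.1 ^ 6)⁻¹ * φ ∈ U ∧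
      (∀ i, ψ i (below j P) = 3 ^ c • ψ i I) ∧
      (∀ (b : Mˣ) (x : 𝓞 M), (b : M) = x → x - 1 ∈ below j P → δ b = 1) ∧
      ∀ i, (δ (b i)).toAdd = 3 ^ c • y i := by
  classical
  obtain ⟨b, σ, b0, hσ⟩ := ex_sig j
  haveI : Module.Finite K M := Module.Finite.of_restrictScalars_finite ℚ K M
  have n0 : finrank K M ≠ 0 := finrank_pos.ne'
  obtain ⟨c, o, ho, hc⟩ := Nat.exists_eq_pow_mul_and_not_dvd
    (mul_ne_zero (mul_ne_zero b0 b0) n0) 3 (by norm_num)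
  refine ⟨c + 1, fun A m T κ _ θ ψ T0 T2 opn add fr prn I I0 IT s _ um lam cmp g gζ θg gb U hU S => ?_⟩
  obtain ⟨ζ, hζ⟩ := HasEnoughRootsOfUnity.exists_primitiveRoot Qb (3 ^ A)
  have z1 := hζ.pow_eq_one
  have two : ∀ {l P}, Ov l P → l ≠ 3 → ((3 ^ A : ℕ) : 𝓞 Qb) ∉ P := fun {l P} h k m =>
    k (P022K.GW.Pl.ov_uniq h ⟨Nat.prime_three, h.2.1, h.2.1.mem_of_pow_mem A (by exact_mod_cast m)⟩)
  letI := Fintype.ofFinite κ
  obtain ⟨g₀, g1, g2⟩ := art T2 add fr z1 I I0 IT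
  -- an element with trivial symbols and the same action on the roots of unity
  obtain ⟨g', g3, g4⟩ : ∃ g' : GK j, (∀ i, θ i g' = 1) ∧ g₀ ^ finrank K M * g'⁻¹ ∈ Gz ζ j := by
    obtain ⟨x, x1, x2, r, r', x3, x4⟩ := ex_x hB T0 (A + m) (e := absNorm I) fun d => by
      obtain ⟨P, p1, p2, p3⟩ := exists_isMaximal_dvd_of_dvd_absNorm Int.prime_three I
        (by exact_mod_cast d)
      refine p1.ne_top (top_unique (IT ▸ sup_le (dvd_iff_le.1 p3)
        ((span_singleton_le_iff_mem _).2 (P.mem_of_dvd (Nat.cast_dvd_cast T2) ?_))))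
      simpa using mem_comap.1 (p2.ge (mem_span_singleton_self 3))
    let y := algebraMap (𝓞 K) (𝓞 M) x
    have y1 : span {y} ⊔ span {(T : 𝓞 M)} = ⊤ := cop_of (fun P p1 p2 p hp d k => p1.one_notMem (by
      obtain ⟨u, w, e⟩ := (x1 p hp d).map (algebraMap (𝓞 K) (𝓞 M))
      rw [map_natCast] at e
      exact e ▸ P.add_mem (P.mul_mem_left _ (p2 (mem_span_singleton_self y)))
        (P.mul_mem_left _ k))) T0
    have y0 : y ≠ 0 := fun e => by
      rw [e, span_singleton_eq_bot.2 rfl, bot_sup_eq, span_singleton_eq_top] at y1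
      obtain ⟨P, hP⟩ := P022K.GW.Pl.ex_ov Nat.prime_three
      exact (H20.below_prime j hP.2.1).ne_top (eq_top_of_isUnit_mem _
        ((below j P).mem_of_dvd (Nat.cast_dvd_cast T2) (H20.l_mem_below j hP.2.2)) y1)
    obtain ⟨g', k1, k2⟩ := art T2 add fr z1 _ (span_singleton_eq_bot.not.2 y0) y1
    refine ⟨g', fun i => (k1 i).trans (prn i y y0 (Gx.v1_mono (Nat.le_add_left m A)
      ⟨r, not_vv.1 x3, ?_⟩) y1), ?_⟩
    · have := congrArg (fun z : 𝓞 K => algebraMap K M z) x4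
      simp only [map_mul, map_sub, map_one, map_pow, map_ofNat] at this
      rw [← mul_div_assoc, Gx.coe_s, this, mul_div_cancel_left₀ _ (pow_ne_zero _ three_ne_zero)]
      exact Gx.int_s r'
    · have k3 : ∀ n : ℕ, (g₀.1 ^ n) ζ = ζ ^ absNorm I ^ n := fun n => by
        induction n with
        | zero => simp
        | succ n h => rw [pow_succ', AlgEquiv.mul_apply, h, map_pow, g2, pow_succ', pow_mul]
      have k4 : absNorm (span {y}) = absNorm (span {x}) ^ finrank K M := by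
        rw [IsFractionRing.finrank_eq (𝓞 K) K (𝓞 M) M, ← absNorm_algebraMap, map_span,
          Set.image_singleton]
      have k5 : (g₀ ^ finrank K M).1 ζ = g'.1 ζ := by
        rw [k2, Subgroup.coe_pow, k3, k4, pow_eq_pow_mod _ z1,
          ← ((x2.of_dvd (pow_dvd_pow 3 (Nat.le_add_right A m))).pow _ :), ← pow_eq_pow_mod _ z1]
      obtain ⟨e, -, he⟩ := hζ.eq_pow_of_pow_eq_one (ξ := g'.1⁻¹ ζ)
        (by rw [← map_pow, z1, map_one])
      show (g₀ ^ finrank K M).1 (g'.1⁻¹ ζ) = ζ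
      rw [← he, map_pow, k5, ← map_pow, he]
      exact g'.1.apply_symm_apply ζ
  -- the element with the prescribed values
  let F : κ ⊕ s → Gz ζ j →* Multiplicative (ZMod (3 ^ A)) :=
    Sum.elim (fun i => (θ i).comp (Gz ζ j).subtype) fun u => ku j hζ (um u)
  obtain ⟨h, hh⟩ : ∃ h : Gz ζ j, ∀ i, (F i h).toAdd = 3 ^ c • Sum.elim (fun i => ψ i I) lam i := by
    let Θ : Gz ζ j →* Multiplicative (κ ⊕ s → ZMod (3 ^ A)) :=
      MonoidHom.mk' (fun x => Multiplicative.ofAdd fun i => (F i x).toAdd) fun x y =>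
        congrArg Multiplicative.ofAdd (funext fun i => by rw [map_mul]; rfl)
    obtain ⟨h, e⟩ := dual (Subgroup.toAddSubgroup' Θ.range)
      (fun i => 3 ^ c • Sum.elim (fun i => ψ i I) lam i) fun a ha => by
        have sm : ∀ {β : Type} [Fintype β] (a : β → ZMod (3 ^ A))
            (f : β → Multiplicative (ZMod (3 ^ A))),
            (∏ i, f i ^ (a i).val).toAdd = ∑ i, a i * (f i).toAdd := fun a f => by
          rw [toAdd_prod]
          exact Finset.sum_congr rfl fun i _ => by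
            rw [toAdd_pow, nsmul_eq_mul, ZMod.natCast_zmod_val]
        obtain ⟨k1, z, k2⟩ := kin hζ (hσ A ζ z1) (∏ i, θ i ^ (a (.inl i)).val)
          (∏ u : s, um u ^ (a (.inr u)).val) fun x => Multiplicative.toAdd.injective (by
            have := ha (Θ x).toAdd ⟨x, rfl⟩
            rw [Fintype.sum_sum_type] at this
            simp only [toAdd_mul, map_prod, map_pow, MonoidHom.finsetProd_apply,
              MonoidHom.pow_apply, sm]
            exact this)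
        have k3 := k1 ⟨_, g4⟩
        simp only [map_mul, map_inv, map_pow, MonoidHom.finsetProd_apply, MonoidHom.pow_apply, g3,
          one_pow, Finset.prod_const_one, inv_one, mul_one] at k3
        have k4 := cop_kill (c := c) ho (z := ∏ i, θ i g₀ ^ (a (.inl i)).val) (by
          rw [← hc, mul_assoc, mul_comm, mul_comm b, pow_mul, pow_mul, k3, one_pow])
        have k5 := cmp (fun u => (a (.inr u)).val * (b * b)) ⟨z, by
          rw [← k2, ← Finset.prod_pow]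
          exact Finset.prod_congr rfl fun u _ => pow_mul _ _ _⟩
        have k7 := cop_kill (c := c) ho
          (z := ∏ u, Multiplicative.ofAdd (lam u) ^ (a (.inr u)).val) (by
            rw [← hc, pow_mul, ← Finset.prod_pow, show (∏ u, (Multiplicative.ofAdd (lam u) ^
              (a (.inr u)).val) ^ (b * b)) = 1 from Multiplicative.toAdd.injective (by
                rw [toAdd_prod, toAdd_one, ← k5]
                exact Finset.sum_congr rfl fun u _ => by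
                  rw [← pow_mul, toAdd_pow, toAdd_ofAdd]), one_pow])
        replace k4 := congrArg Multiplicative.toAdd k4
        replace k7 := congrArg Multiplicative.toAdd k7
        rw [toAdd_pow, sm, Finset.smul_sum] at k4 k7
        simp only [toAdd_ofAdd] at k7
        simp only [Fintype.sum_sum_type, Sum.elim_inl, Sum.elim_inr, mul_smul_comm, ← g1]
        rw [k4, k7, toAdd_one, add_zero]
    exact ⟨h, fun i => congrFun (congrArg Multiplicative.toAdd e) i⟩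
  obtain ⟨t, ht⟩ : Odd (3 ^ A) := Odd.pow (by decide)
  have gz : g ∈ Gz ζ j := gζ ζ z1
  choose y hy using fun u : s => ex_root (3 ^ A) (j (um u))
  let V : Subgroup GQ := U ⊓ (GK j ⊓ MulAction.stabilizer GQ ζ) ⊓
    ((⨅ i, kerQ j (θ i)) ⊓ ⨅ u, MulAction.stabilizer GQ (y u))
  have oV : IsOpen (V : Set GQ) := (hU.inter ((isOpen_GK j).inter (P022E.GW.Kc.stab_open ζ))).inter
    (IsOpen.inter (s := ((⨅ i, kerQ j (θ i) : Subgroup GQ) : Set GQ))
      (t := ((⨅ u, MulAction.stabilizer GQ (y u) : Subgroup GQ) : Set GQ))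
      (by rw [Subgroup.coe_iInf]; exact isOpen_iInter_of_finite fun i => isOpen_kerQ j (opn i))
      (by
        rw [Subgroup.coe_iInf]
        exact isOpen_iInter_of_finite fun u => P022E.GW.Kc.stab_open (y u)))
  obtain ⟨l, φ, hl, lS, ⟨P, p1, p2, p3⟩, ⟨v1, v2, v3⟩, v4, v5⟩ := P022K.Cheb.exists_fr
    (oV.preimage (continuous_const_mul (g.1 * (h ^ (t + 1)).1.1 ^ 6)⁻¹))
    (g := g.1 * (h ^ (t + 1)).1.1 ^ 6) (by simpa using V.one_mem) (S ∪ T.primeFactors)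
  rw [Finset.mem_union, not_or, Nat.mem_primeFactors_of_ne_zero T0] at lS
  have lT : ¬ l ∣ T := fun d => lS.2 ⟨hl, d⟩
  let u : Gz ζ j := ⟨⟨_, v2⟩, v3⟩
  let f : Gz ζ j := ⟨g, gz⟩ * (h ^ (t + 1)) ^ 6 * u
  have e : f.1.1 = φ := mul_inv_cancel_left _ _
  have hF : ∀ i, (F i f).toAdd = 3 ^ (c + 1) • Sum.elim (fun i => ψ i I) lam i := fun i => by
    have a1 : F i ⟨g, gz⟩ = 1 := by
      rcases i with i | i
      · exact θg i
      · exact (ku_one hζ (hy i)).2 (gb i _ (hy i))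
    have a2 : F i u = 1 := by
      rcases i with i | i
      · exact (mem_kerQ j (θ i) u.1).1 (Subgroup.mem_iInf.1 v4 i)
      · exact (ku_one hζ (hy i)).2 (Subgroup.mem_iInf.1 v5 i)
    rw [map_mul (F i), map_mul (F i), a1, a2, one_mul, mul_one, ← pow_mul, map_pow (F i),
      show (t + 1) * 6 = 3 ^ A * 3 + 3 by omega, pow_add, pow_mul, pow_self, one_pow, one_mul,
      toAdd_pow, hh, smul_smul, pow_succ']
  obtain ⟨v, hv, lv⟩ := P022E.GW.Kc.ex_below j hl.ne_zero p1 p2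
  have nv : absNorm v.asIdeal = l := P022D.Sel.Inj.norm_eq v l hl lv fun x => by
    have := p3 (RingOfIntegers.mapRingHom j x)
    rw [← e, P022K.GW.Pl.fix_int j f.1.2, ← map_pow, ← map_sub] at this
    exact hv.le this
  refine ⟨l, P, φ, (h ^ (t + 1)).1, (ku j hζ).flip f, ⟨hl, p1, p2⟩, lS.1, hv ▸ nv, p3, v1,
    fun i => ?_, fun b x k1 k2 => ku_tame hζ p1 (two ⟨hl, p1, p2⟩ fun k => lT (k ▸ T2)) k1 k2
      hl.ne_zero (e ▸ p3), fun u => hF (.inr u)⟩
  rw [hv, ← fr i v (fun m => lT (Int.natCast_dvd_natCast.1 (H20.dvd_of_mem hl p1 p2 (d := T)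
    (by exact_mod_cast (P022E.GW.Kc.nat_mem j hv T).1 m)))) P f.1 ⟨p1, hv, nv ▸ e ▸ p3⟩]
  exact hF (.inl i)

end Vale.Agent.P014Y.C.Al.Kn
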