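import Vale.Agent.P014Y.C.Al.Cpl0

/-!
# P014 Y, block AL: tools for the minus system
-/

set_option linter.all false

noncomputable section

namespace Vale.Agent.P014Y.C.Al.Am

open NumberField Module Ideal Matrix IsDedekindDomain
open scoped Classical

/-- linear algebra modulo `3 ^ B` -/
theorem lin_mod {a b r c : ℕ} {M : Matrix (Fin a) (Fin b) ℤ_[3]} {l u : Fin r → Fin b → ℤ_[3]}
    (h1 : ∀ i i', l i ⬝ᵥ u i' = if i = i' then 1 else 0)
    (h2 : ∀ y, (∀ i, l i ⬝ᵥ y = 0) → ∃ x, vecMul x M = 3 ^ c • y) {S : Type} [CommRing S]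
    (ρ : ℤ_[3] →+* S) (hρ : Function.Surjective ρ) (y : Fin b → S)
    (h : ∀ i, ρ ∘ l i ⬝ᵥ y = 0) : ∃ x : Fin a → S, ∑ s, x s • ρ ∘ M s = 3 ^ c • y := by
  choose y' hy using fun i => hρ (y i)
  obtain rfl : ρ ∘ y' = y := funext hy
  obtain ⟨x, hx⟩ := h2 (y' - ∑ i, (l i ⬝ᵥ y') • u i) fun i => by
    simp [dotProduct_sum, h1]
  refine ⟨ρ ∘ x, funext fun i => ?_⟩
  have := congrArg ρ (congrFun hx i)
  simp only [Pi.smul_apply, Pi.sub_apply, Finset.sum_apply, map_nsmul, map_sub, map_sum,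
    smul_eq_mul, map_mul, ρ.map_dotProduct, h, zero_mul, Finset.sum_const_zero, sub_zero] at this
  simpa [vecMul, dotProduct] using this

variable {M N : Type} [Field M] [NumberField M] [Field N] [NumberField N] [Algebra M N]
  (τ : N ≃ₐ[M] N)

/-- the action on the integers -/
abbrev ti : 𝓞 N ≃ₐ[𝓞 M] 𝓞 N := RingOfIntegers.mapAlgEquiv τ

theorem ti_coe (x : 𝓞 N) : (ti τ x : N) = τ x := rfl

/-- the action on the units -/
def tu : (𝓞 N)ˣ →* (𝓞 N)ˣ := Units.map (ti τ : 𝓞 N →* 𝓞 N)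

theorem tu_coe (u : (𝓞 N)ˣ) : ((tu τ u : 𝓞 N) : N) = τ (u : 𝓞 N) := rfl

theorem uc_inj {u v : (𝓞 N)ˣ} (h : ((u : 𝓞 N) : N) = (v : 𝓞 N)) : u = v :=
  Units.ext (RingOfIntegers.ext h)

variable {τ}

theorem ex_mv (h : τ ≠ 1) : ∃ x : 𝓞 N, ti τ x - x ≠ 0 := by
  by_contra k
  push Not at k
  refine h (AlgEquiv.ext fun x => ?_)
  exact DFunLike.congr_fun (IsFractionRing.ringHom_ext (A := 𝓞 N) (f1 := (τ : N →+* N))
    (f2 := RingHom.id N) fun a => congrArg (fun z : 𝓞 N => (z : N)) (sub_eq_zero.1 (k a))) x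

/-- primes of degree one are moved -/
theorem cj_ne {W : Ideal (𝓞 N)} (h : (absNorm W).Prime) {x : 𝓞 N} (hx : ti τ x - x ∉ W) :
    cj τ W ≠ W := fun e => hx (by
  have p := isPrime_of_irreducible_absNorm (Nat.irreducible_iff_nat_prime _ |>.2 h)
  haveI := Fact.mk h
  haveI := Ideal.Quotient.nontrivial_iff.2 p.ne_top
  obtain ⟨k, hk⟩ := mem_zmultiples_of_prime_card (G := 𝓞 N ⧸ W) (p := absNorm W)
    (by rw [absNorm_apply, Submodule.cardQuot_apply]) (g := 1) (g' := Ideal.Quotient.mk W x)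
    one_ne_zero
  have m : x - k ∈ W := Ideal.Quotient.eq.1 (by rw [← hk]; simp)
  have m' : ti τ (x - k) ∈ W := mem_comap.1 (e.ge m)
  rw [map_sub, map_intCast] at m'
  simpa using W.sub_mem m' m)

theorem cj_span (h : ∀ x, τ (τ x) = x) (x : 𝓞 N) : cj τ (span {x}) = span {ti τ x} := by
  have k : ∀ y, ti τ (ti τ y) = y := fun y => RingOfIntegers.ext (h y)
  ext y
  rw [cj, mem_comap, mem_span_singleton, mem_span_singleton]
  exact ⟨fun d => k y ▸ map_dvd (ti τ) d, fun d => k x ▸ map_dvd (ti τ) d⟩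

variable {K : Type} [Field K] [NumberField K] {ι : ℂ →+* ℂ_[3]} {J : K →+* ℂ} [Algebra K M]
  [Algebra K N] [IsScalarTower K M N] {m : ℕ}

theorem v1_tau {x : N} (h : V1 ι J m x) : V1 ι J m (τ x) := by
  obtain ⟨s, a, b⟩ := h
  refine ⟨s, a, ?_⟩
  have := b.map (τ : N →+* N).toIntAlgHom
  simp only [RingHom.toIntAlgHom_apply, RingHom.coe_coe, map_mul, map_div₀, map_sub, map_one,
    map_pow, map_ofNat] at this
  rwa [IsScalarTower.algebraMap_apply K M N, τ.commutes,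
    ← IsScalarTower.algebraMap_apply K M N] at this

theorem v1_down {x : M} (h : V1 ι J m (algebraMap M N x)) : V1 ι J m x := by
  obtain ⟨s, a, b⟩ := h
  refine ⟨s, a, (isIntegral_algebraMap_iff (algebraMap M N).injective).1 ?_⟩
  rwa [map_mul, map_div₀, map_sub, map_one, map_pow, map_ofNat,
    ← IsScalarTower.algebraMap_apply K M N]

theorem v1_div (hm : 1 ≤ m) {x : N} (h : V1 ι J m x) : V1 ι J m (x / τ x) :=
  div_eq_mul_inv x (τ x) ▸ Gx.v1_mul h (Gx.v1_inv hm (v1_tau h))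

/-- coordinates of the minus part of a unit -/
theorem ex_co {n n₀ : ℕ} (tt : ∀ x, τ (τ x) = x) {ε : Fin n → (𝓞 N)ˣ}
    (v1 : ∀ u : (𝓞 N)ˣ, V1 ι J 2 (((u : 𝓞 N) : N) ^ n₀))
    (e1 : ∀ u : (𝓞 N)ˣ, V1 ι J 2 ((u : 𝓞 N) : N) ∧ ((u : 𝓞 N) : N) * τ (u : 𝓞 N) = 1 ↔
      ∃ k : Fin n → ℤ, u = ∏ i, ε i ^ k i)
    (e2 : ∀ k : Fin n → ℤ, ∏ i, ε i ^ k i = 1 → k = 0) :
    ∃ co : (𝓞 N)ˣ → Fin n → ℤ, (∀ a b, co (a * b) = co a + co b) ∧
      (∀ u, tu τ u = u → co u = 0) ∧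
      ∀ k : Fin n → ℕ, co (∏ i, ε i ^ k i) = fun i => ((2 * n₀ * k i : ℕ) : ℤ) := by
  have t2 : ∀ u, tu τ (tu τ u) = u := fun u => uc_inj (tt _)
  have e3 : ∀ k k' : Fin n → ℤ, ∏ i, ε i ^ k i = ∏ i, ε i ^ k' i → k = k' := fun k k' h =>
    sub_eq_zero.1 (e2 _ (by
      simp only [Pi.sub_apply, _root_.zpow_sub, Finset.prod_mul_distrib, Finset.prod_inv_distrib, h,
        mul_inv_cancel]))
  have e4 : ∀ u : (𝓞 N)ˣ, ((u : 𝓞 N) : N) * τ (u : 𝓞 N) = 1 ↔ u * tu τ u = 1 := fun u =>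
    ⟨fun h => uc_inj h, fun h => congrArg (fun z : (𝓞 N)ˣ => ((z : 𝓞 N) : N)) h⟩
  choose co hc using fun u : (𝓞 N)ˣ => (e1 ((u / tu τ u) ^ n₀)).1 ⟨by
    rw [Units.val_pow_eq_pow_val, RingOfIntegers.coe_eq_algebraMap, map_pow]
    exact v1 _, (e4 _).2 (by rw [map_pow, map_div, t2, ← mul_pow, div_mul_div_cancel, div_self',
      one_pow])⟩
  refine ⟨co, fun a b => e3 _ _ ?_, fun u h => e2 _ (by rw [← hc, h, div_self', one_pow]),
    fun k => e3 _ _ ?_⟩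
  · simp only [Pi.add_apply, _root_.zpow_add, Finset.prod_mul_distrib, ← hc]
    rw [map_mul, mul_div_mul_comm, mul_pow]
  · have := (e4 _).1 ((e1 (∏ i, ε i ^ k i)).2 ⟨fun i => k i, by simp⟩).2
    rw [← hc, ← inv_eq_of_mul_eq_one_right this, div_inv_eq_mul, ← sq, ← pow_mul,
      ← Finset.prod_pow]
    simp only [zpow_natCast, ← pow_mul, mul_comm]

end Vale.Agent.P014Y.C.Al.Am
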