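import Vale.Agent.P014Y.C.Al.Cpl0

/-!
# P014 Y, block AL: row CPL
-/

set_option linter.all false

noncomputable section

namespace Vale.Agent.P014Y.C.Al

open NumberField Module Ideal Matrix NumberField.Units IsDedekindDomain
open Vale.Agent.P022 (Qb)
open scoped Classical

open Kn Cl in
/-- **completion of a pair** -/
theorem cpl (hP : PRC) (hL : LOG) (hN : LIN) (hD : DG) (hS : SYS) (hT : SPL) (hU : UPS) : CPL := by
  intro K _ _ ι J Ω hB L N _ _ _ _ _ _ τ h2 τ1 hw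
  have hl := hL K ι J Ω hB L
  rw [← Gx.rank_eq (M := L) hB rfl] at hl
  obtain ⟨ℓ, l1, l2, l3⟩ := hl
  obtain ⟨h, h0, hπ⟩ := Gx.ex_pow (𝓞 L)
  obtain ⟨n₀, N0, v1⟩ := Gx.pow_v1 (ι := ι) (J := J) (M := L) 2
  replace v1 : ∀ x : 𝓞 L, IsCoprime x 3 → V1 ι J 2 ((x : L) ^ n₀) := fun x k =>
    v1 x ((sup_eq_top_iff_isCoprime _ _).2 k)
  have uc : ∀ u : (𝓞 L)ˣ, IsCoprime (u : 𝓞 L) 3 := fun u => ⟨u⁻¹.1, 0, by simp⟩
  obtain ⟨r, c₀, k, μ, l, u, n1, n2, n3, n4, n5⟩ :=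
    hN (rank L) (Matrix.of fun s => ℓ (((fundSystem L s : 𝓞 L) : L) ^ n₀))
  haveI : Algebra.IsQuadraticExtension L N := { finrank_eq_two' := h2 }
  obtain ⟨E, E', c₁, E0, E1, hc⟩ := hP K ι J Ω hB L N
    (IsAlgClosed.lift (R := ℚ) (S := N) (M := Qb)).toRingHom ⟨hw, inferInstance, .inl h2⟩
  obtain ⟨R₂, h₂⟩ := Gx.rp_ex (ι := ι) (J := J) (W := fun _ : Fin 1 => (⊤ : Ideal (𝓞 L)))
    one_le_two (dvd_refl 3)
  have e0 : h * (n₀ * (3 ^ c₀ * E')) ≠ 0 := by positivity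
  refine ⟨r, fun s c j => ⟨v3 ((h * (n₀ * (3 ^ c₀ * E'))) ^ (R₂.card + (rank L + 1))) +
    (s + 1) * (j + v3 h + c₁ + c) + v3 n₀, fun t t0 t3 m B m2 mB w Φ f X => ?_⟩⟩
  generalize hc' : v3 ((h * (n₀ * (3 ^ c₀ * E'))) ^ (R₂.card + (rank L + 1))) +
    (s + 1) * (j + v3 h + c₁ + c) + v3 n₀ = c'
  let ρ : ℤ_[3] →+* ZMod (3 ^ B) := PadicInt.toZModPow B
  have ρ0 : ∀ x, ρ x = 0 ↔ 3 ^ B ∣ x := fun x => by
    rw [← RingHom.mem_ker, PadicInt.ker_toZModPow, mem_span_singleton, Nat.cast_ofNat]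
  have ρs : Function.Surjective ρ := ZMod.ringHom_surjective ρ
  have lg : Lg ι J fun x => ρ ∘ ℓ x := ⟨fun x y a b => funext fun i => by simp [l1 x y a b],
    fun x a => by simp only [l2 x B a, funext_iff, Function.comp, Pi.zero_apply, ρ0], fun y => by
      choose y' hy using fun i => ρs (y i)
      obtain ⟨x, a, b, c⟩ := l3 y' B 3 (by norm_num)
      exact ⟨x, a, (sup_eq_top_iff_isCoprime _ _).1 b, funext fun i => by
        rw [← hy, ← sub_eq_zero, Function.comp, ← map_sub, ρ0]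
        exact c i⟩⟩
  obtain ⟨g2, g3⟩ := pa (f := fun x => ρ ∘ ℓ x) Gx.v1_one (fun _ _ => Gx.v1_mul) lg.add
  obtain ⟨co, co1, co2⟩ := ex_co L
  let lam' : Fin r → (𝓞 L)ˣ →* Multiplicative (ZMod (3 ^ B)) := fun i =>
    MonoidHom.mk' (fun w => .ofAdd (ρ ∘ μ i ⬝ᵥ fun s => (co w s : ZMod (3 ^ B)))) fun a b =>
      congrArg Multiplicative.ofAdd ((congrArg (ρ ∘ μ i ⬝ᵥ ·) (funext fun s => by
        simp [co1])).trans (dotProduct_add _ _ _))
  let lam : Fin (r + 1) → (𝓞 L)ˣ →* Multiplicative (ZMod (3 ^ B)) := Fin.cons (∏ i, lam' i)⁻¹ lam'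
  choose z z1 z2 z3 using fun j => lg.onto (ρ ∘ u j)
  obtain ⟨E₁, e1, e2, hx⟩ := X.gen
  choose x x1 x2 using hx
  have x0 : ∀ i, (x i : L) ≠ 0 := fun i => (Gx.v1_unit (by omega) (x1 i)).1
  obtain ⟨G, hG⟩ := (inferInstance : Monoid.FG (𝓞 L)ˣ).fg_top
  obtain ⟨yy, hy⟩ := hD B s (Matrix.of fun i i' => f i' (algebraMap L N (x i)))
    ((3 ^ j * h * 3 ^ c₁ * E₁ : ℕ) : ZMod (3 ^ B))
  have ok := fun (i : Fin (r + 1)) => ok_of hS X.sy.max X.sy.inj x0 x2 G (lam i)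
    fun i' => if i = 0 then -yy i' else 0
  obtain ⟨a, inj, hW⟩ := pick (fun i (W : Ideal (𝓞 L)) => (W.IsMaximal ∧ t ∉ W) ∧
      (∀ i', (w i').under (𝓞 L) ≠ W) ∧ Ine N W ∧
      (∃ g : 𝓞 L, W ^ E = span {g} ∧ V1 ι J (B + 2) ((g : L) / (z i : L) ^ E')) ∧
      ∃ δ : Lˣ →* Multiplicative (ZMod (3 ^ B)), Tm W δ ∧
        (∀ v, (δ (um L v)).toAdd = (3 ^ c₁ * E₁) • (lam i v).toAdd) ∧
        ∀ i', (δ (Units.mk0 _ (x0 i'))).toAdd = (3 ^ c₁ * E₁) • if i = 0 then -yy i' else 0)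
    fun i S => by
      obtain ⟨W, a1, a2, a3, a4, δ, a5, a6⟩ := hc B (z i) (z1 i) (z2 i) _ _ _ (ok i).2
        (fun e => absurd (h2.symm.trans e) (by norm_num))
        ((S ∪ Finset.univ.image fun i' => (w i').under (𝓞 L)).image absNorm ∪
          (absNorm (span {t})).primeFactors)
      simp only [Finset.mem_union, not_or] at a2
      refine ⟨W, fun m => a2.1 (Finset.mem_image_of_mem _ (Finset.mem_union_left _ m)),
        of_norm a1 t0 a2.2, fun i' e => a2.1 (Finset.mem_image_of_mem _ (Finset.mem_union_right _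
          (Finset.mem_image.2 ⟨i', Finset.mem_univ _, e⟩))), a3, a4, δ, a5, fun v => ?_,
        fun i' => (a6 (.inr i')).trans (smul_smul _ _ _)⟩
      refine congrArg Multiplicative.toAdd (DFunLike.congr_fun (MonoidHom.eq_of_eqOn_denseM hG
        (f := δ.comp (um L)) (g := lam i ^ (3 ^ c₁ * E₁)) fun v hv => ?_) v)
      exact Multiplicative.toAdd.injective ((a6 (.inl ⟨v, hv⟩)).trans (smul_smul _ _ _))
  choose w1 w2 w3 w4 δ w6 w7 w8 using hW
  choose γ γ1 γ2 using w4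
  obtain ⟨s1, s2, s3, ho⟩ := hS L B t
  obtain ⟨Ψ, g₀, Y, hg⟩ := s1 _ a h δ (fun i => (w1 i).1) inj (fun i => (w1 i).2) hπ w6 fun v =>
    Multiplicative.toAdd.injective (by
      simp only [toAdd_prod, w7, ← Finset.smul_sum]
      rw [Fin.sum_univ_succ]
      simp [lam])
  have Z := s3 _ _ (ee r s) _ _ _ (s2 _ _ _ _ Φ _ Ψ g₀ (3 ^ j) X.sy Y fun i i' => w2 i' i)
  let f' : Fin s → N → ZMod (3 ^ B) := fun i y =>
    f i y + 3 ^ j * (oi (w i) y • Ψ ((w i).under (𝓞 L)))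
  let g : Fin (r + 1) → L → ZMod (3 ^ B) := fun i y => 3 ^ j * g₀ i y + oi (a i) y • Φ (a i)
  have sp := fun i => (((hT L N τ h2 τ1).2.2 _ (X.max i)).2 (X.ne i)).2.2.2
  rw [elim_ee, elim_ee, sy_aux] at Z
  replace Z : Aux t B (Wd a w) (fun I => Φ I + 3 ^ j * Ψ I) (fd g f') := by
    simp only [fd, f', sp]
    exact Z
  have ma : ∀ i, a i ∈ Submonoid.closure (Set.range (Wd a w)) := fun i =>
    Submonoid.subset_closure ⟨(ee r s).symm (.inl i), (congrFun (elim_ee a _) _).symm.trans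
      (by simp)⟩
  have mw : ∀ i, (w i).under (𝓞 L) ∈ Submonoid.closure (Set.range (Wd a w)) := fun i =>
    Submonoid.subset_closure ⟨(ee r s).symm (.inr i), (congrFun (elim_ee a _) _).symm.trans
      (by simp)⟩
  have mB' : m ≤ B + 2 := mB.trans (Nat.le_add_right B 2)
  have gu : ∀ y : Fin (rank L) → ZMod (3 ^ B),
      ρ ∘ ℓ (((∏ s, fundSystem L s ^ (y s).val : (𝓞 L)ˣ) : 𝓞 L) ^ n₀) =
      ∑ s, y s • ρ ∘ ℓ (((fundSystem L s : 𝓞 L) : L) ^ n₀) := fun y => by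
    have := (g3 _ _ (fun s => (y s).val) fun s => v1 _ (uc (fundSystem L s))).2
    simp only [vs, ← pow_mul, mul_comm n₀] at this ⊢
    rw [← this]
    simp only [Units.coe_prod, Units.val_pow_eq_pow_val, RingOfIntegers.coe_eq_algebraMap,
      map_prod, map_pow, ← Finset.prod_pow, pow_mul]
  obtain ⟨-, -, -, ho'⟩ := hS N B 1
  refine ⟨a, Ψ, g₀, g, f', sy_aux.1 Y, w3, Z, hU L N τ h2 τ1 r s B t a w _ g f' Z w3
    (fun i => ⟨X.max i, X.ne i⟩) (fun i y y' b b' => ?_) fun i y b => ?_, fun i y => ⟨_, rfl⟩,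
    fun t' R _ t2 hR => ?_, fun y => ?_⟩
  · simp only [f', X.loc i y y' b b', (ho' _ (X.max i)).1 y y' b b', add_smul]
    ring
  · simp only [f', X.tam i y b, (ho' _ (X.max i)).2.1 y fun m =>
      (X.max i).isPrime.one_notMem (by simpa using (w i).sub_mem m b)]
    simp
  · refine (v3_le (pow_ne_zero _ e0) (rp_dvd lg (by omega) mB (fun i => max_ne (Z.max i)) e0 h₂
      (fun I I0 I2 => ?_) t2 hR)).trans (by omega)
    obtain ⟨p, hp⟩ := hπ I I0
    have p3 : IsCoprime p 3 := by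
      rw [← sup_eq_top_iff_isCoprime, ← hp, ← isCoprime_iff_sup_eq]
      exact (isCoprime_iff_sup_eq.2 I2).pow_left
    have γ3 : ∀ i, V1 ι J 2 (γ i : L) ∧ ρ ∘ ℓ (γ i) = E' • ρ ∘ u i := fun i => by
      obtain ⟨b1, b2⟩ := g2 _ E' (z1 i)
      have b3 := Gx.v1_mono (Nat.le_add_left 2 B) (γ2 i)
      have e := div_mul_cancel₀ (γ i : L) (Gx.v1_unit one_le_two b1).1
      rw [← e]
      exact ⟨Gx.v1_mul b3 b1, by rw [lg.add _ _ b3 b1, (lg.zero _ b3).1 (γ2 i), b2, z3, zero_add]⟩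
    generalize hy : ρ ∘ ℓ ((p : L) ^ n₀) = y
    obtain ⟨ζ, hζ⟩ := lin_mod n4 n5 ρ ρs (E' • y - ∑ i, (ρ ∘ l i ⬝ᵥ y) • E' • ρ ∘ u i) fun i => by
      simp only [dotProduct_sub, dotProduct_sum, dotProduct_smul, ← ρ.map_dotProduct, n4,
        apply_ite ρ, map_one, map_zero, smul_ite, smul_zero, Finset.sum_ite_eq, Finset.mem_univ,
        if_true]
      rw [smul_comm, smul_eq_mul, mul_one, sub_self]
    obtain ⟨a1, a2⟩ := g2 _ (3 ^ c₀ * E') (v1 p p3)
    obtain ⟨b1, b2⟩ := g3 _ _ (fun i => 3 ^ c₀ * (ρ ∘ l i ⬝ᵥ y).val) fun i => (γ3 i).1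
    have b3 := v1 _ (uc (∏ s, fundSystem L s ^ (ζ s).val))
    refine ⟨_, ev_of (y := p ^ (n₀ * (3 ^ c₀ * E'))) (z := (∏ i, γ i ^ (3 ^ c₀ *
      (ρ ∘ l i ⬝ᵥ y).val)) * (∏ s, fundSystem L s ^ (ζ s).val : (𝓞 L)ˣ) ^ n₀)
      (Gx.v1_mono mB' (lg.cg a1 (Gx.v1_mul b1 b3) ?_)) (pow_ne_zero _ (ne2 p3))
      (mul_ne_zero (Finset.prod_ne_zero_iff.2 fun i _ => pow_ne_zero _
        (RingOfIntegers.coe_ne_zero_iff.1 (Gx.v1_unit one_le_two (γ3 i).1).1))
        (pow_ne_zero _ (Units.ne_zero _))) ?_ (one_mem _)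
      (prod_mem fun i (_ : i ∈ Finset.univ) =>
        pow_mem (ma i) (E * (3 ^ c₀ * (ρ ∘ l i ⬝ᵥ y).val))) ?_⟩
    · rw [lg.add _ _ b1 b3, a2, b2, gu, hy, show ∑ s, ζ s • ρ ∘ ℓ _ = _ from hζ]
      simp only [(γ3 _).2, mul_smul (3 ^ c₀), vs, ← Finset.smul_sum, ← smul_add, add_sub_cancel]
    · simp only [RingOfIntegers.coe_eq_algebraMap, map_pow, map_mul, map_prod, pow_mul _ n₀]
      exact div_mul_cancel₀ _ (Gx.v1_unit one_le_two (Gx.v1_mul b1 b3)).1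
    · rw [span_singleton_mul_right_unit ((Units.isUnit _).pow _), pow_mul I, hp,
        ← prod_span_singleton, ← span_singleton_pow]
      simp only [← span_singleton_pow, ← γ1, ← pow_mul, mul_one]
      exact mul_comm _ _
  · have q0 : 3 ^ j * h * 3 ^ c₁ * E₁ ≠ 0 := by positivity
    have q1 : v3 (3 ^ j * h * 3 ^ c₁ * E₁) ≤ j + v3 h + c₁ + c := by
      rw [v3_mul (by positivity) e1, v3_mul (by positivity) (by positivity),
        v3_mul (by positivity) h0, v3_three, v3_three]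
      omega
    obtain ⟨β, hβ⟩ := dv3 B (c := c') (pow_ne_zero s q0) (by
      rw [v3_pow _ _ q0]
      have := Nat.mul_le_mul_left s q1
      rw [add_mul] at hc'
      omega)
    obtain ⟨α, hα⟩ := dv3 B (c := c') (mul_ne_zero q0 N0) (by
      rw [v3_mul q0 N0]
      rw [add_mul] at hc'
      omega)
    obtain ⟨n, hn⟩ := hy (β • fun i => y (Fin.natAdd r i))
    let ζ : Fin (rank L) → ZMod (3 ^ B) := ∑ i, (α * y (Fin.castAdd s i)) • ρ ∘ k i
    let v : (𝓞 L)ˣ := ∏ s, fundSystem L s ^ (ζ s).val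
    have a1 : ρ ∘ ℓ (((v : 𝓞 L) : L) ^ n₀) = 0 := by
      rw [gu]
      funext i
      have : ∀ j, ∑ s, ρ (k j s) * ρ (ℓ (((fundSystem L s : 𝓞 L) : L) ^ n₀) i) = 0 := fun j => by
        simpa [vecMul, dotProduct] using congrArg ρ (congrFun (n1 j) i)
      simp only [ζ, Finset.sum_apply, Pi.smul_apply, smul_eq_mul, Function.comp, Finset.sum_mul,
        mul_assoc]
      rw [Finset.sum_comm]
      simp only [← Finset.mul_sum, this, mul_zero, Finset.sum_const_zero, Pi.zero_apply]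
    have a2 : ∀ s, (co v s : ZMod (3 ^ B)) = ζ s := fun s => by
      rw [co2, Int.cast_natCast, ZMod.natCast_zmod_val]
    have a3 : ∀ i, (lam i.succ v).toAdd = α * y (Fin.castAdd s i) := fun i => by
      show (ρ ∘ μ i ⬝ᵥ fun s => (co v s : ZMod (3 ^ B))) = _
      simp only [a2]
      show ρ ∘ μ i ⬝ᵥ ζ = _
      simp [ζ, dotProduct_sum, ← ρ.map_dotProduct, n2, apply_ite ρ]
    have v0 : ((v : 𝓞 L) : L) ≠ 0 := (um L v).ne_zero
    have p0 : ∏ i, (x i : L) ^ (n i).val ≠ 0 :=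
      Finset.prod_ne_zero_iff.2 fun i _ => pow_ne_zero _ (x0 i)
    have ou : ∀ P : Ideal (𝓞 L), P.IsMaximal → oi P ((v : 𝓞 L) : L) = 0 := fun P b =>
      (ho P b).2.1 _ (notMem_of_isUnit _ v.isUnit)
    have oa : ∀ i i', oi (a i) (x i' : L) = 0 := fun i i' => (ho _ (w1 i).1).2.1 _ fun m =>
      w2 i i' ((X.sy.max i').eq_of_le (w1 i).1.ne_top
        ((w1 i).1.isPrime.le_of_pow_le (x2 i' ▸ (span_singleton_le_iff_mem _).2 m)))
    refine ⟨(∏ i, (x i : L) ^ (n i).val) * ((v : 𝓞 L) : L) ^ n₀, ev_of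
      (y := (∏ i, x i ^ (n i).val) * v ^ n₀) (z := 1) (Gx.v1_mul
        ((pa (f := fun _ => (0 : ℤ)) Gx.v1_one (fun _ _ => Gx.v1_mul)
          fun _ _ _ _ => (add_zero 0).symm).2 _ _ _ x1).1
        (Gx.v1_mono mB' ((lg.zero _ (v1 _ (uc v))).2 a1)))
      (mul_ne_zero (Finset.prod_ne_zero_iff.2 fun i _ => pow_ne_zero _
        (RingOfIntegers.coe_ne_zero_iff.1 (x0 i))) (pow_ne_zero _ v.ne_zero)) one_ne_zero
      (by simp only [RingOfIntegers.coe_eq_algebraMap, map_pow, map_mul, map_prod, map_one, mul_one])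
      (prod_mem fun i (_ : i ∈ Finset.univ) => pow_mem (mw i) (E₁ * (n i).val)) (one_mem _) ?_,
      fun i => ?_⟩
    · rw [span_singleton_mul_right_unit (v.isUnit.pow _), ← prod_span_singleton]
      simp only [← span_singleton_pow, x2, ← pow_mul, mul_one, span_singleton_one, top_mul]
    rw [Z.loc _ _ _ p0 (pow_ne_zero _ v0), (pn (Z.loc _)).2 _ _ _ x0, (pn (Z.loc _)).1 _ _ v0]
    refine Fin.addCases (fun i => ?_) (fun i => ?_) i
    · have b1 := fun i' => hg i.succ (Units.mk0 _ (x0 i'))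
      have b2 := hg i.succ (um L v)
      simp only [w8, Units.val_mk0, oa, if_neg (Fin.succ_ne_zero i), smul_zero, zero_smul,
        add_zero] at b1
      rw [w7, a3, show ((um L v : Lˣ) : L) = (v : 𝓞 L) from rfl, ou _ (w1 _).1] at b2
      simp only [fd, cons_val_succ, Fin.append_left, g, b1, b2, oa, ou _ (w1 _).1, zero_smul,
        mul_zero, add_zero, smul_zero, Finset.sum_const_zero, zero_add, nsmul_eq_mul]
      rw [← hα]
      push_cast
      ring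
    · have c1 : ∀ i', ((w i).under (𝓞 L)) ⊔ a i' = ⊤ := fun i' =>
        (X.sy.max i).coprime_of_ne (w1 i').1 (w2 i' i)
      obtain ⟨c2, c3⟩ := (pa (p := fun I : Ideal (𝓞 L) => I ≠ ⊥ ∧ ∀ i', I ⊔ a i' = ⊤) (f := Ψ)
        (by simp) (fun _ _ b b' => ⟨mul_ne_zero b.1 b'.1, fun i' => isCoprime_iff_sup_eq.1
          ((isCoprime_iff_sup_eq.2 (b.2 i')).mul_left (isCoprime_iff_sup_eq.2 (b'.2 i')))⟩)
        fun _ _ b b' => Y.add _ _ b.1 b'.1 b.2 b'.2).1 _ E₁ ⟨max_ne (X.sy.max i), c1⟩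
      have b0 := Y.prd (x i) _ 0 (RingOfIntegers.coe_ne_zero_iff.1 (x0 i)) c2.2
        (by simp only [x2, Pi.zero_apply, pow_zero, Finset.prod_const_one, mul_one])
      have b1 := fun i' => hg i' (Units.mk0 _ (x0 i))
      simp only [w8, Units.val_mk0, oa, zero_smul, add_zero] at b1
      simp only [c3, b1, smul_ite, smul_zero, Finset.sum_ite_eq', Finset.mem_univ, if_true,
        nsmul_eq_mul] at b0
      have b2 := congrFun hn i
      simp only [vecMul, dotProduct, Matrix.add_apply, of_apply, diagonal_apply, mul_add,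
        Finset.sum_add_distrib, mul_ite, mul_zero, Finset.sum_ite_eq', Finset.mem_univ, if_true,
        Pi.smul_apply, smul_eq_mul] at b2
      simp only [fd, cons_val_succ, Fin.append_right, f', sp, (ok 0).1, ou _ (X.sy.max i),
        X.un, zero_smul, mul_zero, add_zero, smul_zero, vs, smul_eq_mul, mul_add,
        Finset.sum_add_distrib, ite_smul, mul_ite, Finset.sum_ite_eq', Finset.mem_univ, if_true,
        natCast_zsmul, nsmul_eq_mul, ZMod.natCast_zmod_val]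
      push_cast at hβ b0 b2
      linear_combination b2 + y (Fin.natAdd r i) * hβ + n i * 3 ^ j * b0

end Vale.Agent.P014Y.C.Al
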