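import Vale.Agent.P014Y.C.Al.Amb
import Vale.Agent.P014Y.C.Al.Gbx

/-!
# P014 Y, block AL: divisors of ideals, group lemmas
-/

set_option linter.unusedSectionVars false

open NumberField Module IsDedekindDomain
open scoped Classical

noncomputable section

namespace Vale.Agent.P014Y.C.Al.Df

open Vale.Agent.P027M.S (Pr)
open Vale.Agent.P022K.Exi (od)
open Gx Multiplicative

section grp

variable {G F H : Type} [CommGroup G] [CommGroup F] [CommGroup H]

theorem fg_of [Group.FG F] [Group.FG H] (E : Subgroup G) (f : G →* F) (U : H →* G)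
    (h : E ⊓ f.ker ≤ U.range) : E.FG := by
  have _ : Module.Finite ℤ (Additive F) := Module.Finite.iff_addGroup_fg.2 inferInstance
  have h1 : (Subgroup.toAddSubgroup U.range).toIntSubmodule.FG := by
    rw [Submodule.fg_iff_addSubgroup_fg, AddSubgroup.toIntSubmodule_toAddSubgroup,
      ← Subgroup.fg_iff_add_fg, ← Group.fg_iff_subgroup_fg]
    infer_instance
  rw [Subgroup.fg_iff_add_fg, ← AddSubgroup.toIntSubmodule_toAddSubgroup (Subgroup.toAddSubgroup E),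
    ← Submodule.fg_iff_addSubgroup_fg]
  exact Submodule.fg_of_fg_map_of_fg_inf_ker (MonoidHom.toAdditive f).toIntLinearMap
    (IsNoetherian.noetherian _) (h1.of_le fun x hx => h (x := x.toMul) hx)

theorem fin_rel {β : Type} [Finite β] (N : Subgroup G) (s : Submonoid G) (c : s → β)
    (h : ∀ a b, c a = c b → (a : G) / b ∈ N) : N.relIndex (Subgroup.closure s) ≠ 0 := by
  let q := QuotientGroup.mk' N
  have h1 : (s.map q : Set (G ⧸ N)).Finite := by
    refine (Set.finite_range fun y : β =>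
      if k : ∃ a, c a = y then q k.choose else 1).subset ?_
    rintro _ ⟨a, ha, rfl⟩
    have k : ∃ b, c b = c ⟨a, ha⟩ := ⟨_, rfl⟩
    refine ⟨c ⟨a, ha⟩, (dif_pos k).trans ?_⟩
    exact QuotientGroup.eq_iff_div_mem.2 (h _ _ k.choose_spec)
  let R : Subgroup (G ⧸ N) := { s.map q with
    inv_mem' := fun {x} hx => Submonoid.powers_le.2 hx ((finite_powers.1 (h1.subset
      (Submonoid.powers_le.2 hx))).mem_powers_iff_mem_zpowers.2 (inv_mem (Subgroup.mem_zpowers x))) }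
  have h2 : (Subgroup.closure (s : Set G)).map q ≤ R :=
    Subgroup.map_le_iff_le_comap.2 ((Subgroup.closure_le _).2 fun x hx => ⟨x, hx, rfl⟩)
  rw [← QuotientGroup.ker_mk' N, Subgroup.relIndex_ker]
  have : Finite ((Subgroup.closure (s : Set G)).map q) := (h1.subset h2).to_subtype
  exact Nat.card_pos.ne'

theorem i2_range {T : Type} [Fintype T] (ψ : Multiplicative (T → ℤ) →* G)
    (h : Function.Injective ψ) : ic ψ.range = 3 ^ Fintype.card T := by
  have h1 : cb ψ.range = (powMonoidHom 3 : Multiplicative (T → ℤ) →* _).range.map ψ := by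
    rw [cb, MonoidHom.map_range, MonoidHom.map_range]
    congr 1
    ext x
    simp
  have h2 := AddSubgroup.index_range_nsmul (T → ℤ) 3
  rw [Module.finrank_fintype_fun_eq_card] at h2
  rw [ic, h1, MonoidHom.range_eq_map ψ, Subgroup.relIndex_map_map_of_injective _ _ h,
    Subgroup.relIndex_top_right, ← h2, ← AddSubgroup.index_toSubgroup]
  rfl

end grp

variable {K : Type} [Field K] [NumberField K] {ι : ℂ →+* ℂ_[3]} {J : K →+* ℂ}
  {A : Type} [Field A] [NumberField A] [Algebra K A]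

/-- the divisor of an ideal -/
def dI (I : Ideal (𝓞 A)) : Dv A := fun P => .ofAdd (multiplicity P.asIdeal I : ℤ)

theorem dI_mul {I I' : Ideal (𝓞 A)} (h : I ≠ ⊥) (h' : I' ≠ ⊥) : dI (I * I') = dI I * dI I' :=
  funext fun P => by
    rw [Pi.mul_apply, dI, dI, dI, multiplicity_mul P.prime
      (.of_prime_left P.prime (mul_ne_zero h h')), Nat.cast_add, ofAdd_add]

theorem dI_eq {I : Ideal (𝓞 A)} {P : Pr A} : dI I P = 1 ↔ ¬ I ≤ P.asIdeal := by
  rw [dI, ofAdd_eq_one, Nat.cast_eq_zero, multiplicity_eq_zero, Ideal.dvd_iff_le]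

theorem dI_top : dI (⊤ : Ideal (𝓞 A)) = 1 :=
  funext fun P => dI_eq.2 fun h => P.isPrime.ne_top (top_unique h)

theorem dI_pow {I : Ideal (𝓞 A)} (h : I ≠ ⊥) (n : ℕ) : dI (I ^ n) = dI I ^ n := by
  induction n with
  | zero => rw [pow_zero, pow_zero, Ideal.one_eq_top, dI_top]
  | succ n ih => rw [pow_succ, pow_succ, dI_mul (pow_ne_zero n h) h, ih]

theorem pj_apply (S : Set (Pr A)) (p : Dv A) (P : Pr A) : pj S p P = if P ∈ S then 1 else p P := by
  simp only [pj, MonoidHom.pi_apply]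
  split_ifs <;> rfl

theorem pj_empty (p : Dv A) : pj ∅ p = p := funext fun P => by simp [pj_apply]

theorem dd_eq (S : Set (Pr A)) (x : Aˣ) : dd S x = pj S (dd ∅ x) :=
  congrArg (pj S) (pj_empty _).symm

theorem dd_apply (x : Aˣ) (P : Pr A) : dd ∅ x P = od P x := congrFun (pj_empty _) P

theorem dd_int {x : Aˣ} {a : 𝓞 A} (h : (x : A) = a) : dd ∅ x = dI (Ideal.span {a}) :=
  funext fun P => by
    have a0 : a ≠ 0 := fun e => x.ne_zero (by simp [h, e])
    rw [dd_apply]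
    exact congrArg ofAdd (P027M.S.Cls.ordv_of (by
      rw [h]
      exact (P.valuation_of_algebraMap a).trans (P.intValuation_eq_exp_neg_multiplicity a0)))

theorem ex_div {L : Type} [Field L] [NumberField L] (x : Lˣ) :
    ∃ (y z : Lˣ) (a b : 𝓞 L), (y : L) = a ∧ (z : L) = b ∧ x = y / z := by
  obtain ⟨a, b, hb, e⟩ := IsFractionRing.div_surjective (𝓞 L) (x : L)
  have b0 : (b : L) ≠ 0 := RingOfIntegers.coe_ne_zero_iff.2 (nonZeroDivisors.ne_zero hb)
  have a0 : (a : L) ≠ 0 := fun k => x.ne_zero (by rw [← e]; exact div_eq_zero_iff.2 (.inl k))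
  exact ⟨.mk0 a a0, .mk0 b b0, a, b, rfl, rfl, Units.ext (by simpa using e.symm)⟩

/-- the action on the integers -/
abbrev so (σ : A ≃ₐ[K] A) : 𝓞 A →+* 𝓞 A := MulSemiringAction.toRingHom _ (𝓞 A) σ

/-- the action on the primes -/
abbrev cm (σ : A ≃ₐ[K] A) (P : Pr A) : Pr A := P.comap (so σ) (MulAction.surjective σ)

theorem ta_apply (σ : A ≃ₐ[K] A) (p : Dv A) (P : Pr A) : ta σ p P = p (cm σ P) := rfl

theorem so_coe (σ : A ≃ₐ[K] A) (a : 𝓞 A) : (so σ a : A) = σ a := rfl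

theorem ta_dI (σ : A ≃ₐ[K] A) (I : Ideal (𝓞 A)) : ta σ (dI I) = dI (I.map (so σ)) :=
  funext fun P => by
    rw [ta_apply, dI, dI]
    refine congrArg (fun n : ℕ => ofAdd (n : ℤ)) (multiplicity_eq_of_emultiplicity_eq
      (emultiplicity_eq_emultiplicity_iff.2 fun n => ?_))
    have e := Ideal.map_comap_of_surjective (so σ) (MulAction.surjective σ) P.asIdeal
    rw [Ideal.dvd_iff_le, Ideal.dvd_iff_le, ← e, ← Ideal.map_pow, Ideal.map_le_iff_le_comap,
      Ideal.comap_map_of_bijective _ (MulAction.bijective σ)]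
    rfl

theorem pj_ta {S : Set (Pr A)} {σ : A ≃ₐ[K] A} (h : ∀ P, cm σ P ∈ S ↔ P ∈ S) (p : Dv A) :
    pj S (ta σ p) = ta σ (pj S p) := funext fun P => by
  rw [ta_apply, pj_apply, pj_apply, ta_apply, if_congr (h P) rfl rfl]

theorem dd_ua (σ : A ≃ₐ[K] A) (x : Aˣ) : dd ∅ (ua σ x) = ta σ (dd ∅ x) := by
  have k : ∀ (y : Aˣ) (a : 𝓞 A), (y : A) = a → dd ∅ (ua σ y) = ta σ (dd ∅ y) := fun y a h => by
    rw [dd_int h, ta_dI, Ideal.map_span, Set.image_singleton]
    exact dd_int (congrArg σ h)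
  obtain ⟨y, z, a, b, h1, h2, rfl⟩ := ex_div x
  simp only [map_div, k y a h1, k z b h2]

theorem so_s (σ : A ≃ₐ[K] A) (s : 𝓞 K) :
    so σ (algebraMap (𝓞 K) (𝓞 A) s) = algebraMap (𝓞 K) (𝓞 A) s :=
  RingOfIntegers.ext (σ.commutes (s : K))

theorem s_cm (σ : A ≃ₐ[K] A) (s : 𝓞 K) (P : Pr A) :
    algebraMap (𝓞 K) (𝓞 A) s ∈ (cm σ P).asIdeal ↔ algebraMap (𝓞 K) (𝓞 A) s ∈ P.asIdeal := by
  change so σ _ ∈ P.asIdeal ↔ _
  rw [so_s]

theorem av_iff (P : Pr A) : Av ι J P.asIdeal ↔ ¬ Pv ι J P.asIdeal :=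
  and_iff_right P.isMaximal

theorem av_cm (σ : A ≃ₐ[K] A) (P : Pr A) : Av ι J (cm σ P).asIdeal ↔ Av ι J P.asIdeal := by
  simp only [av_iff, Pv, s_cm]

variable (L : Type) [Field L] [NumberField L] [Algebra L A]

/-- the extended ideal -/
abbrev xt (I : Ideal (𝓞 L)) : Ideal (𝓞 A) := I.map (algebraMap (𝓞 L) (𝓞 A))

theorem xt_ne {I : Ideal (𝓞 L)} (h : I ≠ ⊥) : (xt L I : Ideal (𝓞 A)) ≠ ⊥ :=
  Ideal.map_ne_bot_of_ne_bot h

variable (A) in
/-- the divisors of the extended ideals -/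
def ML : Submonoid (Dv A) where
  carrier := {f | ∃ I : Ideal (𝓞 L), I ≠ ⊥ ∧ f = dI (xt L I)}
  one_mem' := ⟨⊤, top_ne_bot, by rw [xt, Ideal.map_top, dI_top]⟩
  mul_mem' := by
    rintro _ _ ⟨I, h, rfl⟩ ⟨I', h', rfl⟩
    exact ⟨I * I', mul_ne_zero h h', by
      rw [← dI_mul (xt_ne L h) (xt_ne L h'), ← Ideal.map_mul]⟩

theorem IL_eq (S : Set (Pr A)) : IL L S = (Subgroup.closure (ML A L : Set (Dv A))).map (pj S) := rfl

theorem IL_empty : IL L (∅ : Set (Pr A)) = Subgroup.closure (ML A L : Set (Dv A)) := by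
  rw [IL_eq, show pj (∅ : Set (Pr A)) = MonoidHom.id _ from MonoidHom.ext pj_empty, Subgroup.map_id]

variable {L}

theorem mem_IL {I : Ideal (𝓞 L)} (h : I ≠ ⊥) : dI (xt L I) ∈ IL L (∅ : Set (Pr A)) :=
  (IL_empty L).ge (Subgroup.subset_closure ⟨I, h, rfl⟩)

theorem IL_le {X : Subgroup (Dv A)} (h : ∀ I : Ideal (𝓞 L), I ≠ ⊥ → dI (xt L I) ∈ X) :
    IL L ∅ ≤ X := by
  rw [IL_empty, Subgroup.closure_le]
  rintro _ ⟨I, k, rfl⟩
  exact h I k

theorem dd_map {x : Lˣ} {a : 𝓞 L} (h : (x : L) = a) :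
    dd ∅ (Units.map (algebraMap L A : L →* A) x) = dI (xt L (Ideal.span {a})) := by
  rw [xt, Ideal.map_span, Set.image_singleton]
  exact dd_int (congrArg (algebraMap L A) h)

theorem dd_mem (x : Lˣ) : dd ∅ (Units.map (algebraMap L A : L →* A) x) ∈ IL L (∅ : Set (Pr A)) := by
  have k : ∀ (y : Lˣ) (a : 𝓞 L), (y : L) = a →
      dd ∅ (Units.map (algebraMap L A : L →* A) y) ∈ IL L (∅ : Set (Pr A)) := fun y a h => by
    rw [dd_map h]
    exact mem_IL (by simpa using fun e => y.ne_zero (by simp [h, e]))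
  obtain ⟨y, z, a, b, h1, h2, rfl⟩ := ex_div x
  rw [map_div, map_div]
  exact div_mem (k y a h1) (k z b h2)

theorem xt_fix {σ : A ≃ₐ[K] A} (h : ∀ x : L, σ (algebraMap L A x) = algebraMap L A x)
    (I : Ideal (𝓞 L)) : (xt L I).map (so σ) = xt L I := by
  rw [xt, Ideal.map_map]
  exact congrArg (Ideal.map · I) (RingHom.ext fun x => RingOfIntegers.ext (h x))

theorem xt_stab {σ : A ≃ₐ[K] A} (h : ∀ x : L, ∃ y : L, σ (algebraMap L A x) = algebraMap L A y)
    {I : Ideal (𝓞 L)} (hI : I ≠ ⊥) : ∃ I', I' ≠ ⊥ ∧ (xt L I).map (so σ) = xt L I' := by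
  have k : (xt L I).map (so σ) = xt L (((xt L I).map (so σ)).comap (algebraMap (𝓞 L) (𝓞 A))) := by
    refine le_antisymm (Ideal.map_le_iff_le_comap.2 (Ideal.map_le_iff_le_comap.2 fun x hx => ?_))
      Ideal.map_comap_le
    obtain ⟨y, hy⟩ := h x
    have h1 : IsIntegral ℤ y := by
      rw [← isIntegral_algebraMap_iff (algebraMap L A).injective, ← hy]
      exact (so σ (algebraMap (𝓞 L) (𝓞 A) x)).isIntegral_coe
    obtain ⟨z, h2⟩ : ∃ z : 𝓞 L, so σ (algebraMap (𝓞 L) (𝓞 A) x) = algebraMap (𝓞 L) (𝓞 A) z :=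
      ⟨⟨y, h1⟩, RingOfIntegers.ext hy⟩
    rw [Ideal.mem_comap, Ideal.mem_comap, h2]
    refine Ideal.mem_map_of_mem _ ?_
    rw [Ideal.mem_comap, ← h2]
    exact Ideal.mem_map_of_mem _ (Ideal.mem_map_of_mem _ hx)
  refine ⟨_, fun e => ?_, k⟩
  rw [e] at k
  exact xt_ne L hI ((Ideal.map_eq_bot_iff_of_injective (f := so σ) (MulAction.injective σ)).1
    (k.trans Ideal.map_bot))

/-- multiplicities in extended ideals -/
theorem mult_xt {I : Ideal (𝓞 L)} (h : I ≠ ⊥) (P : Pr A) :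
    multiplicity P.asIdeal (xt L I) = multiplicity P.asIdeal (xt L (P.asIdeal.under (𝓞 L))) *
      multiplicity (P.asIdeal.under (𝓞 L)) I := by
  have q0 : P.asIdeal.under (𝓞 L) ≠ ⊥ := Ideal.under_ne_bot _ P.ne_bot
  have q1 : Prime (P.asIdeal.under (𝓞 L)) :=
    Ideal.prime_of_isPrime q0 (Ideal.IsPrime.under _ P.asIdeal)
  obtain ⟨I', h1, h2⟩ := (FiniteMultiplicity.of_prime_left q1 h).exists_eq_pow_mul_and_not_dvd
  generalize multiplicity (P.asIdeal.under (𝓞 L)) I = n at h1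
  have h3 : I' ≠ ⊥ := fun e => h2 (e ▸ dvd_zero _)
  have h4 : dI (xt L I) P = dI (xt L (P.asIdeal.under (𝓞 L))) P ^ n := by
    rw [h1, xt, Ideal.map_mul, Ideal.map_pow, dI_mul (pow_ne_zero n (xt_ne L q0)) (xt_ne L h3),
      dI_pow (xt_ne L q0), Pi.mul_apply, dI_eq.2 fun k => h2
        (Ideal.dvd_iff_le.2 (Ideal.map_le_iff_le_comap.1 k)), mul_one, Pi.pow_apply]
  have h5 := congrArg toAdd h4
  simp only [dI, toAdd_pow, toAdd_ofAdd, nsmul_eq_mul] at h5
  rw [mul_comm]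
  exact_mod_cast h5

end Vale.Agent.P014Y.C.Al.Df
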