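import Vale.Agent.P014Y.C.Al.St2
import Vale.Agent.P014Y.C.Al.Cmb2
import Vale.Agent.P004C.Al.Cmb

/-!
# P014 Y, block AL: smoothed measures (kit of the row PRN, helper39)
-/

set_option linter.all false

open NumberField Module Ideal
open scoped Classical

noncomputable section

namespace Vale.Agent.P014Y.C.Al

namespace Pn

open Cm
open Gx (pv_two)

variable {K : Type} [Field K] [NumberField K] {ι : ℂ →+* ℂ_[3]} {J : K →+* ℂ} {Ω : ℝ}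
  {M : Type} [Field M] [NumberField M] [Algebra K M] {B l : ℕ} {κ κ' : Type}
  {W : κ → Ideal (𝓞 M)} {Φ Φ' : Ideal (𝓞 M) → ZMod (3 ^ B)} {f g c : Ideal (𝓞 M)}
  {a : Ideal (𝓞 M) → ℂ} {σ C ε x : ℝ} {s : ℕ}

theorem pv_mul (h1 : Pv ι J f) (h2 : Pv ι J g) : Pv ι J (f * g) := by
  obtain ⟨s, a, b⟩ := h1
  obtain ⟨t, c, d⟩ := h2
  exact ⟨s * t, by simp [a, c], by rw [map_mul]; exact mul_mem_mul b d⟩

theorem pv_ne (h1 : Pv ι J f) : f ≠ ⊥ := by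
  rintro rfl
  obtain ⟨s, a, b⟩ := h1
  exact Gx.ne_of (M := M) a (by rw [← Gx.coe_s, mem_bot.1 b]; rfl)

theorem pv_top : Pv ι J (⊤ : Ideal (𝓞 M)) := ⟨1, by simp, trivial⟩

theorem pv_max (h : f.IsMaximal) (k : (3 : 𝓞 M) ∉ f) : Pv ι J f :=
  pv_two (sup_comm f _ ▸ cop_of h (mem_span_singleton_self 3) k)

theorem sm_pv (S : Sm c l) : Pv ι J c := by
  refine ⟨l, ?_, by simpa using (sm_mem S).2⟩
  rw [RingOfIntegers.coe_eq_algebraMap, map_natCast, map_natCast, map_natCast]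
  exact nm_cop fun k => S.2.1 ((Nat.prime_dvd_prime_iff_eq Nat.prime_three S.1).1 k).symm

theorem sm_max (S : Sm c l) : c.IsMaximal :=
  (isPrime_of_irreducible_absNorm (S.2.2.1 ▸ S.1)).isMaximal (sm_mem S).1

theorem sm_rn {N : Type} [Field N] [NumberField N] [Algebra M N] {c : Ideal (𝓞 N)} (S : Sm c l) :
    Sm (relNorm (𝓞 M) c) l := by
  refine ⟨S.1, S.2.1, by rw [absNorm_relNorm, S.2.2.1], fun k => S.2.2.2 ?_⟩
  have := map_mono (f := algebraMap (𝓞 M) (𝓞 N)) (le_of_dvd k)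
  rw [map_span, Set.image_singleton, map_natCast, Ideal.map_pow] at this
  exact dvd_iff_le.2 (this.trans (pow_le_pow_left' (map_le_iff_le_comap.2 (relNorm_le_comap _ c)) 2))

theorem sc_mul {d c : ℝ} (hd : 0 < d) (hc : 0 < c) (n k : ℕ) :
    sc Ω (d ^ 2 * c) (n * 2) k = sc Ω d n k * sc Ω (d * c) n k := by
  have h1 := Real.mul_self_sqrt hd.le
  have h2 : √d ≠ 0 := by positivity
  have h3 : √c ≠ 0 := by positivity
  unfold sc
  rw [Real.sqrt_mul (sq_nonneg d), Real.sqrt_mul hd.le, Real.sqrt_sq hd.le, pow_mul, mul_pow,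
    mul_pow, ← pow_mul d, mul_comm 2 k, pow_mul]
  generalize d ^ k = y
  generalize √d = z at *
  subst h1
  field_simp

theorem ex_small {δ : ℝ} (hδ : 0 < δ) : ∃ A0 : ℕ, ∀ A, A0 ≤ A → (1 / 3 : ℝ) ^ A ≤ δ := by
  obtain ⟨n, hn⟩ := exists_pow_lt_of_lt_one hδ (by norm_num : (1 / 3 : ℝ) < 1)
  exact ⟨n, fun A k => (pow_le_pow_of_le_one (by norm_num) (by norm_num) k).trans hn.le⟩

/-- the factors of inert primes are units -/
theorem un {y : ℂ} {e : ℕ} (h : ‖ι y - 1‖ ≤ (1 / 3) ^ (e + 1)) (hl : l % 3 = 1) :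
    ‖ι (l * -y)‖ ≤ 1 ∧ ‖ι (1 - l * -y)‖ = 1 := by
  have h0 : ‖ι y - 1‖ ≤ 1 / 3 := h.trans (by
    rw [pow_succ]
    exact mul_le_of_le_one_left (by norm_num) (pow_le_one₀ (by norm_num) (by norm_num)))
  have h1 : ‖ι y‖ ≤ 1 := by
    rw [← add_sub_cancel 1 (ι y)]
    exact add_le norm_one.le (by linarith)
  have h2 : ‖(2 : ℂ_[3])‖ = 1 := by simpa using nm_cop (m := 2) (by norm_num)
  constructor
  · rw [map_mul, map_natCast, map_neg, norm_mul, norm_neg]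
    exact mul_le_one₀ (nat_le _) (norm_nonneg _) h1
  · have e : (l : ℂ_[3]) = 3 * (l / 3 : ℕ) + 1 := by
      exact_mod_cast congrArg (Nat.cast : ℕ → ℂ_[3]) (by omega : l = 3 * (l / 3) + 1)
    rw [map_sub, map_one, map_mul, map_natCast, map_neg, e, show 1 - (3 * (l / 3 : ℕ) + 1) * -ι y =
      2 + (3 * ((l / 3 : ℕ) * ι y) + (ι y - 1)) by ring, add_eq, h2]
    refine (add_le ?_ h0).trans_lt (by rw [h2]; norm_num)
    rw [norm_mul, nm_two, norm_mul]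
    exact mul_le_of_le_one_right (by norm_num) (mul_le_one₀ (nat_le _) (norm_nonneg _) h1)

/-- additive away from `W`, trivial on the ray -/
structure Ad (W : κ → Ideal (𝓞 M)) (Φ : Ideal (𝓞 M) → ZMod (3 ^ B)) : Prop where
  add : ∀ I I', I ≠ ⊥ → I' ≠ ⊥ → (∀ i, I ⊔ W i = ⊤) → (∀ i, I' ⊔ W i = ⊤) →
    Φ (I * I') = Φ I + Φ I'
  prn : ∀ x : 𝓞 M, x ≠ 0 → (∀ i, x - 1 ∈ W i) → Φ (span {x}) = 0

theorem ad_sy [Fintype κ] {t : 𝓞 M} {φ : κ → M → ZMod (3 ^ B)} (X : Sy t B W Φ φ) : Ad W Φ :=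
  ⟨X.add, fun x hx k => by
    have := X.prd x (span {x}) 0 hx (fun i => one_cop (k i))
      (by simp only [Pi.zero_apply, pow_zero, Finset.prod_const_one, mul_one])
    simpa [fun i => X.tam i x (k i)] using this⟩

theorem ad_aux {r : ℕ} {t : 𝓞 M} {W : Fin (r + 1) → Ideal (𝓞 M)}
    {φ : Fin (r + 1) → M → ZMod (3 ^ B)} (X : Aux t B W Φ φ) : Ad W Φ :=
  ⟨X.add, fun _ => aux_prn X⟩

theorem Ad.mono {W' : κ' → Ideal (𝓞 M)} (X : Ad W Φ)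
    (h : ∀ P : Ideal (𝓞 M) → Prop, (∀ i, P (W' i)) → ∀ i, P (W i)) : Ad W' Φ :=
  ⟨fun I I' a b c d => X.add I I' a b (h (I ⊔ · = ⊤) c) (h (I' ⊔ · = ⊤) d),
    fun x a b => X.prn x a (h (x - 1 ∈ ·) b)⟩

theorem Ad.cm (X : Ad W Φ) (C : P004C.Al.Cm a) (a0 : a ⊥ = 0) (ω : AddChar (ZMod (3 ^ B)) ℂ) :
    P004C.Al.Cm fun I => (if ∀ i, I ⊔ W i = ⊤ then a I else 0) * ω (Φ I) := by
  refine ⟨?_, fun I I' => ?_⟩
  · have := X.prn 1 one_ne_zero fun i => by simp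
    rw [span_singleton_one, ← one_eq_top] at this
    rw [if_pos fun i => by simp, C.one, this, ω.map_zero_eq_one, mul_one]
  · by_cases h1 : I = ⊥
    · simp [h1, a0]
    by_cases h2 : I' = ⊥
    · simp [h2, a0]
    simp only [mul_cop, forall_and]
    by_cases h3 : ∀ i, I ⊔ W i = ⊤
    · by_cases h4 : ∀ i, I' ⊔ W i = ⊤
      · rw [if_pos ⟨h3, h4⟩, if_pos h3, if_pos h4, C.mul, X.add I I' h1 h2 h3 h4, ω.map_add_eq_mul]
        ring
      · rw [if_neg fun k => h4 k.2, if_neg h4, zero_mul, zero_mul, mul_zero]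
    · rw [if_neg fun k => h3 k.1, if_neg h3, zero_mul, zero_mul, zero_mul]

/-- the conclusion of the rows `BND`, `BNDR` -/
def Bd (ι : ℂ →+* ℂ_[3]) (σ C : ℝ) (f : Ideal (𝓞 M)) (a : Ideal (𝓞 M) → ℂ) (c : Ideal (𝓞 M))
    (l : ℕ) : Prop := ∀ u, Ry f u → (∀ I, ‖ι (u I)‖ ≤ 1) →
  σ * ‖ι (∑' I, a I * (u I - l * a c * u (c * I)))‖ ≤ C

/-- the data of a smoothed series -/
structure Ok (W : κ → Ideal (𝓞 M)) (f : Ideal (𝓞 M)) (a : Ideal (𝓞 M) → ℂ) (c : Ideal (𝓞 M)) :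
    Prop where
  le : ∀ i, f ≤ W i
  sup : ∀ I, a I ≠ 0 → I ≠ ⊥ ∧ ∀ i, I ⊔ W i = ⊤
  ne : c ≠ ⊥
  cop : ∀ i, c ⊔ W i = ⊤
  sum : Summable a

theorem bd2 (D : Bd ι σ C f a c l) (o : Ok W f a c) (X : Ad W Φ) (X' : Ad W Φ')
    (F : ZMod (3 ^ B) → ZMod (3 ^ B) → ℂ) (hF : ∀ I, ‖ι (F (Φ I) (Φ' I))‖ ≤ 1) :
    σ * ‖ι (∑' I, a I * (F (Φ I) (Φ' I) - l * a c * F (Φ c + Φ I) (Φ' c + Φ' I)))‖ ≤ C := by
  refine le_of_eq_of_le ?_ (D (fun I => if I ≠ ⊥ ∧ ∀ i, I ⊔ W i = ⊤ then F (Φ I) (Φ' I) else 0)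
    (fun I x hx k => ?_) fun I => ?_)
  · congr 3
    refine tsum_congr fun I => ?_
    by_cases k : a I = 0
    · simp [k]
    have k := o.sup I k
    rw [if_pos k, if_pos ⟨mul_ne_zero o.ne k.1, fun i => mul_cop.2 ⟨o.cop i, k.2 i⟩⟩,
      X.add c I o.ne k.1 o.cop k.2, X'.add c I o.ne k.1 o.cop k.2]
  · have h1 := fun i => one_cop (o.le i k)
    have h2 : span {x} ≠ (⊥ : Ideal (𝓞 M)) := mt span_singleton_eq_bot.1 hx
    by_cases hI : I ≠ ⊥ ∧ ∀ i, I ⊔ W i = ⊤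
    · simp only [if_pos hI]
      rw [if_pos ⟨mul_ne_zero h2 hI.1, fun i => mul_cop.2 ⟨h1 i, hI.2 i⟩⟩,
        X.add _ _ h2 hI.1 h1 hI.2, X'.add _ _ h2 hI.1 h1 hI.2, X.prn x hx fun i => o.le i k,
        X'.prn x hx fun i => o.le i k, zero_add, zero_add]
    · simp only [if_neg hI]
      exact if_neg fun k => hI ⟨right_ne_zero_of_mul k.1, fun i => (mul_cop.1 (k.2 i)).2⟩
  · split_ifs
    · exact hF I
    · simp

theorem mu_bd (D : Bd ι σ C f a c l) (o : Ok W f a c) (X : Ad W Φ) (y : ZMod (3 ^ B)) :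
    σ * ‖ι (mu a Φ c l y)‖ ≤ C := by
  have := mu_sum (Φ := Φ) o.sum c l fun z => if z = y then 1 else 0
  have e : ∑ z, mu a Φ c l z * (if z = y then 1 else 0) = mu a Φ c l y := by simp
  rw [← e, this]
  exact bd2 D o X X (fun z _ => if z = y then 1 else 0) fun I => by split_ifs <;> simp

theorem sm_of (ha : Summable a) (G : ZMod (3 ^ B) → ℂ) : Summable fun I => a I * G (Φ I) :=
  (summable_sum (s := Finset.univ) fun y _ =>
    (ha.indicator {I | Φ I = y}).mul_right (G y)).congr fun I => by simp [Set.indicator_apply]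

/-- the moments of two close smoothed measures are close -/
theorem mu_cl (D : Bd ι σ C f a c l) (o : Ok W f a c) (X : Ad W Φ) (X' : Ad W Φ') (i j : ℕ)
    (h : ∀ I, ‖(((Φ' I).val.choose i : ℕ) : ℂ_[3]) - ((Φ I).val.choose i : ℕ)‖ ≤ (1 / 3) ^ j) :
    σ * ‖ι (mc (mu a Φ' c l) i) - ι (mc (mu a Φ c l) i)‖ ≤ C * (1 / 3) ^ j := by
  have p : (0 : ℝ) < 3 ^ j := by positivity
  have n3 : ‖ι (3 ^ j)‖ = (1 / 3) ^ j := by rw [map_pow, map_ofNat, norm_pow, nm_two]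
  have := bd2 D o X X' (fun y z => ((z.val.choose i : ℕ) - (y.val.choose i : ℕ)) / 3 ^ j) fun I => by
    rw [map_div₀, norm_div, n3, map_sub, map_natCast, map_natCast]
    exact div_le_one_of_le₀ (h I) (by positivity)
  refine le_of_eq_of_le ?_ (mul_le_mul_of_nonneg_right this (by positivity))
  rw [mul_assoc, ← n3, ← norm_mul, ← map_mul, ← map_sub, mc, mc, mu_sum o.sum, mu_sum o.sum,
    ← tsum_mul_right, ← Summable.tsum_sub
      (sm_of (Φ := Φ') o.sum fun y => (y.val.choose i : ℕ) - l * a c * ((Φ' c + y).val.choose i : ℕ))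
      (sm_of (Φ := Φ) o.sum fun y => (y.val.choose i : ℕ) - l * a c * ((Φ c + y).val.choose i : ℕ))]
  congr 3
  refine tsum_congr fun I => ?_
  field_simp
  ring

variable {θ θ' : ZMod (3 ^ B) → ℂ}

theorem mo_mono {ε' : ℝ} (h : Mo ι σ θ s C ε x) (k : ε ≤ ε') : Mo ι σ θ s C ε' x :=
  ⟨h.bd, fun i hi => (h.sm i hi).trans k, h.ld.trans k⟩

theorem mo_cl {η : ℝ} (h : Mo ι σ θ s C ε x) (h0 : 0 ≤ σ) (b : ∀ y, σ * ‖ι (θ' y)‖ ≤ C)
    (k : ∀ i ≤ s, σ * ‖ι (mc θ i) - ι (mc θ' i)‖ ≤ η) : Mo ι σ θ' s C (ε + η) x := by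
  have e : ∀ i ≤ s, |σ * ‖ι (mc θ i)‖ - σ * ‖ι (mc θ' i)‖| ≤ η := fun i hi => by
    rw [← mul_sub, abs_mul, abs_of_nonneg h0]
    exact (mul_le_mul_of_nonneg_left (abs_norm_sub_norm_le _ _) h0).trans (k i hi)
  refine ⟨b, fun i hi => ?_, ?_⟩
  · have := abs_le.1 (e i hi.le)
    linarith [h.sm i hi]
  · have := abs_le.1 (e s le_rfl)
    have := abs_le.1 h.ld
    rw [abs_le]
    constructor <;> linarith

/-- several unit factors -/
theorem iter (h0 : 0 ≤ ε) (U : ∀ (μ ν : ZMod (3 ^ B) → ℂ) (t : ℂ) y, ‖ι t‖ ≤ 1 → ‖ι (1 - t)‖ = 1 →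
      (∀ ω : AddChar (ZMod (3 ^ B)) ℂ, ∑ z, ν z * ω z = (1 - t * ω y) * ∑ z, μ z * ω z) →
      ∀ ε', 0 ≤ ε' → Mo ι σ ν s C ε' x → Mo ι σ μ s C (2 * ε' + ε) x)
    (t : κ → ℂ) (y : κ → ZMod (3 ^ B)) (ht : ∀ j, ‖ι (t j)‖ ≤ 1 ∧ ‖ι (1 - t j)‖ = 1) {ε' : ℝ}
    (h1 : 0 ≤ ε') (h : Mo ι σ θ' s C ε' x) (S : Finset κ) : ∀ θ : ZMod (3 ^ B) → ℂ,
    (∀ ω : AddChar (ZMod (3 ^ B)) ℂ,
      ∑ z, θ' z * ω z = (∑ z, θ z * ω z) * ∏ j ∈ S, (1 - t j * ω (y j))) →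
    Mo ι σ θ s C (2 ^ S.card * (ε' + ε) - ε) x := by
  induction S using Finset.induction_on with
  | empty =>
    intro θ k
    obtain rfl : θ' = θ := eq_of_ch fun ω => by simpa using k ω
    simpa using h
  | insert j S hj ih =>
    intro θ k
    have p : (1 : ℝ) ≤ 2 ^ S.card := one_le_pow₀ one_le_two
    refine mo_mono (U θ _ (t j) (y j) (ht j).1 (ht j).2 (sm_ch θ _ _) _ (by nlinarith)
      (ih _ fun ω => ?_)) (le_of_eq ?_)
    · rw [k, sm_ch, Finset.prod_insert hj]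
      ring
    · rw [Finset.card_insert_of_notMem hj]
      ring

end Pn

end Vale.Agent.P014Y.C.Al
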