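import Vale.Agent.P014Y.C.Al.Amb

/-!
# P014 Y, block AL: abelian groups (words and rows)
-/

open scoped Classical

noncomputable section

namespace Vale.Agent.P014Y.C.Al

export Vale.Agent.P004C.Al (Pa i2)

section abs

variable {X D Y : Type} [CommGroup X] [CommGroup D] [CommGroup Y]

/-- the minus part -/
def mn (s : X →* X) (U : Subgroup X) : Subgroup X := U ⊓ (nm s).ker

variable (d : X →* D) (u : X →* X) (u' : D →* D) (U' U U₀ : Subgroup X) (I' I : Subgroup D)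

/-- elements and divisors of a cubic extension -/
structure P3 : Prop where
  eq : ∀ x, d (u x) = u' (d x)
  le : U' ≤ U
  fx : ∀ x ∈ U', u x = x
  st : ∀ x ∈ U, u x ∈ U ∧ u (u (u x)) = x ∧ n3 u x ∈ U'
  le' : I' ≤ I
  fx' : ∀ p ∈ I', u' p = p
  st' : ∀ p ∈ I, u' p ∈ I ∧ u' (u' (u' p)) = p ∧ n3 u' p ∈ I'
  dv' : U'.map d ≤ I'
  dv : U.map d ≤ I
  tf : ∀ p ∈ I, p ^ 3 = 1 → p = 1

/-- pairs `(p, x)` with `N p = d x` -/
def Hn : Subgroup (D × X) :=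
  I.prod U' ⊓ ((n3 u').comp (MonoidHom.fst D X)).eqLocus (d.comp (MonoidHom.snd D X))

/-- pairs `(d y, N y)` -/
def Hd : Subgroup (D × X) := U.map (d.prod (n3 u))

/-- the order of the relative class group -/
def hh : ℕ := (Hd d u U).relIndex (Hn d u' U' I)

/-- the order of the cokernel of the norm -/
def h2 : ℕ := (I.map (n3 u') ⊔ U'.map d).relIndex I'

/-- the units of norm one -/
def Em : Subgroup X := U ⊓ d.ker ⊓ (n3 u).ker

/-- the order of the kernel of the norm between two levels -/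
def bb : ℕ := U.relIndex (U₀ ⊓ U'.comap (n3 u))

/-- the level below -/
structure Lv : Prop where
  le : U ≤ U₀
  cb : cb U₀ ≤ U
  dv : U₀.map d ≤ I
  st : ∀ x ∈ U₀, u x ∈ U₀
  tf : ∀ x ∈ U₀, x ^ 3 = 1 → x = 1
  ne : bb u U' U U₀ ≠ 0
  n1 : ic (Em d u U) ≠ 0
  ge : bb u U' U U₀ ≤ ic (Em d u U)

/-- an automorphism whose power `3 ^ k` is `u` -/
structure Ga (g : X →* X) (g' : D →* D) (k : ℕ) : Prop where
  eq : ∀ x, d (g x) = g' (d x)
  cu : ∀ x, u (g x) = g (u x)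
  cu' : ∀ p, u' (g' p) = g' (u' p)
  st : U'.map g ≤ U' ∧ U.map g ≤ U ∧ I.map g' ≤ I
  pw : ∀ x ∈ U, g^[3 ^ k] x = u x
  pw' : ∀ p ∈ I, g'^[3 ^ k] p = u' p

end abs

/-- finiteness -/
def A0 : Prop := ∀ (X D : Type) [CommGroup X] [CommGroup D] (d : X →* D) u u' U' U I' I,
  P3 d u u' U' U I' I → (U.map d).relIndex I ≠ 0 → ic (U' ⊓ d.ker) ≠ 0 → hh d u u' U' U I ≠ 0

/-- the five term sequence -/
def A1 : Prop := ∀ (X D Y : Type) [CommGroup X] [CommGroup D] [CommGroup Y] (d : X →* D) u u'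
  (f : X → Y) U' U I' I, P3 d u u' U' U I' I → Mu f U' → Jx d f U' I' ≠ 0 →
  hh d u u' U' U I ≠ 0 → Jx d (f ∘ n3 u) U I * h2 d u' U' I' I ∣ Jx d f U' I' * hh d u u' U' U I

/-- removing inert primes -/
def A2 : Prop := ∀ (X D : Type) [CommGroup X] [CommGroup D] (d : X →* D) u u' U' U I' I
  (π : D →* D), P3 d u u' U' U I' I → (∀ p, π (u' p) = u' (π p)) → I ⊓ π.ker ≤ I' →
  h2 d u' U' I' I ≠ 0 → ic (I ⊓ π.ker) ≠ 0 →
  hh (π.comp d) u u' U' U (I.map π) * h2 d u' U' I' I =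
    ic (I ⊓ π.ker) * hh d u u' U' U I * h2 (π.comp d) u' U' (I'.map π) (I.map π) ∧
  hh d u u' U' U I ∣ hh (π.comp d) u u' U' U (I.map π) ∧
  h2 (π.comp d) u' U' (I'.map π) (I.map π) ∣ h2 d u' U' I' I

/-- modules over the cyclotomic integers -/
def OL : Prop := ∀ (B : Type) [CommGroup B] [Finite B] (g : B →* B) (k : ℕ),
  (∀ x, x * g^[3 ^ k] x * g^[2 * 3 ^ k] x = 1) → (cb (⊤ : Subgroup B)).index < 3 ^ (2 * 3 ^ k) →
  (cb (⊤ : Subgroup B)).index = 3 ^ v3 (Nat.card B)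

/-- **the relative class number is bounded by the number of Kummer elements** -/
def A3 : Prop := ∀ (X D : Type) [CommGroup X] [CommGroup D] (d : X →* D) u u' g g' U' U U₀ I' I k,
  P3 d u u' U' U I' I → Lv d u U' U U₀ I → Ga d u u' U' U I g g' k → hh d u u' U' U I ≠ 0 →
  ∀ (Z : Type) [Finite Z] (κ : X → Z), (∀ x ∈ U, ∀ y ∈ U, d x ∈ cb I → d y ∈ cb I → κ x = κ y →
    x / y ∈ cb U₀) → Nat.card Z < 3 ^ (2 * 3 ^ k) → 3 ^ v3 (hh d u u' U' U I) ≤ Nat.card Z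

/-- the index does not depend on the precision of the characters -/
def A4 : Prop := ∀ (X D Y Y₁ : Type) [CommGroup X] [CommGroup D] [CommGroup Y] [CommGroup Y₁]
  (d : X →* D) (f : X → Y₁) (π : Y₁ →* Y) U I (j a : ℕ), Mu f U → U.map d ≤ I →
  Function.Surjective π → (∀ y ∈ π.ker, ∃ z, y = z ^ 3 ^ j) → (∀ y : Y₁, y ^ 3 ^ a = 1) →
  Jx d (π ∘ f) U I ≠ 0 → v3 (Jx d (π ∘ f) U I) < j → Jx d f U I = Jx d (π ∘ f) U I

/-- a projection which is injective on the divisors -/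
def A5 : Prop := ∀ (X D Y : Type) [CommGroup X] [CommGroup D] [CommGroup Y] (d : X →* D)
  (f : X → Y) (π : D →* D) U I, Mu f U → U.map d ≤ I → I ⊓ π.ker = ⊥ →
  Jx (π.comp d) f U (I.map π) = Jx d f U I

/-- plus and minus: indices which are powers of three -/
def PMI : Prop := ∀ (X : Type) [CommGroup X] (s : X →* X) (B' B C' C : Subgroup X), B' ≤ B →
  (∀ x ∈ B', s x = x) → (∀ x ∈ B, s x ∈ B ∧ s (s x) = x ∧ x * s x ∈ B') →
  ic B = ic B' * ic (mn s B) ∧ (C ≤ B → C' = C ⊓ B' → (∀ x ∈ C, s x ∈ C) → cb B ≤ C →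
    C.relIndex B = C'.relIndex B' * (mn s C).relIndex (mn s B))

/-- the minus part of a quadratic pair: finiteness -/
def MIN : Prop := ∀ (X D : Type) [CommGroup X] [CommGroup D] (d : X →* D) s t U' U I' I,
  Pa d s t U' U I' I → (U.map d).relIndex I ≠ 0 → i2 (U' ⊓ d.ker) ≠ 0 →
  ((mn s U).map d).relIndex (mn t I) ≠ 0

/-- plus and minus: the cokernels -/
def PMJ : Prop := ∀ (X D Y Y' Z : Type) [CommGroup X] [CommGroup D] [CommGroup Y] [CommGroup Y']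
  [CommGroup Z] (d : X →* D) s t U' U I' I (f : X → Y) (f' : X → Y') (g : X → Z)
  (α : Y →* Y' × Z) (β : Y' × Z →* Y), Pa d s t U' U I' I → Mu f U → Mu f' U' → Mu g (mn s U) →
  (∀ y, β (α y) = y ^ 2) → (∀ y, α (β y) = y ^ 2) → (∀ x ∈ U, α (f x) = (f' (x * s x), g (x / s x))) →
  (∀ x ∈ U', ∀ y ∈ mn s U, β (f' x, g y) = f (x * y)) → Jx d f U I ≠ 0 → Jx d f' U' I' ≠ 0 →
  Jx d g (mn s U) (mn t I) ≠ 0 →
  v3 (Jx d f U I) = v3 (Jx d f' U' I') + v3 (Jx d g (mn s U) (mn t I))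

/-- the kernel of the norm between two levels is not larger than the units of norm one -/
def LVA : Prop := ∀ (X : Type) [CommGroup X] (u : X →* X) (U' U U₀' U₀ E' E E₁ : Subgroup X)
  (n : ℕ), U' ≤ U₀' → U ≤ U₀ → U₀.map (n3 u) ≤ U₀' → U.map (n3 u) ≤ U' →
  U₀' ≤ U₀.map (n3 u) ⊔ U' → U.relIndex U₀ = 3 ^ (3 * n) → U'.relIndex U₀' = 3 ^ n → E' ≤ E →
  (∀ x ∈ E', u x = x) → E.map (n3 u) ≤ E' → (∀ x ∈ E, x ^ 3 = 1 → x = 1) → ic E = 3 ^ (3 * n) →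
  ic E' = 3 ^ n → E ⊓ (n3 u).ker ≤ E₁ → (∀ x ∈ E₁, x ^ 3 ∈ E ⊓ (n3 u).ker → x ∈ E ⊓ (n3 u).ker) →
  ic E₁ ≠ 0 → bb u U' U U₀ ≠ 0 ∧ bb u U' U U₀ ≤ ic E₁

end Vale.Agent.P014Y.C.Al
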