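import Vale.Agent.P014Y.C.Al.St0
import Vale.Agent.P014Y.C.Al.AxSt
import Vale.Agent.P004C.Al.St3

/-!
# P014 Y, block AL: four fields (words and rows)
-/

open NumberField Module IsDedekindDomain
open scoped Classical

noncomputable section

namespace Vale.Agent.P014Y.C.Al

open Vale.Agent.P027M.S (Pr)

export Vale.Agent.P004C.Al (Pres)

/-- a quadratic pair `N / M` and a cubic step to the pair `A / E` -/
structure Sq (K : Type) [Field K] where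
  M : Type
  N : Type
  E : Type
  A : Type
  [fM : Field M]
  [nM : NumberField M]
  [fN : Field N]
  [nN : NumberField N]
  [fE : Field E]
  [nE : NumberField E]
  [fA : Field A]
  [nA : NumberField A]
  [aM : Algebra K M]
  [aN : Algebra K N]
  [aE : Algebra K E]
  [aA : Algebra K A]
  [mN : Algebra M N]
  [mE : Algebra M E]
  [mA : Algebra M A]
  [bN : Algebra N A]
  [bE : Algebra E A]
  [t1 : IsScalarTower K M N]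
  [t2 : IsScalarTower K M E]
  [t3 : IsScalarTower K M A]
  [t4 : IsScalarTower K N A]
  [t5 : IsScalarTower K E A]
  [t6 : IsScalarTower M N A]
  [t7 : IsScalarTower M E A]
  τ : N ≃ₐ[M] N
  τ' : A ≃ₐ[E] A
  ω : E ≃ₐ[M] E
  ω' : A ≃ₐ[N] A
  d2 : finrank M N = 2
  d2' : finrank E A = 2
  d3 : finrank M E = 3
  d3' : finrank N A = 3
  ne : τ ≠ 1
  ne' : τ' ≠ 1
  o3 : orderOf ω = 3
  o3' : orderOf ω' = 3
  ct : ∀ x, algebraMap N A (τ x) = τ' (algebraMap N A x)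
  co : ∀ x, algebraMap E A (ω x) = ω' (algebraMap E A x)
  cm : ∀ x, τ' (ω' x) = ω' (τ' x)
  rt : ∃ w : M, w ^ 2 + w + 1 = 0

attribute [instance] Sq.fM Sq.nM Sq.fN Sq.nN Sq.fE Sq.nE Sq.fA Sq.nA Sq.aM Sq.aN Sq.aE Sq.aA Sq.mN
  Sq.mE Sq.mA Sq.bN Sq.bE Sq.t1 Sq.t2 Sq.t3 Sq.t4 Sq.t5 Sq.t6 Sq.t7

section

variable {K : Type} [Field K] [NumberField K] (ι : ℂ →+* ℂ_[3]) (J : K →+* ℂ)

/-- the minus divisors of `L` outside `S` -/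
def IM {A : Type} [Field A] [NumberField A] [Algebra K A] (σ : A ≃ₐ[K] A) (L : Type) [Field L]
    [Algebra L A] (S : Set (Pr A)) : Subgroup (Dv A) :=
  (mi (ta σ) (IL L (Ss ι J A 1))).map (pj S)

namespace Sq

variable (q : Sq K)

/-- the involution -/
def σ : q.A ≃ₐ[K] q.A := q.τ'.restrictScalars K

/-- the automorphism of order three -/
def ρ : q.A ≃ₐ[K] q.A := q.ω'.restrictScalars K

/-- the minus elements of `N` -/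
def Un (m : ℕ) : Subgroup q.Aˣ := mi (ua q.σ) (UL ι J q.N m)

/-- the minus elements of `A` -/
def Ua (m : ℕ) : Subgroup q.Aˣ := mi (ua q.σ) (UL ι J q.A m)

/-- the order of the new part of the minus ray class group -/
def hM (S : Set (Pr q.A)) (m : ℕ) : ℕ :=
  hh (dd S) (ua q.ρ) (ta q.ρ) (q.Un ι J m) (q.Ua ι J m) (IM ι J q.σ q.A S)

/-- the order of the cokernel of the norm -/
def cM (S : Set (Pr q.A)) (m : ℕ) : ℕ :=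
  h2 (dd S) (ta q.ρ) (q.Un ι J m) (IM ι J q.σ q.N S) (IM ι J q.σ q.A S)

end Sq

end

/-- quadratic pairs -/
def PQ : Prop := ∀ (K : Type) [Field K] [NumberField K] (ι : ℂ →+* ℂ_[3]) (J : K →+* ℂ) (Ω : ℝ),
  Base ι J Ω → ∀ (A L L₂ : Type) [Field A] [NumberField A] [Field L] [NumberField L] [Field L₂]
  [NumberField L₂] [Algebra K A] [Algebra K L] [Algebra K L₂] [Algebra L L₂] [Algebra L A]
  [Algebra L₂ A] [IsScalarTower K L L₂] [IsScalarTower K L₂ A] [IsScalarTower L L₂ A]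
  [IsScalarTower K L A] (τ : L₂ ≃ₐ[L] L₂) (σ : A ≃ₐ[K] A), finrank L L₂ = 2 → τ ≠ 1 →
  (∀ x, algebraMap L₂ A (τ x) = σ (algebraMap L₂ A x)) → ∀ (m : ℕ) (S : Set (Pr A)),
  (∀ p, pj S (ta σ p) = ta σ (pj S p)) →
  Pa (dd S) (ua σ) (ta σ) (UL ι J L m) (UL ι J L₂ m) (IL L S) (IL L₂ S)

/-- cubic pairs -/
def PC : Prop := ∀ (K : Type) [Field K] [NumberField K] (ι : ℂ →+* ℂ_[3]) (J : K →+* ℂ) (Ω : ℝ),
  Base ι J Ω → ∀ (A L L₃ : Type) [Field A] [NumberField A] [Field L] [NumberField L] [Field L₃]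
  [NumberField L₃] [Algebra K A] [Algebra K L] [Algebra K L₃] [Algebra L L₃] [Algebra L A]
  [Algebra L₃ A] [IsScalarTower K L L₃] [IsScalarTower K L₃ A] [IsScalarTower L L₃ A]
  [IsScalarTower K L A] (ω : L₃ ≃ₐ[L] L₃) (ρ : A ≃ₐ[K] A), finrank L L₃ = 3 → orderOf ω = 3 →
  (∀ x, algebraMap L₃ A (ω x) = ρ (algebraMap L₃ A x)) → ∀ m : ℕ,
  (∀ S : Set (Pr A), (∀ p, pj S (ta ρ p) = ta ρ (pj S p)) →
    P3 (dd S) (ua ρ) (ta ρ) (UL ι J L m) (UL ι J L₃ m) (IL L S) (IL L₃ S)) ∧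
  (∀ x : L₃ˣ, n3 (ua ρ) (Units.map (algebraMap L₃ A : L₃ →* A) x) =
    Units.map (algebraMap L A : L →* A) (Units.map (Algebra.norm L) x)) ∧
  (2 ≤ m → (∃ θ : L₃, Vi ι J θ ∧ Algebra.trace L L₃ θ = 1) →
    UL ι J L m ≤ (UL ι J L₃ m).map (n3 (ua ρ)) ⊔ UL ι J L (m + 1))

/-- the rank of the units -/
def RKU : Prop := ∀ (K : Type) [Field K] [NumberField K] (ι : ℂ →+* ℂ_[3]) (J : K →+* ℂ) (Ω : ℝ),
  Base ι J Ω → ∀ (A L : Type) [Field A] [NumberField A] [Field L] [NumberField L] [Algebra K A]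
  [Algebra K L] [Algebra L A] [IsScalarTower K L A] (m : ℕ), 2 ≤ m →
  3 * ic (UL ι J L m ⊓ (dd (∅ : Set (Pr A))).ker) = 3 ^ finrank K L

/-- forgetting primes preserves the divisors of a subfield -/
def PJ : Prop := ∀ (K : Type) [Field K] [NumberField K] (ι : ℂ →+* ℂ_[3]) (J : K →+* ℂ) (Ω : ℝ),
  Base ι J Ω → ∀ (A L₀ L : Type) [Field A] [NumberField A] [Field L₀] [NumberField L₀] [Field L]
  [NumberField L] [Algebra K A] [Algebra L₀ L] [Algebra L₀ A] [Algebra L A]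
  [IsScalarTower L₀ L A] (T : Set (Ideal (𝓞 L₀))) (S : Set (Pr A)),
  S = {P | Av ι J P.asIdeal ∨ P.asIdeal.under (𝓞 L₀) ∈ T} →
  IL L S ≤ IL L (Ss ι J A 1) ∧ ∀ σ : A ≃ₐ[K] A, (∀ p, pj S (ta σ p) = ta σ (pj S p)) →
    mn (ta σ) (IL L S) = IM ι J σ L S

/-- the minus groups are a cubic pair -/
def MP3 : Prop := ∀ (K : Type) [Field K] [NumberField K] (ι : ℂ →+* ℂ_[3]) (J : K →+* ℂ) (Ω : ℝ),
  Base ι J Ω → ∀ (q : Sq K) (m : ℕ) (S : Set (Pr q.A)), 2 ≤ m → Ss ι J q.A 1 ⊆ S → S.Finite →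
  (∀ p, pj S (ta q.ρ p) = ta q.ρ (pj S p)) →
  P3 (dd S) (ua q.ρ) (ta q.ρ) (q.Un ι J m) (q.Ua ι J m) (IM ι J q.σ q.N S) (IM ι J q.σ q.A S) ∧
    q.hM ι J S m ≠ 0 ∧ q.cM ι J S m ≠ 0

/-- **the new minus class number is bounded by the number of Kummer elements** -/
def HB : Prop := ∀ (K : Type) [Field K] [NumberField K] (ι : ℂ →+* ℂ_[3]) (J : K →+* ℂ) (Ω : ℝ),
  Base ι J Ω → ∀ (q : Sq K) (γ : q.A ≃ₐ[K] q.A) (k : ℕ) (s : 𝓞 K), γ * q.σ = q.σ * γ →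
  γ ^ 3 ^ k = q.ρ → Pres q.N γ → (∃ θ : q.A, Vi ι J θ ∧ Algebra.trace q.N q.A θ = 1) → s ≠ 0 →
  ∀ m, 2 ≤ m → ∀ (Z : Type) [Finite Z] (κ : q.Aˣ → Z),
  (∀ x ∈ mi (ua q.σ) (Um ι J q.A (m + 1)), ∀ y ∈ mi (ua q.σ) (Um ι J q.A (m + 1)),
    dd (Ss ι J q.A s) x ∈ cb (IL q.A (Ss ι J q.A s)) →
    dd (Ss ι J q.A s) y ∈ cb (IL q.A (Ss ι J q.A s)) → κ x = κ y → x / y ∈ cb (Um ι J q.A m)) →
  Nat.card Z < 3 ^ (2 * 3 ^ k) → 3 ^ v3 (q.hM ι J (Ss ι J q.A s) (m + 1)) ≤ Nat.card Z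

/-- removing primes which are inert in the cubic step -/
def TWO : Prop := ∀ (K : Type) [Field K] [NumberField K] (ι : ℂ →+* ℂ_[3]) (J : K →+* ℂ) (Ω : ℝ),
  Base ι J Ω → ∀ (q : Sq K) (m : ℕ), 2 ≤ m → ∀ (T : Set (Ideal (𝓞 q.M))) (T' : Set (Ideal (𝓞 q.N)))
  (S : Set (Pr q.A)), T.Finite → (∀ P ∈ T, P.IsMaximal ∧ Ine q.E P ∧ Pv ι J P) →
  T' = {Q | Q.IsMaximal ∧ Q.under (𝓞 q.M) ∈ T} → (∀ Q ∈ T', Ine q.A Q) →
  S = {P | Av ι J P.asIdeal ∨ P.asIdeal.under (𝓞 q.M) ∈ T} →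
  v3 (q.hM ι J S m) + v3 (q.cM ι J (Ss ι J q.A 1) m) + T.ncard =
    T'.ncard + v3 (q.hM ι J (Ss ι J q.A 1) m) + v3 (q.cM ι J S m)

/-- **the minus cokernels in the cubic step** -/
def JM : Prop := ∀ (K : Type) [Field K] [NumberField K] (ι : ℂ →+* ℂ_[3]) (J : K →+* ℂ) (Ω : ℝ),
  Base ι J Ω → ∀ (q : Sq K) (s : 𝓞 K), ‖ι (J s)‖ = 1 → (∀ P ∈ Ps q.M s, Ine q.E P) →
  (∀ P ∈ Ps q.N s, Ine q.A P) → ∀ (n : ℕ) (w : Fin n → Ideal (𝓞 q.N)) (S : Set (Pr q.A)),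
  (Function.Injective fun i => (w i).under (𝓞 q.M)) →
  (∀ i, (w i).IsMaximal ∧ 3 ∉ w i ∧ Ine q.A (w i) ∧ Ine q.E ((w i).under (𝓞 q.M))) →
  S = Sw ι J q.A (fun i => (w i).under (𝓞 q.M)) → ∀ m, 2 ≤ m →
  ∀ (Y : Type) [CommGroup Y] (F : q.Aˣ → Y), Mu F (q.Un ι J m) →
  Jx (dd S) F (q.Un ι J m) (IM ι J q.σ q.N S) ≠ 0 →
  Jx (dd S) (F ∘ n3 (ua q.ρ)) (q.Ua ι J m) (IM ι J q.σ q.A S) ≠ 0 ∧
  v3 (Jx (dd S) (F ∘ n3 (ua q.ρ)) (q.Ua ι J m) (IM ι J q.σ q.A S)) + (Ps q.N s).ncard ≤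
    v3 (Jx (dd S) F (q.Un ι J m) (IM ι J q.σ q.N S)) + n + (Ps q.M s).ncard +
      v3 (q.hM ι J (Ss ι J q.A s) m)

/-- **the algebraic half of the pair theorem** -/
def PRA : Prop := ∀ (K : Type) [Field K] [NumberField K] (ι : ℂ →+* ℂ_[3]) (J : K →+* ℂ) (Ω : ℝ),
  Base ι J Ω → ∀ (A M N : Type) [Field A] [NumberField A] [Field M] [NumberField M] [Field N]
  [NumberField N] [Algebra K A] [Algebra K M] [Algebra K N] [Algebra M N] [Algebra M A]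
  [Algebra N A] [IsScalarTower K M N] [IsScalarTower K N A] [IsScalarTower M N A]
  [IsScalarTower K M A] (τ : N ≃ₐ[M] N) (σ : A ≃ₐ[K] A), finrank M N = 2 → τ ≠ 1 →
  (∀ x, algebraMap N A (τ x) = σ (algebraMap N A x)) →
  ∀ (d s B m a c₀ c j : ℕ) (t t' : 𝓞 M) (w : Fin s → Ideal (𝓞 N)) Φ f
    (p : Fin (d + 1) → Ideal (𝓞 M)) Ψ g₀ g f', t ≠ 0 → 3 ∣ t' → t' ∣ t →
  Bm ι J τ t B (m + a) c₀ w Φ f → Pk ι J τ t B (m + a) c j w Φ f p Ψ g₀ g f' → 2 ≤ m → a ≤ m →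
  a ≤ B → c + c * (d + s) + j ≤ a →
  ∀ (F : Aˣ → Multiplicative (Fin s → ZMod (3 ^ j))) (S : Set (Pr A)),
    (∀ (x : Nˣ) i, (F (Units.map (algebraMap N A : N →* A) x)).toAdd i = (f i x).cast) →
    S = Sw ι J A (fun i => (w i).under (𝓞 M)) →
    Jx (dd S) F (mi (ua σ) (UL ι J N (m + a))) (IM ι J σ N S) ≠ 0 →
    v3 (Jx (dd S) F (mi (ua σ) (UL ι J N (m + a))) (IM ι J σ N S)) < j →
  ∀ (n : ℕ) (b : Basis (Fin n) K M) (n₂ : ℕ) (b₂ : Basis (Fin n₂) K N) γ R γ₂ R₂, Vb ι J b →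
    Vb ι J b₂ → Gb ι J (Wd p w) m γ → Rp ι J (Wd p w) m t' R → Gb ι J (Wu τ p w) m γ₂ →
    Rp ι J (Wu τ p w) m (algebraMap (𝓞 M) (𝓞 N) t') R₂ →
    (1 / 3) ^ (c + c * (d + s)) ≤ Dt ι J b m (fd g f') γ R ∧
    Dt ι J b₂ m (fu τ g f') γ₂ R₂ = Dt ι J b m (fd g f') γ R *
      (1 / 3) ^ v3 (Jx (dd S) F (mi (ua σ) (UL ι J N (m + a))) (IM ι J σ N S))

end Vale.Agent.P014Y.C.Al
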