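import Vale.Agent.P014Y.C.Al.St1
import Vale.Agent.P014Y.C.Al.Cmb0
import Vale.Agent.P014Y.C.Cg.StB
import Vale.Agent.P014Y.Tp.St0

/-!
# P014 Y, block AL: analytic rows, Galois rows
-/

open NumberField Module IsDedekindDomain
open scoped Classical

noncomputable section

namespace Vale.Agent.P014Y.C.Al

open Vale.Agent.P022 (Qb GQ GK below)
open Vale.Agent.P027M.S (Pr Inert)
open Vale.Agent.P027M.M (ze)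
open Vale.Agent.P022E.GW (Ov)
open P004C.Al (Gp Gc Ic)
open Cg (Lc)
open Tp (cf Ab Lw Ts Zq ax)

section

variable {K : Type} [Field K] [NumberField K] (ι : ℂ →+* ℂ_[3]) (J : K →+* ℂ) {M : Type} [Field M]
  [NumberField M] [Algebra K M]

/-- the character of a quadratic step, tame above `v` -/
structure Qc (N : Type) [Field N] [Algebra M N] (ψ : Ideal (𝓞 M) → ℂ) : Prop where
  le : ∀ I, ‖ψ I‖ ≤ 1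
  gp : ∀ P, P.IsMaximal → Gp N ψ P
  lc : ∃ f F, Pv ι J f ∧ Lc ι J 0 f F ψ ∧ ‖(Ideal.absNorm F : ℂ_[3])‖ = cf ι J ψ

/-- the character of a cubic step, unramified above `v` -/
structure Tc (E : Type) [Field E] [Algebra M E] (η : Ideal (𝓞 M) → ℂ) : Prop where
  le : ∀ I, ‖η I‖ ≤ 1
  gp : ∀ P, P.IsMaximal → Gp E η P
  hc : ∃ g, Pv ι J g ∧ HC J 0 g η ∧ ∃ w : Ideal (𝓞 M), w.IsMaximal ∧ g ≤ w ∧ 3 ∉ w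

variable {B : ℕ}

/-- the measure of the series without the primes `w` -/
def mw {κ : Type} (w : κ → Ideal (𝓞 M)) (Φ : Ideal (𝓞 M) → ZMod (3 ^ B)) (a : Ideal (𝓞 M) → ℂ) :
    ZMod (3 ^ B) → ℂ := Cm.ms (fun I => if ∀ i, I ⊔ w i = ⊤ then a I else 0) Φ

/-- bounded, small moments below `s`, the moment `s` has size `x` -/
structure Mo (σ : ℝ) (θ : ZMod (3 ^ B) → ℂ) (s : ℕ) (C ε x : ℝ) : Prop where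
  bd : ∀ y, σ * ‖ι (θ y)‖ ≤ C
  sm : ∀ i < s, σ * ‖ι (Cm.mc θ i)‖ ≤ ε
  ld : |σ * ‖ι (Cm.mc θ s)‖ - x| ≤ ε

end

/-- smoothing primes exist -/
def SMX : Prop := ∀ (L L₂ : Type) [Field L] [NumberField L] [Field L₂] [NumberField L₂]
  [Algebra L L₂], finrank L L₂ = 2 → (∃ w : L, w ^ 2 + w + 1 = 0) → ∀ N : ℕ, N ≠ 0 →
  (∃ (l : ℕ) (c : Ideal (𝓞 L₂)), ¬ l ∣ N ∧ Sm c l) ∧
    ∃ (l : ℕ) (c : Ideal (𝓞 L)), ¬ l ∣ N ∧ Sm c l ∧ Ine L₂ c ∧ l % 3 = 1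

/-- products of characters -/
def LCM : Prop := ∀ (K : Type) [Field K] [NumberField K] (ι : ℂ →+* ℂ_[3]) (J : K →+* ℂ) (Ω : ℝ),
  Base ι J Ω → ∀ (M : Type) [Field M] [NumberField M] [Algebra K M] (k : ℕ)
  (f F g : Ideal (𝓞 M)) (ψ a : Ideal (𝓞 M) → ℂ), Pv ι J f → Pv ι J g → Lc ι J 0 f F ψ →
  HC J k g a → Lc ι J k (f * g) F fun I => ψ I * a I

/-- **measures**: division, units, perturbation, products -/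
def MEA : Prop := ∀ (ι : ℂ →+* ℂ_[3]) (s : ℕ) (C : ℝ),
  (∀ (r : ℕ) (δ ε : ℝ), 0 < δ → 0 < ε → ∃ ε' > 0, ∃ B0, ∀ B, B0 ≤ B →
    ∀ (μ ν θ : ZMod (3 ^ B) → ℂ) (σ₁ σ x y : ℝ), 0 < σ₁ → 0 < σ →
    (∀ ω : AddChar (ZMod (3 ^ B)) ℂ, ∑ z, ν z * ω z = (∑ z, μ z * ω z) * ∑ z, θ z * ω z) →
    Mo ι σ₁ μ r C ε' y → Mo ι (σ₁ * σ) ν (r + s) C ε' (y * x) → (∀ z, σ * ‖ι (θ z)‖ ≤ C) → δ ≤ y →
    Mo ι σ θ s C ε x) ∧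
  (∀ ε : ℝ, 0 < ε → ∃ B0, ∀ B, B0 ≤ B → ∀ (μ ν : ZMod (3 ^ B) → ℂ) (σ : ℝ) (t : ℂ) y, 0 < σ →
    ‖ι t‖ ≤ 1 → ‖ι (1 - t)‖ = 1 →
    (∀ ω : AddChar (ZMod (3 ^ B)) ℂ, ∑ z, ν z * ω z = (1 - t * ω y) * ∑ z, μ z * ω z) →
    ((∀ z, σ * ‖ι (μ z)‖ ≤ C) ↔ ∀ z, σ * ‖ι (ν z)‖ ≤ C) ∧
    ∀ ε' x, 0 ≤ ε' → (Mo ι σ μ s C ε' x → Mo ι σ ν s C (2 * ε' + ε) x) ∧
      (Mo ι σ ν s C ε' x → Mo ι σ μ s C (2 * ε' + ε) x)) ∧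
  (∀ (B j i : ℕ) (x z : ZMod (3 ^ B)), i ≤ s →
    ‖(((x + 3 ^ j * z).val.choose i : ℕ) : ℂ_[3]) - (x.val.choose i : ℕ)‖ ≤ s * (1 / 3) ^ j) ∧
  ∀ ε : ℝ, 0 < ε → ∃ ε' > 0, ∃ B0, ∀ B, B0 ≤ B → ∀ (μ ν θ θ' : ZMod (3 ^ B) → ℂ) (σ x y : ℝ), 0 < σ →
    (∀ ω : AddChar (ZMod (3 ^ B)) ℂ, ∑ z, ν z * ω z =
      (∑ z, μ z * ω z) * (∑ z, θ z * ω z) * ∑ z, θ' z * ω z) →
    Mo ι σ μ s C ε' x → Mo ι (σ ^ 3) ν s C ε' y → (∀ z, σ * ‖ι (θ z)‖ ≤ C) →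
    (∀ z, σ * ‖ι (θ' z)‖ ≤ C) → |y - x * (σ * ‖ι (∑ z, θ z)‖ * (σ * ‖ι (∑ z, θ' z)‖))| ≤ ε

/-- **the analytic half of the pair theorem** -/
def PRN : Prop := ∀ (K : Type) [Field K] [NumberField K] (ι : ℂ →+* ℂ_[3]) (J : K →+* ℂ) (Ω : ℝ),
  Base ι J Ω → ∀ (M N : Type) [Field M] [NumberField M] [Field N] [NumberField N] [Algebra K M]
  [Algebra K N] [Algebra M N] [IsScalarTower K M N] (τ : N ≃ₐ[M] N), finrank M N = 2 → τ ≠ 1 →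
  (∃ w : M, w ^ 2 + w + 1 = 0) → ∀ (n : ℕ) (b : Basis (Fin n) K M) (n₂ : ℕ)
  (b₂ : Basis (Fin n₂) K N) (ψ : Ideal (𝓞 M) → ℂ), Vb ι J b → Vb ι J b₂ → Qc ι J N ψ →
  dv ι J b₂ = dv ι J b ^ 2 * cf ι J ψ → ∀ h : ℕ, 0 < h → ∃ (t l : ℕ) (C : ℝ), t ≠ 0 ∧ 3 * l ∣ t ∧
  ∀ (s d : ℕ) (ε : ℝ), 0 < ε → ∃ j0 : ℕ, ∀ j, j0 ≤ j → ∀ δ : ℝ, 0 < δ → ∃ m0 : ℕ,
  ∀ m, m0 ≤ m → ∃ B0 : ℕ, ∀ e B : ℕ, B0 ≤ e → B0 ≤ B → ∀ lam, La J h (3 ^ e) lam →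
  ∀ (t' : 𝓞 M) (m' c₀ c : ℕ) (w : Fin s → Ideal (𝓞 N)) Φ f (p : Fin (d + 1) → Ideal (𝓞 M)) Ψ g₀ g
    f', (t : 𝓞 M) ∣ t' → Bm ι J τ t' B m' c₀ w Φ f → Pk ι J τ t' B m' c j w Φ f p Ψ g₀ g f' →
  ∀ γ R γ₂ R₂, Gb ι J (Wd p w) m γ → Rp ι J (Wd p w) m (3 * l) R → Gb ι J (Wu τ p w) m γ₂ →
    Rp ι J (Wu τ p w) m (3 * l) R₂ → δ ≤ Dt ι J b m (fd g f') γ R → ∀ x : ℝ,
    Dt ι J b₂ m (fu τ g f') γ₂ R₂ = Dt ι J b m (fd g f') γ R * x →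
    Mo ι (sc Ω (dv ι J b * cf ι J ψ) n (2 * h * 3 ^ e)) (mw (fun i => (w i).under (𝓞 M)) Φ
      fun I => ψ I * lam (Ideal.relNorm (𝓞 K) I)) s C ε x

/-- **the cubic step** -/
def CB3 : Prop := ∀ (K : Type) [Field K] [NumberField K] (ι : ℂ →+* ℂ_[3]) (J : K →+* ℂ) (Ω : ℝ),
  Base ι J Ω → ∀ (M N E : Type) [Field M] [NumberField M] [Field N] [NumberField N] [Field E]
  [NumberField E] [Algebra K M] [Algebra K E] [Algebra M N] [Algebra M E] [IsScalarTower K M E]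
  [IsGalois M E], finrank M N = 2 → finrank M E = 3 → (∃ w : M, w ^ 2 + w + 1 = 0) →
  ∀ (n : ℕ) (b : Basis (Fin n) K M) (ψ η : Ideal (𝓞 M) → ℂ), Vb ι J b → Qc ι J N ψ → Tc ι J E η →
  ∀ s₀ : 𝓞 K, ‖ι (J s₀)‖ = 1 → (∀ P ∈ Ps M s₀, Ine E P) → ∀ h : ℕ, 0 < h → ∃ t : ℕ, t ≠ 0 ∧
  ∀ (s : ℕ) (C δ : ℝ), 0 < δ → ∃ ε > 0, ∃ B0 : ℕ, ∀ e B : ℕ, B0 ≤ e → B0 ≤ B →
  ∀ lam, La J h (3 ^ e) lam → ∀ (t' : 𝓞 M) (w : Fin s → Ideal (𝓞 M)) Φ φ, (t : 𝓞 M) ∣ t' →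
  Sy t' B w Φ φ → (∀ i, Ine E (w i) ∧ ψ (w i) = 1) → ∀ σ x y : ℝ,
  σ = sc Ω (dv ι J b * cf ι J ψ) n (2 * h * 3 ^ e) →
  Mo ι σ (mw w Φ fun I => ψ I * lam (Ideal.relNorm (𝓞 K) I)) s C ε x →
  Mo ι (σ ^ 3) (mw (fun i => (w i).map (algebraMap (𝓞 M) (𝓞 E)))
    (fun I => Φ (Ideal.relNorm (𝓞 M) I))
    fun I => ψ (Ideal.relNorm (𝓞 M) I) * lam (Ideal.relNorm (𝓞 K) I)) s C ε y → δ ≤ y →
  9 * (y * 3 ^ s) ≤ 10 * (x * 3 ^ {P ∈ Ps M s₀ | ψ P = 1}.ncard *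
    (σ * ‖ι (Ls s₀ lam fun I => η I * ψ I)‖ * (σ * ‖ι (Ls s₀ lam fun I => η I ^ 2 * ψ I)‖)))

/-- split primes are counted twice -/
def CNT : Prop := ∀ (K M N : Type) [Field K] [NumberField K] [Field M] [NumberField M] [Field N]
  [NumberField N] [Algebra K M] [Algebra K N] [Algebra M N] [IsScalarTower K M N]
  (ψ : Ideal (𝓞 M) → ℂ), finrank M N = 2 → (∀ P, P.IsMaximal → Gp N ψ P) →
  (∀ s : 𝓞 K, s ≠ 0 → (Ps M s).ncard + {P ∈ Ps M s | ψ P = 1}.ncard ≤ (Ps N s).ncard) ∧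
  ∀ (τ : N ≃ₐ[M] N) (w : Ideal (𝓞 N)), w.IsMaximal → cj τ w ≠ w → ψ (w.under (𝓞 M)) = 1

/-- **the four fields** -/
def COR : Prop := ∀ (K : Type) [Field K] [NumberField K] (ι : ℂ →+* ℂ_[3]) (J : K →+* ℂ) (Ω : ℝ),
  Base ι J Ω → ∀ (q : Sq K) (jA : q.A →+* Qb), Hy q.N jA →
  ∀ (n : ℕ) (b : Basis (Fin n) K q.M) (ψ η : Ideal (𝓞 q.M) → ℂ), Vb ι J b → Qc ι J q.N ψ →
  Qc ι J q.A (fun I : Ideal (𝓞 q.E) => ψ (Ideal.relNorm (𝓞 q.M) I)) → Tc ι J q.E η →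
  (∀ (n' : ℕ) (b' : Basis (Fin n') K q.N), Vb ι J b' → dv ι J b' = dv ι J b ^ 2 * cf ι J ψ) →
  (∀ (n' : ℕ) (b' : Basis (Fin n') K q.E), Vb ι J b' → dv ι J b' = dv ι J b ^ 3) →
  (∀ (n' : ℕ) (b' : Basis (Fin n') K q.A), Vb ι J b' →
    dv ι J b' = (dv ι J b ^ 2 * cf ι J ψ) ^ 3) →
  cf ι J (fun I : Ideal (𝓞 q.E) => ψ (Ideal.relNorm (𝓞 q.M) I)) = cf ι J ψ ^ 3 →
  ∀ s : 𝓞 K, ‖ι (J s)‖ = 1 → (∀ P ∈ Ps q.M s, Ine q.E P) → (∀ P ∈ Ps q.N s, Ine q.A P) →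
  ∀ Z : ℕ, (∀ m, 3 ≤ m → 3 ^ v3 (q.hM ι J (Ss ι J q.A s) m) ≤ Z) → ∀ h : ℕ, 0 < h →
  ∃ a e0 : ℕ, 3 ^ a ≤ Z ∧ ∀ e, e0 ≤ e → ∀ lam, La J h (3 ^ e) lam →
    4 < 5 * (3 ^ a * (sc Ω (dv ι J b * cf ι J ψ) n (2 * h * 3 ^ e) *
      ‖ι (Ls s lam fun I => η I * ψ I)‖ * (sc Ω (dv ι J b * cf ι J ψ) n (2 * h * 3 ^ e) *
      ‖ι (Ls s lam fun I => η I ^ 2 * ψ I)‖)))

/-! ### Galois rows -/

/-- **a ramified prime divides the conductor** -/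
def PRI : Prop := ∀ (M : Type) [Field M] [NumberField M] (j : M →+* Qb) θ n ψ, IsEmpty (M →+* ℝ) →
  Gc j θ n → Ic j θ ψ → ∀ P g : Ideal (𝓞 M), P.IsMaximal → ψ P = 0 → g ≠ ⊥ → g ⊔ P = ⊤ →
  ∃ x : 𝓞 M, x - 1 ∈ g ∧ x ∉ P ∧ ψ (Ideal.span {x}) ≠ 1

/-- quadratic characters -/
def QCX : Prop := ∀ (K : Type) [Field K] [NumberField K] (ι : ℂ →+* ℂ_[3]) (J : K →+* ℂ) (Ω : ℝ),
  Base ι J Ω → ∀ (M N : Type) [Field M] [NumberField M] [Field N] [NumberField N] [Algebra K M]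
  [Algebra M N] (j : M →+* Qb) (j' : N →+* Qb) θ ψ, (∀ x, j' (algebraMap M N x) = j x) →
  finrank M N = 2 → Gc j θ 2 → (∀ g, g ∈ GK j' ↔ g ∈ GK j ∧ θ g = 1) → Ic j θ ψ → Qc ι J N ψ

/-- steps which are unramified at `v`: the trace is onto -/
def TRC : Prop := ∀ (K M N : Type) [Field K] [NumberField K] [Field M] [NumberField M] [Field N]
  [NumberField N] [Algebra K M] [Algebra K N] [Algebra M N] [IsScalarTower K M N]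
  (ι : ℂ →+* ℂ_[3]) (J : K →+* ℂ) (Ω : ℝ), Base ι J Ω → ∀ j' : N →+* Qb,
  (∀ P, Ab ι J (j'.comp (algebraMap K N)) P → ∀ g ∈ GK (j'.comp (algebraMap M N)), Inert P g →
    g ∈ GK j') → ∃ θ : N, Vi ι J θ ∧ Algebra.trace M N θ = 1

/-- the four fields of a layer -/
structure Gq {K L : Type} [Field K] [Field L] (q : Sq K) [Algebra L q.M] (j : L →+* Qb)
    (jA : q.A →+* Qb) (ε : GQ → ZMod 3) (k : ℕ) (e : GQ → ZMod (3 * 3 ^ k)) (γ : q.A ≃ₐ[K] q.A) :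
    Prop where
  cL : ∀ x, jA (algebraMap q.M q.A (algebraMap L q.M x)) = j x
  gM : ∀ g, g ∈ GK (jA.comp (algebraMap q.M q.A)) ↔ g ∈ GK j ∧ 3 * e g = 0
  gN : ∀ g, g ∈ GK (jA.comp (algebraMap q.N q.A)) ↔ g ∈ GK j ∧ ε g = 1 ∧ 3 * e g = 0
  gE : ∀ g, g ∈ GK (jA.comp (algebraMap q.E q.A)) ↔ g ∈ GK j ∧ e g = 0
  gA : ∀ g, g ∈ GK jA ↔ g ∈ GK j ∧ ε g = 1 ∧ e g = 0
  sg : ∃ t ∈ GK j, ε t ≠ 1 ∧ e t = 0 ∧ ∀ x, jA (q.σ x) = t (jA x)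
  cm : γ * q.σ = q.σ * γ
  pw : γ ^ 3 ^ k = q.ρ
  pr : Pres q.N γ

/-- the fields exist -/
def FLD : Prop := ∀ (K L : Type) [Field K] [NumberField K] [Field L] [NumberField L] [Algebra K L]
  (ι : ℂ →+* ℂ_[3]) (J : K →+* ℂ) (j : L →+* Qb) ε c k e S s, (∃ w : L, w ^ 2 + w + 1 = 0) →
  Lw j c k e → Ts ι J j ε c k e S s → (∃ g ∈ GK j, ε g ≠ 1) →
  ∃ (q : Sq K) (_ : Algebra L q.M) (_ : IsScalarTower K L q.M) (jA : q.A →+* Qb)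
    (γ : q.A ≃ₐ[K] q.A), Gq q j jA ε k e γ

/-- ramification in the four fields -/
def GAL : Prop := ∀ (K L : Type) [Field K] [NumberField K] [Field L] [NumberField L] [Algebra K L]
  (ι : ℂ →+* ℂ_[3]) (J : K →+* ℂ) (Ω : ℝ), Base ι J Ω → ∀ (j : L →+* Qb) ε c k e S s (q : Sq K)
  [Algebra L q.M] [IsScalarTower K L q.M] (jA : q.A →+* Qb) γ, Lw j c k e → Ts ι J j ε c k e S s →
  Gq q j jA ε k e γ → Hy q.N jA ∧ (∀ P ∈ Ps q.M s, Ine q.E P) ∧ (∀ P ∈ Ps q.N s, Ine q.A P) ∧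
    (∃ θ : q.A, Vi ι J θ ∧ Algebra.trace q.N q.A θ = 1) ∧
    ∀ η, Ic (jA.comp (algebraMap q.M q.A)) (fun g => ze (3 * 3 ^ k) (e g).val) η → Tc ι J q.E η

/-- characters and discriminants of the four fields -/
def CHR : Prop := ∀ (K L : Type) [Field K] [NumberField K] [Field L] [NumberField L] [Algebra K L]
  (ι : ℂ →+* ℂ_[3]) (J : K →+* ℂ) (Ω : ℝ), Base ι J Ω → ∀ (j : L →+* Qb) ε c k e S s (q : Sq K)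
  [Algebra L q.M] [IsScalarTower K L q.M] (jA : q.A →+* Qb) γ, Lw j c k e → Ts ι J j ε c k e S s →
  Gq q j jA ε k e γ → ∀ ψ₀ ψ, Ic j (fun g => ((ε g).valMinAbs : ℂ)) ψ₀ →
  Ic (jA.comp (algebraMap q.M q.A)) (fun g => ((ε g).valMinAbs : ℂ)) ψ →
  ∀ (n₀ : ℕ) (b₀ : Basis (Fin n₀) K L) (n : ℕ) (b : Basis (Fin n) K q.M), Vb ι J b₀ → Vb ι J b →
  Qc ι J q.N ψ ∧ Qc ι J q.A (fun I : Ideal (𝓞 q.E) => ψ (Ideal.relNorm (𝓞 q.M) I)) ∧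
  (∀ (n' : ℕ) (b' : Basis (Fin n') K q.N), Vb ι J b' → dv ι J b' = dv ι J b ^ 2 * cf ι J ψ) ∧
  (∀ (n' : ℕ) (b' : Basis (Fin n') K q.E), Vb ι J b' → dv ι J b' = dv ι J b ^ 3) ∧
  (∀ (n' : ℕ) (b' : Basis (Fin n') K q.A), Vb ι J b' →
    dv ι J b' = (dv ι J b ^ 2 * cf ι J ψ) ^ 3) ∧
  cf ι J (fun I : Ideal (𝓞 q.E) => ψ (Ideal.relNorm (𝓞 q.M) I)) = cf ι J ψ ^ 3 ∧
  ∀ κ : ℕ, sc Ω (dv ι J b * cf ι J ψ) n κ = sc Ω (dv ι J b₀ * cf ι J ψ₀) n₀ κ ^ 3 ^ k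

/-- **the dictionary** -/
def DIC : Prop := ∀ (K L A : Type) [Field K] [NumberField K] [Field L] [NumberField L] [Field A]
  [NumberField A] [Algebra K L] [Algebra K A] (ι : ℂ →+* ℂ_[3]) (J : K →+* ℂ) (Ω : ℝ), Base ι J Ω →
  ∀ (j₀ : K →+* Qb) (j : L →+* Qb) (jA : A →+* Qb) P ε c k e S s,
  (∀ x, j (algebraMap K L x) = j₀ x) → (∀ x, jA (algebraMap K A x) = j₀ x) → Ab ι J j₀ P →
  (∃ w : L, w ^ 2 + w + 1 = 0) → Lw j c k e → Ts ι J j ε c k e S s →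
  (∀ g, g ∈ GK jA ↔ g ∈ GK j ∧ ε g = 1 ∧ e g = 0) → ∀ (σ : A ≃ₐ[K] A), ∀ t ∈ GK j, ε t ≠ 1 →
  e t = 0 → (∀ x, jA (σ x) = t (jA x)) → ∀ m : ℕ, 2 ≤ m →
  ∃ κ : Aˣ → {F // Zq (GK j₀) (GK j) (S ∪ c.primeFactors) (ax (3 * 3 ^ k) ε fun g => (e g).val) P F},
    ∀ x ∈ mi (ua σ) (Um ι J A (m + 1)), ∀ y ∈ mi (ua σ) (Um ι J A (m + 1)),
      dd (Ss ι J A s) x ∈ cb (IL A (Ss ι J A s)) → dd (Ss ι J A s) y ∈ cb (IL A (Ss ι J A s)) →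
      κ x = κ y → x / y ∈ cb (Um ι J A m)

end Vale.Agent.P014Y.C.Al
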